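import Vale.Agent.P028.Full.Pairs
import Vale.Agent.P028.Full.Anatomy
import Vale.Agent.P028.Full.MomentSmooth

/-!
The events of the moment bound at an index `I`: pairs of level at most `Z (I / 32)` in one cell
above `Y (I / 32)`, with gains which are powers of `Q = Z (I / 8)`.  No event uses the deleted
classes; the band of the second member is an arbitrary function.
-/

noncomputable section

namespace Vale.Agent.P028.Full

open Finset

/-- `Q = Z (I / 8)`. -/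
def qI (I : ℕ) : ℝ := (bandZ (I / 8) : ℝ)

/-- Level at most `Z (I / 32)` and one cell above `Y (I / 32)`. -/
def Ctx.NearI (C : Ctx) (I q r : ℕ) : Prop :=
  r ≠ q ∧ dist2 C.ψ q r ≤ (bandZ (I / 32) : ℝ) ∧ SameCell C.k (C.par.thr (I / 32)) q r

open Classical in
/-- An event weighs at most a negative power of `Q`, uniformly in the band function. -/
def EventSmall (M : ℕ) (c : ℝ) (E : Ctx → ℕ → (ℕ → ℕ) → ℕ → ℕ → Prop) : Prop :=
  ∃ (κ B : ℝ) (I0 : ℕ), 0 < κ ∧ ∀ (ξ K : ℝ) (C : Ctx), C.par = ⟨M, c⟩ → C.Ok ξ K →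
    ∀ (I : ℕ) (jr : ℕ → ℕ), I0 ≤ I →
      ∑ q ∈ C.S, ∑ r ∈ C.S.filter (fun r => C.NearI I q r ∧ E C I jr q r),
        wt C.ψ q * wt C.ψ r ≤ B * qI I ^ (-κ)

/-- The radius of `q` is below `Q ^ (-10)` at the level of the pair. -/
def Ctx.SlackSide (C : Ctx) (I q r : ℕ) : Prop :=
  C.ψ q * (qd r q : ℝ) ≤ qI I ^ (-(10 : ℝ))

/-- `q'` has a large part below `Y (I / 3)`. -/
def Ctx.SmoothSide (C : Ctx) (I q r : ℕ) : Prop :=
  bandZ (I - 4) < smPart (C.par.thr (I / 3)) (qd q r)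

/-- A deficient prime above a band `o ≥ I` is repeated or does not divide a numerator. -/
def Ctx.BadDef (C : Ctx) (I q : ℕ) : Prop :=
  ∃ o ℓ : ℕ, I ≤ o ∧ ℓ.Prime ∧ C.par.thr o < ℓ ∧ ℓ ∣ C.def' o q ∧
    (ℓ ^ 2 ∣ C.def' o q ∨ ∃ (P : ℕ) (u : ℤ), 0 < P ∧ (P : ℝ) ≤ qI I ^ (256 : ℕ) ∧ ¬ (ℓ : ℤ) ∣ u ∧
      |(P : ℝ) * (C.γ * C.def' o q) - u| ≤ qI I ^ (258 : ℕ) / Real.sqrt ℓ)

/-- An eligible band from `I / 3` on has a heavy fibre. -/
def Ctx.HeavyFrom (C : Ctx) (I q : ℕ) : Prop :=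
  ∃ A : ℕ, I / 3 ≤ A ∧ C.rad A q * Real.sqrt (bandZ A) ≤ 1 ∧ ¬ C.Light A q

/-- The nodes at the bands `I` of `q` and `J` of `r` are exact at a near coincidence. -/
def Ctx.ExactAt (C : Ctx) (I J q r : ℕ) : Prop :=
  I ≤ J ∧ C.rad I q * Real.sqrt (bandZ I) ≤ 1 ∧ C.rad J r * Real.sqrt (bandZ J) ≤ 1 ∧
    0 < (C.node I q).2 ∧ 0 < (C.node J r).2 ∧
    ∃ n : ℤ, |(n : ℝ) + C.γ * mdiff q r| < 2 * dist2 C.ψ q r ∧
      anatZ n (C.node I q).2 (C.node J r).2 (C.def' I q) (C.def' J r) (qd r q) (qd q r)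
        (C.node I q).1 (C.node J r).1 = 0

/-- `|P γ b - u|` of the node at band `j`. -/
def Ctx.nodeErr (C : Ctx) (j v : ℕ) : ℝ :=
  |((C.node j v).2 : ℝ) * (C.γ * C.def' j v) - (C.node j v).1|

end Vale.Agent.P028.Full
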