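import Vale.Agent.P028.Full.Moment.Defs
import Vale.Agent.P028.Full.Pools
import Vale.Agent.P028.Full.MomentDiv
import Vale.Agent.P028.Lift.SideSelfParts

/-!
The events in which a large divisor of a node denominator divides a quotient.

The denominator is one of a short list which depends only on the deficiency in the pool: a fraction
`u / P` with `|β - u / P| P ^ 2 ≤ 1 / 64` is unique in a dyadic range of denominators.
-/

noncomputable section

namespace Vale.Agent.P028.Full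

open Finset BilinearAux

namespace EvDiv

/-- A fraction `u / P` extremely near `β`. -/
def NearFrac (β : ℝ) (P : ℕ) : Prop :=
  0 < P ∧ ∃ u : ℤ, IsCoprime u (P : ℤ) ∧ |β - u / P| * (P : ℝ) ^ 2 ≤ 1 / 64

theorem NearFrac.eq_of_log {β : ℝ} {P P' : ℕ} (h : NearFrac β P) (h' : NearFrac β P')
    (hl : Nat.log 2 P = Nat.log 2 P') : P = P' := by
  obtain ⟨hP, u, hu, e⟩ := h
  obtain ⟨hP', u', hu', e'⟩ := h'
  have hb : ∀ {a b : ℕ}, 0 < b → Nat.log 2 a = Nat.log 2 b → (a : ℝ) ≤ 2 * b := by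
    intro a b hb h
    have h1 : a < 2 ^ (Nat.log 2 a + 1) := Nat.lt_pow_succ_log_self (by norm_num) a
    have h2 := Nat.pow_log_le_self 2 hb.ne'
    rw [h, pow_succ] at h1
    exact_mod_cast (show a ≤ 2 * b by omega)
  have h1 := hb hP' hl
  have h2 := hb hP hl.symm
  have hP0 : (0 : ℝ) < P := by exact_mod_cast hP
  have hP'0 : (0 : ℝ) < P' := by exact_mod_cast hP'
  have hlt : |((u * P' - u' * P : ℤ) : ℝ)| < 1 := by
    push_cast
    calc |(u : ℝ) * P' - u' * P|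
        = |(β - u' / P') * ((P : ℝ) * P') - (β - u / P) * ((P : ℝ) * P')| := by
          congr 1; field_simp; ring
      _ ≤ |(β - u' / P') * ((P : ℝ) * P')| + |(β - u / P) * ((P : ℝ) * P')| := abs_sub _ _
      _ ≤ |β - u' / P'| * (2 * ((P' : ℝ) ^ 2)) + |β - u / P| * (2 * ((P : ℝ) ^ 2)) := by
          have e0 : 0 ≤ (P : ℝ) * P' := by positivity
          rw [abs_mul (β - _) _, abs_mul (β - _) _, abs_of_nonneg e0]
          refine add_le_add (mul_le_mul_of_nonneg_left ?_ (abs_nonneg _))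
            (mul_le_mul_of_nonneg_left ?_ (abs_nonneg _)) <;> nlinarith
      _ < 1 := by linarith
  have hz : u * (P' : ℤ) = u' * (P : ℤ) := by
    rw [← Int.cast_abs, ← Int.cast_one, Int.cast_lt, Int.abs_lt_one_iff] at hlt
    linarith
  exact Nat.dvd_antisymm
    (Int.natCast_dvd_natCast.1 (hu.symm.dvd_of_dvd_mul_left ⟨u', by linear_combination hz⟩))
    (Int.natCast_dvd_natCast.1 (hu'.symm.dvd_of_dvd_mul_left ⟨u, by linear_combination -hz⟩))

theorem _root_.Vale.Agent.P028.Full.IsNode.nearFrac {β η : ℝ} {u : ℤ} {P : ℕ} (h : IsNode β η u P) : NearFrac β P := by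
  obtain ⟨hP, hc, a1, a2⟩ := h
  refine ⟨hP, u, hc, ?_⟩
  have hP0 : (0 : ℝ) < P := by exact_mod_cast hP
  set e := (P : ℝ) * β - u with he
  have hη : 0 < η := by nlinarith [sq_nonneg e]
  have hm : (η * P) ^ 2 * e ^ 2 ≤ (η / 64) * (η / 64) :=
    mul_le_mul a1.le a2.le (sq_nonneg _) (by linarith)
  have h3 : η ^ 2 * ((P : ℝ) * |e|) ^ 2 ≤ η ^ 2 * (1 / 64) ^ 2 := by
    rw [mul_pow (P : ℝ), sq_abs]
    linarith
  have h4 : (P : ℝ) * |e| ≤ 1 / 64 := le_of_pow_le_pow_left₀ two_ne_zero (by norm_num)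
    (le_of_mul_le_mul_left h3 (by positivity))
  refine le_trans (le_of_eq ?_) h4
  rw [he, show (P : ℝ) * β - u = (P : ℝ) * (β - u / P) by field_simp, abs_mul,
    abs_of_pos hP0]
  ring

/-- In an exact relation each denominator, without the common part, divides its quotient. -/
theorem dvd_of_anatZ_eq_zero {n u u' : ℤ} {P P' b b' X X' : ℕ}
    (hu : IsCoprime u (P : ℤ)) (hu' : IsCoprime u' (P' : ℤ)) (hb : 0 < b) (hb' : 0 < b')
    (hP : 0 < P) (h : anatZ n P P' b b' (X * b) (X' * b') u u' = 0) :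
    n * ((P : ℤ) * P') + u * ((X : ℤ) * P') - u' * ((X' : ℤ) * P) = 0 ∧
      P / Nat.gcd P P' ∣ X ∧ P' / Nat.gcd P P' ∣ X' := by
  have hZ : n * ((P : ℤ) * P') + u * ((X : ℤ) * P') - u' * ((X' : ℤ) * P) = 0 := by
    have hne : ((b : ℤ) * b') ≠ 0 := by positivity
    refine (mul_eq_zero.1 ?_).resolve_left hne
    simp only [anatZ] at h
    push_cast at h
    linear_combination h
  refine ⟨hZ, ?_, ?_⟩
  · have hd : P ∣ X * P' := Int.natCast_dvd_natCast.1 (hu.symm.dvd_of_dvd_mul_left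
      ⟨u' * X' - n * P', by push_cast; linear_combination hZ⟩)
    have hg : 0 < Nat.gcd P P' := Nat.gcd_pos_of_pos_left _ hP
    refine (Nat.coprime_div_gcd_div_gcd hg).dvd_of_dvd_mul_right
      (Nat.dvd_of_mul_dvd_mul_right hg ?_)
    rw [Nat.div_mul_cancel (Nat.gcd_dvd_left P P'), mul_assoc,
      Nat.div_mul_cancel (Nat.gcd_dvd_right P P')]
    exact hd
  · have hd : P' ∣ X' * P := Int.natCast_dvd_natCast.1 (hu'.symm.dvd_of_dvd_mul_left
      ⟨n * P + u * X, by push_cast; linear_combination -hZ⟩)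
    have hg : 0 < Nat.gcd P P' := Nat.gcd_pos_of_pos_left _ hP
    refine (Nat.coprime_div_gcd_div_gcd hg).symm.dvd_of_dvd_mul_right
      (Nat.dvd_of_mul_dvd_mul_right hg ?_)
    rw [Nat.div_mul_cancel (Nat.gcd_dvd_right P P'), mul_assoc,
      Nat.div_mul_cancel (Nat.gcd_dvd_left P P')]
    exact hd

/-- The exponent `ξ` used for these events. -/
def xiD : ℝ := 1 / 100

/-- The gain of these events. -/
def kapD : ℝ := evSlack xiD / 18

/-- `∑ P ^ (-1/12)` over denominators above `L` with one of each kind in each dyadic range. -/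
theorem exists_sum_dyadic_le :
    ∃ C : ℝ, 0 ≤ C ∧ ∀ (A : Finset ℕ) (L : ℝ), 1 ≤ L → (∀ P ∈ A, L ≤ (P : ℝ)) →
      (∀ l, (A.filter fun P => Nat.log 2 P = l).card ≤ 2) →
      ∑ P ∈ A, (P : ℝ) ^ (-(1 / 12 : ℝ)) ≤ C * L ^ (-(1 / 12 : ℝ)) := by
  set t : ℝ := (2 : ℝ) ^ (-(1 / 12 : ℝ)) with ht
  have ht0 : 0 < t := Real.rpow_pos_of_pos two_pos _
  have ht1 : t < 1 := Real.rpow_lt_one_of_one_lt_of_neg one_lt_two (by norm_num)
  have h1t : 0 < 1 - t := by linarith
  refine ⟨2 * (1 - t)⁻¹ / t, by positivity, fun A L hL hA hcard => ?_⟩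
  have hterm : ∀ P ∈ A, (P : ℝ) ^ (-(1 / 12 : ℝ)) ≤ t ^ Nat.log 2 P := by
    intro P hP
    have hP0 : P ≠ 0 := fun h => by
      have := hA P hP; rw [h] at this; norm_num at this; linarith
    rw [ht, ← Real.rpow_natCast, ← Real.rpow_mul zero_le_two, mul_comm,
      Real.rpow_mul zero_le_two, Real.rpow_natCast]
    exact Real.rpow_le_rpow_of_nonpos (by positivity)
      (by exact_mod_cast Nat.pow_log_le_self 2 hP0) (by norm_num)
  set a := Nat.log 2 ⌊L⌋₊ with ha
  have hfl : 1 ≤ ⌊L⌋₊ := Nat.le_floor (by simpa using hL)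
  have hla : ∀ l ∈ A.image (Nat.log 2), a ≤ l := by
    intro l hl
    obtain ⟨P, hP, rfl⟩ := Finset.mem_image.1 hl
    exact Nat.log_mono_right (Nat.floor_le_of_le (hA P hP))
  have hgeo : ∑ l ∈ A.image (Nat.log 2), t ^ l ≤ t ^ a * (1 - t)⁻¹ := by
    obtain ⟨M, hM⟩ : ∃ M, ∀ l ∈ A.image (Nat.log 2), l ≤ M :=
      ⟨(A.image (Nat.log 2)).sup id, fun l hl => Finset.le_sup (f := id) hl⟩
    refine (Finset.sum_le_sum_of_subset_of_nonneg (t := (Finset.range (M + 1)).image (a + ·))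
      (fun l hl => Finset.mem_image.2 ⟨l - a, Finset.mem_range.2 (by have := hM l hl; omega),
        by have := hla l hl; omega⟩) fun l _ _ => pow_nonneg ht0.le l).trans ?_
    rw [Finset.sum_image (fun x _ y _ h => by omega)]
    simp only [pow_add, ← Finset.mul_sum]
    refine mul_le_mul_of_nonneg_left ?_ (pow_nonneg ht0.le a)
    exact ((summable_geometric_of_lt_one ht0.le ht1).sum_le_tsum _
      fun i _ => pow_nonneg ht0.le i).trans (tsum_geometric_of_lt_one ht0.le ht1).le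
  have hta : t ^ a ≤ L ^ (-(1 / 12 : ℝ)) / t := by
    rw [le_div_iff₀ ht0, ← pow_succ, ht, ← Real.rpow_natCast, ← Real.rpow_mul zero_le_two,
      mul_comm, Real.rpow_mul zero_le_two, Real.rpow_natCast]
    refine Real.rpow_le_rpow_of_nonpos (by linarith) ?_ (by norm_num)
    have h2 : ⌊L⌋₊ + 1 ≤ 2 ^ (a + 1) := Nat.lt_pow_succ_log_self (by norm_num) _
    calc L ≤ ((⌊L⌋₊ + 1 : ℕ) : ℝ) := by push_cast; exact (Nat.lt_floor_add_one L).le
      _ ≤ ((2 ^ (a + 1) : ℕ) : ℝ) := by exact_mod_cast h2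
      _ = _ := by push_cast; rfl
  calc ∑ P ∈ A, (P : ℝ) ^ (-(1 / 12 : ℝ)) ≤ ∑ P ∈ A, t ^ Nat.log 2 P :=
        Finset.sum_le_sum hterm
    _ = ∑ l ∈ A.image (Nat.log 2), ∑ P ∈ A.filter (fun P => Nat.log 2 P = l), t ^ Nat.log 2 P :=
        (Finset.sum_fiberwise_of_maps_to (fun P hP => Finset.mem_image_of_mem _ hP) _).symm
    _ = ∑ l ∈ A.image (Nat.log 2), ((A.filter fun P => Nat.log 2 P = l).card : ℝ) * t ^ l := by
        refine Finset.sum_congr rfl fun l _ => ?_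
        rw [← nsmul_eq_mul, ← Finset.sum_const]
        exact Finset.sum_congr rfl fun P hP => by rw [(Finset.mem_filter.1 hP).2]
    _ ≤ ∑ l ∈ A.image (Nat.log 2), 2 * t ^ l := by
        refine Finset.sum_le_sum fun l _ => mul_le_mul_of_nonneg_right ?_ (pow_nonneg ht0.le l)
        exact_mod_cast hcard l
    _ ≤ 2 * (L ^ (-(1 / 12 : ℝ)) / t * (1 - t)⁻¹) := by
        rw [← Finset.mul_sum]
        refine mul_le_mul_of_nonneg_left (hgeo.trans ?_) zero_le_two
        exact mul_le_mul_of_nonneg_right hta (inv_nonneg.2 h1t.le)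
    _ = _ := by ring

open Classical in
/-- A large part of one of the denominators listed for the pool divides the quotient outside it. -/
theorem exists_nodeDiv_le :
    ∃ B : ℝ, 0 ≤ B ∧ ∀ (k : ℕ → ℕ → ℕ) (S : Finset ℕ) (ψ : ℕ → ℝ) (Y : ℕ) (x L : ℝ)
      (Ps : ℕ → Finset ℕ), (∀ v ∈ S, 0 < v) → (∀ v, 0 ≤ ψ v) → 0 < x → 1 ≤ L →
      (∀ b, ∀ P ∈ Ps b, L ≤ (P : ℝ)) →
      (∀ b l, ((Ps b).filter fun P => Nat.log 2 P = l).card ≤ 2) →
      ∑ q ∈ S, ∑ r ∈ S.filter (fun r => dist2 ψ q r ≤ x ∧ SameCell k Y q r ∧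
          ∃ P ∈ Ps (kDef k S Y q), ∃ e : ℕ, e ∣ P ∧ P ≤ e ^ 2 ∧ e * kDef k S Y q ∣ qd r q),
        wt ψ q * wt ψ r ≤ B * L ^ (-kapD) * x ^ (1 - xiD) * mass ψ S ^ (1 + xiD) := by
  obtain ⟨B, hB, hev⟩ := exists_div_event_le xiD (by norm_num [xiD]) (by norm_num [xiD])
  obtain ⟨Cτ, hCτ, hτ⟩ := Lift.SideSelfAux.exists_divisors_le_rpow (1 / 36) (by norm_num)
  obtain ⟨Cd, hCd, hdy⟩ := exists_sum_dyadic_le
  set C1 : ℝ := Cτ ^ 3 * Cd + 1 with hC1
  have hC10 : 0 ≤ C1 := by positivity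
  refine ⟨B * C1 ^ (1 / 3 : ℝ) * 2 ^ (xiD / 7), by positivity, ?_⟩
  intro k S ψ Y x L Ps hS hψ hx hL hPs hcard
  set cand : ℕ → Finset ℕ := fun b => (Ps b).biUnion fun P =>
    P.divisors.filter fun e => P ≤ e ^ 2 with hcand
  have hL0 : (0 : ℝ) < L := by linarith
  have hP0 : ∀ b, ∀ P ∈ Ps b, 0 < P := fun b P hP => by
    exact_mod_cast hL0.trans_le (hPs b P hP)
  set L' : ℝ := L ^ (1 / 6 : ℝ) with hL'
  have hL'1 : 1 ≤ L' := Real.one_le_rpow hL (by norm_num)
  have hbig : ∀ b, ∀ e ∈ cand b, L' * L' * L' ≤ (e : ℝ) := by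
    intro b e he
    obtain ⟨P, hP, he⟩ := Finset.mem_biUnion.1 he
    obtain ⟨-, he2⟩ := Finset.mem_filter.1 he
    rw [hL', ← Real.rpow_add hL0, ← Real.rpow_add hL0,
      show (1 / 6 : ℝ) + 1 / 6 + 1 / 6 = 1 / 2 by norm_num, ← Real.sqrt_eq_rpow, Real.sqrt_le_iff]
    exact ⟨Nat.cast_nonneg e, (hPs b P hP).trans (by exact_mod_cast he2)⟩
  have hG : ∀ b, ∑ e ∈ cand b, candW e ≤ Cτ ^ 3 * Cd * L ^ (-(1 / 12 : ℝ)) := by
    intro b
    refine (sum_biUnion_le_sum _ _ candW_nonneg).trans ?_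
    have hone : ∀ P ∈ Ps b, ∑ e ∈ P.divisors.filter (fun e => P ≤ e ^ 2), candW e ≤
        Cτ ^ 3 * (P : ℝ) ^ (-(1 / 12 : ℝ)) := by
      intro P hP
      have hP1 : (0 : ℝ) < P := by exact_mod_cast hP0 b P hP
      have hc := hτ P (hP0 b P hP)
      have hc0 : (0 : ℝ) ≤ (P.divisors.card : ℝ) := Nat.cast_nonneg _
      have hterm : ∀ e ∈ P.divisors.filter (fun e => P ≤ e ^ 2),
          candW e ≤ (P.divisors.card : ℝ) ^ 2 * (P : ℝ) ^ (-(1 / 6 : ℝ)) := by
        intro e he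
        obtain ⟨he, he2⟩ := Finset.mem_filter.1 he
        have he0 : (0 : ℝ) < e := by exact_mod_cast Nat.pos_of_mem_divisors he
        rw [candW, div_eq_mul_inv, ← Real.rpow_neg he0.le]
        refine mul_le_mul (pow_le_pow_left₀ (Nat.cast_nonneg _) (Nat.cast_le.2
          (Finset.card_le_card (Nat.divisors_subset_of_dvd (hP0 b P hP).ne'
            (Nat.dvd_of_mem_divisors he)))) 2) ?_ (Real.rpow_nonneg he0.le _) (sq_nonneg _)
        rw [show -(1 / 6 : ℝ) = 2⁻¹ * -(1 / 3) by norm_num, Real.rpow_mul hP1.le]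
        refine Real.rpow_le_rpow_of_nonpos (Real.rpow_pos_of_pos hP1 _) ?_ (by norm_num)
        rw [← one_div, ← Real.sqrt_eq_rpow, Real.sqrt_le_iff]
        exact ⟨he0.le, by exact_mod_cast he2⟩
      refine (Finset.sum_le_sum hterm).trans ?_
      rw [Finset.sum_const, nsmul_eq_mul]
      have hcf : ((P.divisors.filter (fun e => P ≤ e ^ 2)).card : ℝ) ≤ P.divisors.card :=
        Nat.cast_le.2 (Finset.card_filter_le _ _)
      calc _ ≤ (P.divisors.card : ℝ) * ((P.divisors.card : ℝ) ^ 2 * (P : ℝ) ^ (-(1 / 6 : ℝ))) :=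
            mul_le_mul_of_nonneg_right hcf (by positivity)
        _ = (P.divisors.card : ℝ) ^ 3 * (P : ℝ) ^ (-(1 / 6 : ℝ)) := by ring
        _ ≤ (Cτ * (P : ℝ) ^ (1 / 36 : ℝ)) ^ 3 * (P : ℝ) ^ (-(1 / 6 : ℝ)) := by gcongr
        _ = Cτ ^ 3 * (P : ℝ) ^ (-(1 / 12 : ℝ)) := by
            rw [mul_pow, mul_assoc, ← Real.rpow_natCast ((P : ℝ) ^ (1 / 36 : ℝ)) 3,
              ← Real.rpow_mul hP1.le, ← Real.rpow_add hP1]
            norm_num
    refine (Finset.sum_le_sum hone).trans ?_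
    rw [← Finset.mul_sum, mul_assoc]
    exact mul_le_mul_of_nonneg_left (hdy _ L hL (hPs b) (hcard b)) (by positivity)
  have hgain : (Cτ ^ 3 * Cd * L ^ (-(1 / 12 : ℝ)) + L' ^ (-evSlack xiD)) ^ (1 / 3 : ℝ) ≤
      C1 ^ (1 / 3 : ℝ) * L ^ (-kapD) := by
    have e1 : L' ^ (-evSlack xiD) = L ^ (-(evSlack xiD / 6)) := by
      rw [hL', ← Real.rpow_mul hL0.le]; ring_nf
    have e2 : L ^ (-(1 / 12 : ℝ)) ≤ L ^ (-(evSlack xiD / 6)) :=
      Real.rpow_le_rpow_of_exponent_le hL (by norm_num [evSlack, xiD])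
    calc _ ≤ (C1 * L ^ (-(evSlack xiD / 6))) ^ (1 / 3 : ℝ) := by
          refine Real.rpow_le_rpow (by positivity) ?_ (by norm_num)
          rw [e1, hC1, add_mul, one_mul]
          gcongr
      _ = _ := by
          rw [Real.mul_rpow hC10 (Real.rpow_nonneg hL0.le _), ← Real.rpow_mul hL0.le, kapD]
          ring_nf
  set H := (S.biUnion Nat.primeFactors).filter (fun p => Y < p) with hH
  set W : ℕ → ℕ → Prop := fun q r => dist2 ψ q r ≤ x ∧ SameCell k Y q r ∧
    ∃ P ∈ Ps (kDef k S Y q), ∃ e : ℕ, e ∣ P ∧ P ≤ e ^ 2 ∧ e * kDef k S Y q ∣ qd r q with hW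
  have hcell : ∀ v₀ ∈ S, ∑ q ∈ kCell k S Y v₀,
      ∑ r ∈ (kCell k S Y v₀).filter (fun r => W q r), wt ψ q * wt ψ r ≤
      B * (C1 ^ (1 / 3 : ℝ) * L ^ (-kapD)) * x ^ (1 - xiD) *
        (2 ^ (xiD / 7) * mass ψ (kCell k S Y v₀) ^ (1 + xiD)) := by
    intro v₀ hv₀
    set Cl := kCell k S Y v₀ with hCl
    have hclS : Cl ⊆ S := Finset.filter_subset _ _
    have hkk : ∀ v ∈ Cl, ∀ p : ℕ, p.Prime → Y < p → k v p = k v₀ p := fun v hv p hp hY =>
      ((Finset.mem_filter.1 hv).2 p hp hY).symm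
    have hM : 0 ≤ mass ψ Cl := BilinearAux.mass_nonneg hψ Cl
    have h := hev ψ ψ Cl Cl H x L' (Cτ ^ 3 * Cd * L ^ (-(1 / 12 : ℝ))) (k v₀) cand
      (fun v hv => hS v (hclS hv)) (fun v hv => hS v (hclS hv)) (fun p hp => prime_of_mem_base hp)
      hψ hψ hx hL'1 hbig hG
    refine le_trans (Finset.sum_le_sum fun q hq => Finset.sum_le_sum_of_subset_of_nonneg ?_
      fun r _ _ => mul_nonneg (BilinearAux.wt_nonneg hψ q) (BilinearAux.wt_nonneg hψ r)) (h.trans ?_)
    · intro r hr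
      obtain ⟨hr, hd, hsame, P, hP, e, he, he2, hdvd⟩ := Finset.mem_filter.1 hr
      have hkdef : hiDef (k v₀) H q = kDef k S Y q := Finset.prod_congr rfl fun p hp => by
        rw [hkk q hq p (prime_of_mem_base hp) (Finset.mem_filter.1 hp).2]
      refine Finset.mem_filter.2 ⟨hr, hd, fun p hp => ?_, e, ?_, ?_⟩
      · have hY := (Finset.mem_filter.1 hp).2
        obtain ⟨-, h2⟩ := hsame p (prime_of_mem_base hp) hY
        rwa [hkk q hq p (prime_of_mem_base hp) hY, hkk r hr p (prime_of_mem_base hp) hY] at h2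
      · rw [hkdef]
        exact Finset.mem_biUnion.2
          ⟨P, hP, Finset.mem_filter.2 ⟨Nat.mem_divisors.2 ⟨he, (hP0 _ P hP).ne'⟩, he2⟩⟩
      · rwa [hkdef]
    · refine mul_le_mul (mul_le_mul_of_nonneg_right (mul_le_mul_of_nonneg_left hgain hB)
        (Real.rpow_nonneg hx.le _)) (le_of_eq ?_) ?_ (by positivity)
      · rw [massFac, Real.mul_rpow hM hM, ← Real.rpow_add' hM (by norm_num [thetaX, xiD]),
          ← two_mul, Real.mul_rpow zero_le_two hM, mul_assoc,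
          ← Real.rpow_add' hM (by norm_num [thetaX, xiD])]
        norm_num [thetaX, xiD]
      · rw [massFac]; positivity
  set A : ℝ := B * (C1 ^ (1 / 3 : ℝ) * L ^ (-kapD)) * x ^ (1 - xiD) * 2 ^ (xiD / 7) with hA
  have hA0 : 0 ≤ A := by positivity
  calc ∑ q ∈ S, ∑ r ∈ S.filter (fun r => W q r), wt ψ q * wt ψ r
      = ∑ q ∈ S, ∑ r ∈ (kCell k S Y q).filter (fun r => W q r), wt ψ q * wt ψ r := by
        refine Finset.sum_congr rfl fun q _ => Finset.sum_congr ?_ fun _ _ => rfl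
        ext r
        simp only [Finset.mem_filter, kCell]
        exact ⟨fun h => ⟨⟨h.1, fun p hp hY => (h.2.2.1 p hp hY).1⟩, h.2⟩,
          fun h => ⟨h.1.1, h.2⟩⟩
    _ = ∑ Cl ∈ S.image (kCell k S Y), ∑ q ∈ Cl, ∑ r ∈ Cl.filter (fun r => W q r),
          wt ψ q * wt ψ r := by
        rw [sum_kCells k S Y]
        refine Finset.sum_congr rfl fun Cl hCl => Finset.sum_congr rfl fun q hq => ?_
        obtain ⟨v₀, -, rfl⟩ := Finset.mem_image.1 hCl
        rw [kCell_eq_of_mem k S Y hq]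
    _ ≤ ∑ Cl ∈ S.image (kCell k S Y), A * mass ψ Cl ^ (1 + xiD) := by
        refine Finset.sum_le_sum fun Cl hCl => ?_
        obtain ⟨v₀, hv₀, rfl⟩ := Finset.mem_image.1 hCl
        exact (hcell v₀ hv₀).trans_eq (by rw [hA]; ring)
    _ ≤ A * mass ψ S ^ (1 + xiD) := by
        rw [← Finset.mul_sum]
        refine mul_le_mul_of_nonneg_left ?_ hA0
        have hξ : 0 ≤ xiD := by norm_num [xiD]
        calc ∑ Cl ∈ S.image (kCell k S Y), mass ψ Cl ^ (1 + xiD)
            ≤ ∑ Cl ∈ S.image (kCell k S Y), mass ψ S ^ xiD * mass ψ Cl := by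
              refine Finset.sum_le_sum fun Cl hCl => ?_
              obtain ⟨v₀, -, rfl⟩ := Finset.mem_image.1 hCl
              have h0 := BilinearAux.mass_nonneg hψ (kCell k S Y v₀)
              rw [Real.rpow_one_add' h0 (by linarith), mul_comm]
              exact mul_le_mul_of_nonneg_right (Real.rpow_le_rpow h0
                (BilinearAux.mass_mono hψ (Finset.filter_subset _ _)) hξ) h0
          _ = mass ψ S ^ xiD * mass ψ S := by
              rw [← Finset.mul_sum]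
              exact congrArg _ (sum_kCells k S Y (wt ψ)).symm
          _ = _ := by
              rw [Real.rpow_one_add' (BilinearAux.mass_nonneg hψ S) (by linarith), mul_comm]
    _ = _ := by rw [hA]; ring

theorem bandZ_mono' {i j : ℕ} (h : i ≤ j) : bandZ i ≤ bandZ j :=
  Nat.pow_le_pow_right (by norm_num) (Nat.pow_le_pow_right (by norm_num) h)

theorem thr_mono' (P : Par) {i j : ℕ} (h : i ≤ j) : P.thr i ≤ P.thr j :=
  Nat.pow_le_pow_left (bandZ_mono' (by omega)) _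

theorem bandZ_le_thr' (P : Par) (hM : 1 ≤ P.M) (j : ℕ) : bandZ j ≤ P.thr j :=
  (bandZ_mono' (Nat.le_succ j)).trans (Nat.le_self_pow (by omega) _)

theorem _root_.Vale.Agent.P028.Full.SameCell.anti' {k : ℕ → ℕ → ℕ} {Y Y' v w : ℕ} (h : SameCell k Y v w) (hY : Y ≤ Y') :
    SameCell k Y' v w := fun p hp hlt => h p hp (lt_of_le_of_lt hY hlt)

/-- The deficiency above a higher threshold is the rough part of the deficiency. -/
theorem kDef_eq_roPart {k : ℕ → ℕ → ℕ} {S : Finset ℕ} {Y Y' : ℕ} (v : ℕ) (h : Y ≤ Y') :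
    kDef k S Y' v = roPart Y' (kDef k S Y v) := by
  classical
  refine Nat.eq_of_factorization_eq (kDef_pos k S Y' v).ne' (roPart_pos _ _).ne' fun p => ?_
  set b := kDef k S Y v with hb
  have e : roPart Y' b =
      ∏ p ∈ b.primeFactors.filter (fun p => Y' < p), p ^ b.factorization p := by
    rw [roPart, Finsupp.prod, Nat.support_factorization, Finset.prod_filter]
    exact Finset.prod_congr rfl fun p _ => by split_ifs <;> first | rfl | omega
  rw [e, factorization_rough_prod _ (fun q hq =>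
    Nat.prime_of_mem_primeFactors (Finset.mem_filter.1 hq).1), factorization_kDef]
  by_cases hp : p ∈ b.primeFactors.filter (fun p => Y' < p)
  · obtain ⟨hpb, hY'⟩ := Finset.mem_filter.1 hp
    have hne : b.factorization p ≠ 0 := by
      rwa [← Finsupp.mem_support_iff, Nat.support_factorization]
    rw [if_pos hp, hb, factorization_kDef] at *
    split_ifs at hne with hc
    · rw [if_pos hc, if_pos ⟨hc.1, hY'⟩]
    · exact absurd rfl hne
  · rw [if_neg hp]
    split_ifs with hc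
    · by_contra hne
      refine hp (Finset.mem_filter.2 ⟨?_, hc.2⟩)
      rw [← Nat.support_factorization, Finsupp.mem_support_iff, hb, factorization_kDef,
        if_pos ⟨hc.1, lt_of_le_of_lt h hc.2⟩]
      exact hne
    · rfl

theorem two_le_qI (I : ℕ) : 2 ≤ qI I := by
  rw [qI, bandZ]
  exact_mod_cast Nat.le_self_pow (by positivity) 2

/-- The level of the events is a small power of `Q`. -/
theorem exists_level_le_qI (δ : ℝ) (hδ : 0 < δ) :
    ∃ I0 : ℕ, ∀ I, I0 ≤ I → (bandZ (I / 32) : ℝ) ≤ qI I ^ δ := by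
  obtain ⟨N, hN⟩ := exists_nat_ge (1 / δ)
  refine ⟨32 * (N + 1), fun I hI => ?_⟩
  have h1 : (bandZ (I / 32) : ℝ) ^ (2 ^ N) ≤ qI I := by
    rw [qI, bandZ, bandZ]
    push_cast
    rw [← pow_mul, ← pow_add]
    exact pow_le_pow_right₀ one_le_two (Nat.pow_le_pow_right (by norm_num) (by omega))
  have hN' : (1 : ℝ) / δ ≤ ((2 ^ N : ℕ) : ℝ) :=
    hN.trans (by exact_mod_cast (Nat.lt_two_pow_self).le)
  rw [div_le_iff₀ hδ] at hN'
  have hQ := two_le_qI I
  calc (bandZ (I / 32) : ℝ) = ((bandZ (I / 32) : ℝ) ^ (2 ^ N)) ^ (((2 ^ N : ℕ) : ℝ)⁻¹) :=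
        (Real.pow_rpow_inv_natCast (Nat.cast_nonneg _) (by positivity)).symm
    _ ≤ qI I ^ (((2 ^ N : ℕ) : ℝ)⁻¹) := Real.rpow_le_rpow (by positivity) h1 (by positivity)
    _ ≤ qI I ^ δ := by
        refine Real.rpow_le_rpow_of_exponent_le (by linarith) ?_
        rw [inv_le_iff_one_le_mul₀ (by positivity)]
        linarith

/-- The gains over the bands above `I`. -/
theorem exists_sum_bandZ_le (a : ℝ) (ha : 0 < a) :
    ∃ I0 : ℕ, ∀ I, I0 ≤ I → ∀ M : ℕ,
      ∑ m ∈ Finset.Icc I M, (bandZ m : ℝ) ^ (-a) ≤ 2 * (bandZ I : ℝ) ^ (-a) := by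
  obtain ⟨N, hN⟩ := exists_nat_ge (1 / a)
  refine ⟨N, fun I hI M => ?_⟩
  set t : ℝ := (bandZ I : ℝ) ^ (-a) with ht
  have ht0 : 0 ≤ t := Real.rpow_nonneg (Nat.cast_nonneg _) _
  have ht2 : t ≤ 1 / 2 := by
    have h : (1 : ℝ) ≤ ((2 ^ I : ℕ) : ℝ) * a := by
      have h' : (1 / a : ℝ) ≤ ((2 ^ I : ℕ) : ℝ) :=
        hN.trans (by exact_mod_cast hI.trans (Nat.lt_two_pow_self).le)
      rwa [div_le_iff₀ ha] at h'
    rw [ht, bandZ, Nat.cast_pow, ← Real.rpow_natCast, ← Real.rpow_mul (Nat.cast_nonneg 2)]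
    calc ((2 : ℕ) : ℝ) ^ (((2 ^ I : ℕ) : ℝ) * -a) ≤ ((2 : ℕ) : ℝ) ^ (-1 : ℝ) :=
          Real.rpow_le_rpow_of_exponent_le (by norm_num) (by linarith)
      _ = _ := by norm_num [Real.rpow_neg_one]
  have hstep : ∀ i, (bandZ (I + i) : ℝ) ^ (-a) ≤ t * (1 / 2) ^ i := by
    intro i
    have e : (bandZ (I + i) : ℝ) = (bandZ I : ℝ) ^ (2 ^ i) := by
      rw [bandZ, bandZ, pow_add, pow_mul, Nat.cast_pow]
    rw [e, ← Real.rpow_natCast, ← Real.rpow_mul (Nat.cast_nonneg _), mul_comm,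
      Real.rpow_mul (Nat.cast_nonneg _), Real.rpow_natCast, ← ht]
    refine (pow_le_pow_of_le_one ht0 (by linarith) (Nat.lt_two_pow_self (n := i))).trans ?_
    rw [pow_succ, mul_comm]
    exact mul_le_mul_of_nonneg_left (pow_le_pow_left₀ ht0 ht2 i) ht0
  refine (Finset.sum_le_sum_of_subset_of_nonneg (t := (Finset.range (M + 1)).image (I + ·))
    (fun m hm => Finset.mem_image.2 ⟨m - I, Finset.mem_range.2 (by
      have := Finset.mem_Icc.1 hm; omega), by have := Finset.mem_Icc.1 hm; omega⟩)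
    fun m _ _ => Real.rpow_nonneg (Nat.cast_nonneg _) _).trans ?_
  rw [Finset.sum_image (fun x _ y _ h => by omega)]
  refine (Finset.sum_le_sum fun i _ => hstep i).trans ?_
  rw [← Finset.mul_sum, mul_comm 2]
  exact mul_le_mul_of_nonneg_left ((summable_geometric_two.sum_le_tsum _
    fun i _ => by positivity).trans tsum_geometric_two.le) ht0

theorem mass_le_four {ξ K : ℝ} {C : Ctx} (hC : C.Ok ξ K) :
    mass C.ψ C.S ^ (1 + xiD) ≤ 4 := by
  refine (Real.rpow_le_rpow (BilinearAux.mass_nonneg hC.psi_nonneg _) hC.mass_le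
    (by norm_num [xiD])).trans ?_
  calc (2 : ℝ) ^ (1 + xiD) ≤ (2 : ℝ) ^ (2 : ℝ) :=
        Real.rpow_le_rpow_of_exponent_le one_le_two (by norm_num [xiD])
    _ = 4 := by norm_num

/-- The first band above `m` whose part of `b` is a power of its height. -/
def gapBand (C : Ctx) (m b : ℕ) : ℕ :=
  sInf {i : ℕ | m < i ∧ bandZ i ≤ smPart (C.par.thr i) b ^ 8}

/-- A denominator above `L` listed for the deficiency `b` of the band `m`. -/
def RCand (C : Ctx) (I m b P : ℕ) : Prop :=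
  qI I ^ (200 : ℕ) < (P : ℝ) ∧ (m = I ∨ bandZ m ≤ P ^ 80) ∧
    (NearFrac (C.γ * b) P ∨ NearFrac (C.γ * roPart (C.par.thr (gapBand C m b)) b) P)

/-- The band and the candidate of a pair of the event. -/
theorem rDiv_witness (C : Ctx) {I J q r : ℕ} (hM : 1 ≤ C.par.M) (hq : 0 < q) (hr : 0 < r)
    (hψq : 0 ≤ C.ψ q) (hnear : C.NearI I q r) (hex : C.ExactAt I J q r)
    (hs : ¬ C.SlackSide I r q) (hP : ((C.node I q).2 : ℝ) ≤ qI I ^ (40 : ℕ))
    (herr : C.nodeErr I q ≤ qI I ^ (40 : ℕ) * C.rad I q)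
    (hbig : qI I ^ (200 : ℕ) < ((C.node J r).2 : ℝ)) :
    ∃ m, I ≤ m ∧ m ≤ J ∧ RCand C I m (kDef C.k C.S (C.par.thr m) r) (C.node J r).2 ∧
      ∃ e : ℕ, e ∣ (C.node J r).2 ∧ (C.node J r).2 ≤ e ^ 2 ∧
        e * kDef C.k C.S (C.par.thr m) r ∣ qd q r := by
  obtain ⟨-, hD, hsame⟩ := hnear
  obtain ⟨hIJ, -, hradJ, hP0, hP'0, n, hn, hZ⟩ := hex
  have hnode := isNode_nodeOf hP'0
  set Q := qI I with hQd
  have hQ : 2 ≤ Q := two_le_qI I
  have hQ0 : 0 < Q := by linarith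
  set P := (C.node I q).2 with hPd
  set P' := (C.node J r).2 with hP'd
  set u := (C.node I q).1 with hud
  set u' := (C.node J r).1 with hu'd
  have hcop' : IsCoprime u' (P' : ℤ) := hnode.2.1
  have hsI : SameCell C.k (C.par.thr I) q r := hsame.anti' (thr_mono' C.par (by omega))
  have hsm : ∀ m, I ≤ m → SameCell C.k (C.par.thr m) r q := fun m hm =>
    (hsame.anti' (thr_mono' C.par (by omega))).symm
  set X' := cPart C.k C.S (C.par.thr J) r q with hX'd
  set X := cPart C.k C.S (C.par.thr I) q r with hXd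
  have hr' : qd r q = X * C.def' I q := C.qd_eq hsI hq hr
  have hq' : qd q r = X' * C.def' J r := C.qd_eq (hsm J hIJ) hr hq
  rw [hr', hq'] at hZ
  have hnd := isNode_nodeOf hP0
  obtain ⟨hlin, -, hA⟩ := dvd_of_anatZ_eq_zero hnd.2.1 hcop'
    (kDef_pos _ _ _ _) (kDef_pos _ _ _ _) hP0 hZ
  set g := Nat.gcd P P' with hg
  have hgP : (g : ℝ) ≤ Q ^ (40 : ℕ) :=
    le_trans (Nat.cast_le.2 (Nat.gcd_le_left _ hP0)) hP
  have hg0 : 0 < g := Nat.gcd_pos_of_pos_left _ hP0
  -- the size of the divisor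
  have he2 : P' ≤ (P' / g) ^ 2 := by
    have he : P' / g * g = P' := Nat.div_mul_cancel (Nat.gcd_dvd_right _ _)
    have hle : g ≤ P' / g := by
      rw [Nat.le_div_iff_mul_le hg0]
      have h1 : ((g * g : ℕ) : ℝ) < (P' : ℝ) := by
        push_cast
        calc (g : ℝ) * g ≤ Q ^ (40 : ℕ) * Q ^ (40 : ℕ) :=
              mul_le_mul hgP hgP (Nat.cast_nonneg _) (by positivity)
          _ = Q ^ (80 : ℕ) := by ring
          _ ≤ Q ^ (200 : ℕ) := pow_le_pow_right₀ (by linarith) (by norm_num)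
          _ < _ := hbig
      exact_mod_cast h1.le
    calc P' = P' / g * g := he.symm
      _ ≤ P' / g * (P' / g) := Nat.mul_le_mul_left _ hle
      _ = (P' / g) ^ 2 := (sq _).symm
  -- the error of `u' / P'`
  set β := C.γ * C.def' I q with hβ
  set β' := C.γ * C.def' J r with hβ'
  set d' := |β' - u' / P'| with hd'
  have hPr : (0 : ℝ) < P := by exact_mod_cast hP0
  have hP'r : (0 : ℝ) < P' := by exact_mod_cast hP'0
  have hDQ : dist2 C.ψ q r ≤ Q := by
    refine hD.trans ?_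
    rw [hQd, qI]
    exact_mod_cast bandZ_mono' (by omega)
  have hD0 : 0 ≤ dist2 C.ψ q r := le_max_of_le_left (mul_nonneg hψq (Nat.cast_nonneg _))
  have hXd' : (X' : ℝ) * d' ≤ 3 * Q ^ (41 : ℕ) := by
    have hXη : (X : ℝ) * C.rad I q ≤ dist2 C.ψ q r := by
      refine le_trans (le_of_eq ?_) (le_max_left _ _)
      rw [hr', Ctx.rad]; push_cast; ring
    have hβerr : |β - u / P| ≤ Q ^ (40 : ℕ) * C.rad I q := by
      have h1 : |β - u / P| * P = C.nodeErr I q := by
        rw [Ctx.nodeErr, ← hPd, ← hud, ← hβ, ← abs_of_pos hPr, ← abs_mul, abs_of_pos hPr]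
        congr 1
        field_simp
      refine le_trans ?_ herr
      rw [← h1]
      exact le_mul_of_one_le_right (abs_nonneg _) (by exact_mod_cast hP0)
    have hmd : (mdiff q r : ℝ) = (X : ℝ) * C.def' I q - (X' : ℝ) * C.def' J r := by
      rw [mdiff, hr', hq']; push_cast; ring
    have hid : (X' : ℝ) * (β' - u' / P') =
        (X : ℝ) * (β - u / P) - ((n : ℝ) + C.γ * mdiff q r) := by
      have hc : (n : ℝ) * (P * P') + u * (X * P') - u' * (X' * P) = 0 := by exact_mod_cast hlin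
      rw [hmd, hβ, hβ']
      field_simp
      linear_combination hc
    rw [← abs_of_nonneg (Nat.cast_nonneg (α := ℝ) X'), hd', ← abs_mul, hid]
    refine (abs_sub _ _).trans ?_
    rw [abs_mul, Nat.abs_cast]
    have h2 : (X : ℝ) * |β - u / P| ≤ Q ^ (40 : ℕ) * Q := by
      calc (X : ℝ) * |β - u / P| ≤ X * (Q ^ (40 : ℕ) * C.rad I q) := by gcongr
        _ = Q ^ (40 : ℕ) * (X * C.rad I q) := by ring
        _ ≤ _ := mul_le_mul_of_nonneg_left (hXη.trans hDQ) (by positivity)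
    have h4 : 2 * Q ≤ 2 * Q ^ (41 : ℕ) := by
      have := le_self_pow₀ (show 1 ≤ Q by linarith) (show 41 ≠ 0 by norm_num)
      linarith
    have h5 : Q ^ (40 : ℕ) * Q = Q ^ (41 : ℕ) := by ring
    linarith [hn]
  -- a fraction at a band between
  have hfrac : ∀ m, I ≤ m → m ≤ J → P' ≤ bandZ m →
      P' ^ 3 ≤ cPart C.k C.S (C.par.thr m) r q →
      NearFrac (C.γ * kDef C.k C.S (C.par.thr m) r) P' := by
    intro m hIm hmJ hPZ hXm
    set bm := kDef C.k C.S (C.par.thr m) r with hbm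
    set Xm := cPart C.k C.S (C.par.thr m) r q with hXmd
    set t := smPart (C.par.thr J) bm with ht
    have hbJ : C.def' J r = roPart (C.par.thr J) bm := kDef_eq_roPart r (thr_mono' C.par hmJ)
    have hbm0 : bm ≠ 0 := (kDef_pos _ _ _ _).ne'
    have hbt : bm = t * C.def' J r := by rw [hbJ]; exact (smPart_mul_roPart _ hbm0).symm
    have hXt : X' = Xm * t := by
      have e : qd q r = Xm * bm := C.qd_eq (hsm m hIm) hr hq
      rw [hq', hbt, ← mul_assoc] at e
      exact Nat.eq_of_mul_eq_mul_right (kDef_pos _ _ _ _) e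
    have htcop : Nat.Coprime P' t := Nat.coprime_of_dvd fun p hp h1 h2 => by
      have h3 : p ∣ bm := h2.trans ⟨C.def' J r, hbt⟩
      have h4 := (lt_of_dvd_kDef hp h3).1
      have h5 := Nat.le_of_dvd hP'0 h1
      have h6 := bandZ_le_thr' C.par hM m
      omega
    refine ⟨hP'0, u' * (t : ℤ), hcop'.mul_left ?_, ?_⟩
    · exact (Nat.isCoprime_iff_coprime.2 htcop).symm
    · have e : C.γ * bm - ((u' * (t : ℤ) : ℤ) : ℝ) / P' = (t : ℝ) * (β' - u' / P') := by
        rw [hβ', hbt]; push_cast; ring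
      rw [e, abs_mul, Nat.abs_cast, ← hd']
      have hXm' : (P' : ℝ) ^ 3 ≤ Xm := by exact_mod_cast hXm
      have hd0 : 0 ≤ (t : ℝ) * d' := by positivity
      have h1 : (P' : ℝ) ^ 3 * ((t : ℝ) * d') ≤ 3 * Q ^ (41 : ℕ) := by
        refine le_trans (mul_le_mul_of_nonneg_right hXm' hd0) (le_trans (le_of_eq ?_) hXd')
        rw [hXt]; push_cast; ring
      have h2 : 192 * Q ^ (41 : ℕ) ≤ (P' : ℝ) := by
        refine le_trans ?_ hbig.le
        have h28 : (192 : ℝ) ≤ Q ^ (8 : ℕ) :=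
          le_trans (by norm_num) (pow_le_pow_left₀ zero_le_two hQ 8)
        calc 192 * Q ^ (41 : ℕ) ≤ Q ^ (8 : ℕ) * Q ^ (41 : ℕ) := by gcongr
          _ ≤ _ := by rw [← pow_add]; exact pow_le_pow_right₀ (by linarith) (by norm_num)
      rw [← mul_le_mul_iff_of_pos_left hP'r]
      nlinarith
  have hdiv : ∀ m, I ≤ m → m ≤ J → P' ≤ bandZ m →
      P' / g * kDef C.k C.S (C.par.thr m) r ∣ qd q r := by
    intro m hIm hmJ hPZ
    set bm := kDef C.k C.S (C.par.thr m) r with hbm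
    set Xm := cPart C.k C.S (C.par.thr m) r q with hXmd
    set t := smPart (C.par.thr J) bm with ht
    have hbt : bm = t * C.def' J r := by
      rw [show C.def' J r = roPart (C.par.thr J) bm from kDef_eq_roPart r (thr_mono' C.par hmJ)]
      exact (smPart_mul_roPart _ (kDef_pos _ _ _ _).ne').symm
    have e : qd q r = Xm * bm := C.qd_eq (hsm m hIm) hr hq
    have hXt : X' = Xm * t := by
      rw [hq', hbt, ← mul_assoc] at e
      exact Nat.eq_of_mul_eq_mul_right (kDef_pos _ _ _ _) e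
    rw [e]
    refine Nat.mul_dvd_mul ?_ (dvd_refl _)
    refine Nat.Coprime.dvd_of_dvd_mul_right (Nat.Coprime.coprime_dvd_left
      (Nat.div_dvd_of_dvd (Nat.gcd_dvd_right _ _)) ?_) (hXt ▸ hA)
    refine Nat.coprime_of_dvd fun p hp h1 h2 => ?_
    have h4 := (lt_of_dvd_kDef hp (h2.trans ⟨C.def' J r, hbt⟩ : p ∣ bm)).1
    have h5 := Nat.le_of_dvd hP'0 h1
    have h6 := bandZ_le_thr' C.par hM m
    omega
  have hdvd' : P' / g ∣ P' := Nat.div_dvd_of_dvd (Nat.gcd_dvd_right _ _)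
  set B := sInf {i : ℕ | I ≤ i ∧ P' ^ 40 ≤ bandZ i} with hBd
  have hne : {i : ℕ | I ≤ i ∧ P' ^ 40 ≤ bandZ i}.Nonempty := by
    refine ⟨max I (P' ^ 40 + 1), le_max_left _ _, ?_⟩
    calc P' ^ 40 ≤ bandZ (P' ^ 40 + 1) := le_bandZ_succ _
      _ ≤ _ := bandZ_mono' (le_max_right _ _)
  obtain ⟨hIB, hB40⟩ : I ≤ B ∧ P' ^ 40 ≤ bandZ B := Nat.sInf_mem hne
  have hsmall : ∀ m, I ≤ m → m ≤ B → m = I ∨ bandZ m ≤ P' ^ 80 := by
    intro m h1 h2
    rcases eq_or_ne m I with h | h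
    · exact Or.inl h
    refine Or.inr ?_
    have h3 : ¬ (I ≤ m - 1 ∧ P' ^ 40 ≤ bandZ (m - 1)) :=
      Nat.notMem_of_lt_sInf (show m - 1 < B by omega)
    have h4 : bandZ (m - 1) ≤ P' ^ 40 := by
      have : I ≤ m - 1 := by omega
      by_contra hcon
      exact h3 ⟨this, by omega⟩
    have h5 : bandZ m = bandZ (m - 1) ^ 2 := by
      rw [← bandZ_eq, Nat.sub_add_cancel (by omega)]
    rw [h5, show 80 = 40 * 2 by norm_num, pow_mul]
    exact Nat.pow_le_pow_left h4 2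
  rcases le_or_gt J B with hJB | hBJ
  · refine ⟨J, hIJ, le_rfl, ⟨hbig, hsmall J hIJ hJB, Or.inl ?_⟩, P' / g, hdvd', he2, ?_⟩
    · exact hnode.nearFrac
    · rw [hq']
      exact Nat.mul_dvd_mul hA (dvd_refl _)
  have hPB : P' ≤ bandZ B := (Nat.le_self_pow (by norm_num) _).trans hB40
  refine ⟨B, hIB, hBJ.le, ⟨hbig, hsmall B hIB le_rfl, ?_⟩, P' / g, hdvd', he2,
    hdiv B hIB hBJ.le hPB⟩
  set bB := kDef C.k C.S (C.par.thr B) r with hbB
  set XB := cPart C.k C.S (C.par.thr B) r q with hXB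
  by_cases hbigX : P' ^ 3 ≤ XB
  · exact Or.inl (hfrac B hIB hBJ.le hPB hbigX)
  refine Or.inr ?_
  set t := smPart (C.par.thr J) bB with ht
  have hbt : bB = t * C.def' J r := by
    rw [show C.def' J r = roPart (C.par.thr J) bB from kDef_eq_roPart r (thr_mono' C.par hBJ.le)]
    exact (smPart_mul_roPart _ (kDef_pos _ _ _ _).ne').symm
  have hJmem : bandZ J ≤ t ^ 8 := by
    have e : qd q r = XB * bB := C.qd_eq (hsm B hIB) hr hq
    have h1 : Q ^ (-(10 : ℝ)) < (XB : ℝ) * t * C.rad J r := by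
      have h := not_le.1 hs
      rw [e, hbt] at h
      rw [Ctx.rad]
      push_cast at h
      linarith
    have hsq : 0 < Real.sqrt (bandZ J) := Real.sqrt_pos.2 (by rw [bandZ]; positivity)
    have h2 : Real.sqrt (bandZ J) < (XB : ℝ) * t * Q ^ (10 : ℕ) := by
      rw [Real.rpow_neg hQ0.le, show (10 : ℝ) = ((10 : ℕ) : ℝ) by norm_num, Real.rpow_natCast,
        inv_lt_iff_one_lt_mul₀ (by positivity)] at h1
      calc Real.sqrt (bandZ J) = 1 * Real.sqrt (bandZ J) := (one_mul _).symm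
        _ < (XB : ℝ) * t * C.rad J r * Q ^ (10 : ℕ) * Real.sqrt (bandZ J) :=
            mul_lt_mul_of_pos_right h1 hsq
        _ = (XB : ℝ) * t * Q ^ (10 : ℕ) * (C.rad J r * Real.sqrt (bandZ J)) := by ring
        _ ≤ (XB : ℝ) * t * Q ^ (10 : ℕ) * 1 := mul_le_mul_of_nonneg_left hradJ (by positivity)
        _ = _ := mul_one _
    have h3 : (bandZ J : ℝ) ^ 4 ≤ ((XB : ℝ) * t * Q ^ (10 : ℕ)) ^ 8 := by
      calc (bandZ J : ℝ) ^ 4 = Real.sqrt (bandZ J) ^ 8 := by
            rw [show (8 : ℕ) = 2 * 4 by norm_num, pow_mul, Real.sq_sqrt (Nat.cast_nonneg _)]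
        _ ≤ _ := pow_le_pow_left₀ hsq.le h2.le 8
    have hXB3 : (XB : ℝ) ≤ (P' : ℝ) ^ 3 := by exact_mod_cast (not_le.1 hbigX).le
    have hQ80 : Q ^ (80 : ℕ) ≤ (P' : ℝ) :=
      (pow_le_pow_right₀ (by linarith) (by norm_num)).trans hbig.le
    have hP40 : (P' : ℝ) ^ 40 ≤ bandZ J := by
      exact_mod_cast hB40.trans (bandZ_mono' hBJ.le)
    have hP1 : (1 : ℝ) ≤ P' := by exact_mod_cast hP'0
    have hZ1 : (1 : ℝ) ≤ bandZ J := Nat.one_le_cast.2 (Nat.one_le_pow _ _ (by norm_num))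
    have h4 : (bandZ J : ℝ) ^ 4 ≤ bandZ J * (t : ℝ) ^ 8 := by
      refine h3.trans ?_
      calc ((XB : ℝ) * t * Q ^ (10 : ℕ)) ^ 8 = (XB : ℝ) ^ 8 * (t : ℝ) ^ 8 * Q ^ (80 : ℕ) := by ring
        _ ≤ ((P' : ℝ) ^ 3) ^ 8 * (t : ℝ) ^ 8 * P' := by gcongr
        _ = (P' : ℝ) ^ 25 * (t : ℝ) ^ 8 := by ring
        _ ≤ _ := mul_le_mul_of_nonneg_right
            ((pow_le_pow_right₀ hP1 (by norm_num)).trans hP40) (by positivity)
    have h5 : (bandZ J : ℝ) ≤ (t : ℝ) ^ 8 := by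
      have h6 : (bandZ J : ℝ) ^ 3 ≤ (t : ℝ) ^ 8 := by
        refine le_of_mul_le_mul_left (le_trans (le_of_eq ?_) h4) (by linarith : (0 : ℝ) < bandZ J)
        ring
      exact (le_self_pow₀ hZ1 (by norm_num)).trans h6
    exact_mod_cast h5
  have hne' : {i : ℕ | B < i ∧ bandZ i ≤ smPart (C.par.thr i) bB ^ 8}.Nonempty := ⟨J, hBJ, hJmem⟩
  obtain ⟨hB0, hZ0⟩ : B < gapBand C B bB ∧
      bandZ (gapBand C B bB) ≤ smPart (C.par.thr (gapBand C B bB)) bB ^ 8 := Nat.sInf_mem hne'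
  have hJ0 : gapBand C B bB ≤ J := Nat.sInf_le (show J ∈ _ from ⟨hBJ, hJmem⟩)
  set m := gapBand C B bB with hm
  have hmro : kDef C.k C.S (C.par.thr m) r = roPart (C.par.thr m) bB :=
    kDef_eq_roPart r (thr_mono' C.par hB0.le)
  rw [← hmro]
  have hXm : smPart (C.par.thr m) bB ≤ cPart C.k C.S (C.par.thr m) r q := by
    have e1 : qd q r = cPart C.k C.S (C.par.thr m) r q * C.def' m r :=
      C.qd_eq (hsm m (by omega)) hr hq
    have e2 : qd q r = XB * bB := C.qd_eq (hsm B hIB) hr hq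
    have e3 : smPart (C.par.thr m) bB * C.def' m r = bB := by
      rw [show C.def' m r = roPart (C.par.thr m) bB from hmro]
      exact smPart_mul_roPart _ (kDef_pos _ _ _ _).ne'
    rw [e2, ← e3, ← mul_assoc] at e1
    rw [← Nat.eq_of_mul_eq_mul_right (kDef_pos _ _ _ _) e1]
    exact Nat.le_mul_of_pos_left _ (cPart_pos (hsm B hIB) hr hq)
  refine hfrac m (by omega) hJ0 (hPB.trans (bandZ_mono' hB0.le)) (le_trans ?_ hXm)
  refine le_of_pow_le_pow_left₀ (by norm_num : 8 ≠ 0) (Nat.zero_le _) (le_trans ?_ hZ0)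
  rw [← pow_mul]
  exact (Nat.pow_le_pow_right hP'0 (by norm_num)).trans (hB40.trans (bandZ_mono' hB0.le))

end EvDiv

open EvDiv

open Classical in
/-- A large denominator of `q` with a small common part with that of `r` divides `r' / b`. -/
theorem eventSmall_pDiv (M : ℕ) (_hM : 4 ≤ M) (c : ℝ) (_hc : 0 < c) :
    EventSmall M c (fun C I jr q r => C.ExactAt I (jr r) q r ∧
      qI I ^ (8 : ℕ) < ((C.node I q).2 : ℝ) ∧
      Nat.gcd (C.node I q).2 (C.node (jr r) r).2 ^ 2 ≤ (C.node I q).2) := by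
  obtain ⟨B, hB, hdiv⟩ := exists_nodeDiv_le
  have hk : 0 < kapD := by norm_num [kapD, evSlack, xiD]
  obtain ⟨I0, hI0⟩ := exists_level_le_qI kapD hk
  refine ⟨7 * kapD, B * 4, I0, by linarith, fun ξ K C hpar hC I jr hI => ?_⟩
  have hQ := two_le_qI I
  have hQ0 : 0 < qI I := by linarith
  set x : ℝ := (bandZ (I / 32) : ℝ) with hxd
  have hx1 : 1 ≤ x := Nat.one_le_cast.2 (Nat.one_le_pow _ _ (by norm_num))
  set Y := C.par.thr I with hY
  set L : ℝ := qI I ^ (8 : ℕ) with hL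
  have hL1 : 1 ≤ L := one_le_pow₀ (by linarith)
  set Ps : ℕ → Finset ℕ := fun b => (C.S.filter (fun v =>
    C.def' I v = b ∧ L < ((C.node I v).2 : ℝ))).image (fun v => (C.node I v).2) with hPsd
  have hmem : ∀ b, ∀ P ∈ Ps b, L < (P : ℝ) ∧ NearFrac (C.γ * b) P := by
    intro b P hP
    obtain ⟨v, hv, rfl⟩ := Finset.mem_image.1 hP
    obtain ⟨-, hvb, hvL⟩ := Finset.mem_filter.1 hv
    refine ⟨hvL, hvb ▸ IsNode.nearFrac (isNode_nodeOf ?_)⟩
    exact_mod_cast lt_trans (by linarith : (0 : ℝ) < L) hvL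
  have h := hdiv C.k C.S C.ψ Y x L Ps hC.pos hC.psi_nonneg (by linarith) hL1
    (fun b P hP => (hmem b P hP).1.le) (fun b l => le_trans
      (Finset.card_le_one.2 fun P hP P' hP' => ((hmem b P (Finset.mem_filter.1 hP).1).2.eq_of_log
        (hmem b P' (Finset.mem_filter.1 hP').1).2
        ((Finset.mem_filter.1 hP).2.trans (Finset.mem_filter.1 hP').2.symm))) one_le_two)
  refine le_trans (Finset.sum_le_sum fun q hq => Finset.sum_le_sum_of_subset_of_nonneg ?_
    fun r _ _ => mul_nonneg (BilinearAux.wt_nonneg hC.psi_nonneg q)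
      (BilinearAux.wt_nonneg hC.psi_nonneg r)) (h.trans ?_)
  · intro r hr
    simp only [Finset.mem_filter] at hr
    obtain ⟨hrS, ⟨-, hd, hsame⟩, ⟨hIJ, -, -, hP, hP', n, -, hZ⟩, hbig, hgcd⟩ := hr
    have hq0 := hC.pos q hq
    have hr0 := hC.pos r hrS
    have hsI : SameCell C.k (C.par.thr I) q r := hsame.anti' (thr_mono' C.par (by omega))
    have hsJ : SameCell C.k (C.par.thr (jr r)) q r := hsame.anti' (thr_mono' C.par (by omega))
    rw [C.qd_eq hsI hq0 hr0, C.qd_eq hsJ.symm hr0 hq0] at hZ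
    obtain ⟨-, hA, -⟩ := dvd_of_anatZ_eq_zero (isNode_nodeOf hP).2.1 (isNode_nodeOf hP').2.1
      (kDef_pos _ _ _ _) (kDef_pos _ _ _ _) hP hZ
    refine Finset.mem_filter.2 ⟨hrS, hd, hsI, (C.node I q).2, Finset.mem_image.2
      ⟨q, Finset.mem_filter.2 ⟨hq, rfl, hbig⟩, rfl⟩,
      (C.node I q).2 / Nat.gcd (C.node I q).2 (C.node (jr r) r).2,
      Nat.div_dvd_of_dvd (Nat.gcd_dvd_left _ _), ?_, ?_⟩
    · set P := (C.node I q).2
      set g := Nat.gcd P (C.node (jr r) r).2 with hg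
      have he : P / g * g = P := Nat.div_mul_cancel (Nat.gcd_dvd_left _ _)
      have hg0 : 0 < g := Nat.gcd_pos_of_pos_left _ hP
      have hle : g ≤ P / g := by
        rw [Nat.le_div_iff_mul_le hg0, ← sq]
        exact hgcd
      calc P = P / g * g := he.symm
        _ ≤ P / g * (P / g) := Nat.mul_le_mul_left _ hle
        _ = (P / g) ^ 2 := (sq _).symm
    · rw [C.qd_eq hsI hq0 hr0]
      exact Nat.mul_dvd_mul hA (dvd_refl _)
  · have e1 : L ^ (-kapD) = qI I ^ (-(8 * kapD)) := by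
      rw [hL, ← Real.rpow_natCast, ← Real.rpow_mul hQ0.le]
      norm_num
    calc B * L ^ (-kapD) * x ^ (1 - xiD) * mass C.ψ C.S ^ (1 + xiD)
        ≤ B * L ^ (-kapD) * qI I ^ kapD * 4 := by
          refine mul_le_mul (mul_le_mul_of_nonneg_left ?_ (by positivity)) (mass_le_four hC)
            (Real.rpow_nonneg (BilinearAux.mass_nonneg hC.psi_nonneg _) _) (by positivity)
          exact (Real.rpow_le_self_of_one_le hx1 (by norm_num [xiD])).trans (hI0 I hI)
      _ = B * 4 * (qI I ^ (-(8 * kapD)) * qI I ^ kapD) := by rw [e1]; ring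
      _ = _ := by rw [← Real.rpow_add hQ0]; ring_nf

open Classical in
/-- A large denominator of `r` against a small node of `q` divides `q' / b'`. -/
theorem eventSmall_rDiv (M : ℕ) (hM : 4 ≤ M) (c : ℝ) (_hc : 0 < c) :
    EventSmall M c (fun C I jr q r => C.ExactAt I (jr r) q r ∧
      ¬ C.SlackSide I q r ∧ ¬ C.SlackSide I r q ∧
      ((C.node I q).2 : ℝ) ≤ qI I ^ (40 : ℕ) ∧ C.nodeErr I q ≤ qI I ^ (40 : ℕ) * C.rad I q ∧
      qI I ^ (200 : ℕ) < ((C.node (jr r) r).2 : ℝ)) := by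
  obtain ⟨B, hB, hdiv⟩ := exists_nodeDiv_le
  have hk : 0 < kapD := by norm_num [kapD, evSlack, xiD]
  set a : ℝ := kapD / 80 with ha
  have ha0 : 0 < a := by positivity
  obtain ⟨I0, hI0⟩ := exists_level_le_qI (a / 2) (by positivity)
  obtain ⟨I1, hI1⟩ := exists_sum_bandZ_le a ha0
  refine ⟨a / 2, 12 * B, max I0 I1, by positivity, fun ξ K C hpar hC I jr hI => ?_⟩
  have hCM : 1 ≤ C.par.M := by rw [hpar]; show 1 ≤ M; omega
  have hQ := two_le_qI I
  have hQ0 : 0 < qI I := by linarith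
  set x : ℝ := (bandZ (I / 32) : ℝ) with hxd
  have hx1 : 1 ≤ x := Nat.one_le_cast.2 (Nat.one_le_pow _ _ (by norm_num))
  set Pset := C.S.image (fun r => (C.node (jr r) r).2) with hPset
  set Ps : ℕ → ℕ → Finset ℕ := fun m b => Pset.filter (fun P => RCand C I m b P) with hPsd
  set L : ℕ → ℝ := fun m =>
    if m = I then qI I ^ (200 : ℕ) else (bandZ m : ℝ) ^ (1 / 80 : ℝ) with hLd
  have hL1 : ∀ m, 1 ≤ L m := by
    intro m
    simp only [hLd]
    split_ifs
    · exact one_le_pow₀ (by linarith)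
    · exact Real.one_le_rpow (Nat.one_le_cast.2 (Nat.one_le_pow _ _ (by norm_num))) (by norm_num)
  have hPsL : ∀ m b, ∀ P ∈ Ps m b, L m ≤ (P : ℝ) := by
    intro m b P hP
    obtain ⟨-, h200, hm, -⟩ := Finset.mem_filter.1 hP
    simp only [hLd]
    split_ifs with hmI
    · exact h200.le
    · calc (bandZ m : ℝ) ^ (1 / 80 : ℝ) ≤ ((P : ℝ) ^ 80) ^ (1 / 80 : ℝ) := by
            refine Real.rpow_le_rpow (Nat.cast_nonneg _) ?_ (by norm_num)
            exact_mod_cast hm.resolve_left hmI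
        _ = P := by
            rw [show (1 / 80 : ℝ) = ((80 : ℕ) : ℝ)⁻¹ by norm_num]
            exact Real.pow_rpow_inv_natCast (Nat.cast_nonneg _) (by norm_num)
  have hcard : ∀ m b l, ((Ps m b).filter fun P => Nat.log 2 P = l).card ≤ 2 := by
    intro m b l
    have hone : ∀ β, (Pset.filter (fun P => NearFrac β P ∧ Nat.log 2 P = l)).card ≤ 1 := fun β =>
      Finset.card_le_one.2 fun P hP P' hP' =>
        ((Finset.mem_filter.1 hP).2.1.eq_of_log (Finset.mem_filter.1 hP').2.1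
          ((Finset.mem_filter.1 hP).2.2.trans (Finset.mem_filter.1 hP').2.2.symm))
    refine le_trans (Finset.card_le_card (t :=
      Pset.filter (fun P => NearFrac (C.γ * b) P ∧ Nat.log 2 P = l) ∪
      Pset.filter (fun P => NearFrac (C.γ * roPart (C.par.thr (gapBand C m b)) b) P ∧
        Nat.log 2 P = l)) fun P hP => ?_)
      ((Finset.card_union_le _ _).trans (Nat.add_le_add (hone _) (hone _)))
    simp only [hPsd, Finset.mem_filter] at hP
    rw [Finset.mem_union, Finset.mem_filter, Finset.mem_filter]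
    rcases hP.1.2.2.2 with h | h
    · exact Or.inl ⟨hP.1.1, h, hP.2⟩
    · exact Or.inr ⟨hP.1.1, h, hP.2⟩
  set T := Finset.Icc I (max I (C.S.sup jr)) with hT
  set W : ℕ → ℕ → ℕ → Prop := fun m r q => dist2 C.ψ r q ≤ x ∧
    SameCell C.k (C.par.thr m) r q ∧
    ∃ P ∈ Ps m (kDef C.k C.S (C.par.thr m) r), ∃ e : ℕ, e ∣ P ∧ P ≤ e ^ 2 ∧
      e * kDef C.k C.S (C.par.thr m) r ∣ qd q r with hW
  have hw : ∀ q, 0 ≤ wt C.ψ q := BilinearAux.wt_nonneg hC.psi_nonneg
  calc _ ≤ ∑ q ∈ C.S, ∑ r ∈ C.S, ∑ m ∈ T,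
          (if W m r q then wt C.ψ q * wt C.ψ r else 0) := by
        refine Finset.sum_le_sum fun q hq => ?_
        rw [Finset.sum_filter]
        refine Finset.sum_le_sum fun r hrS => ?_
        split_ifs with hcond
        swap
        · exact Finset.sum_nonneg fun m _ => by
            split_ifs
            · exact mul_nonneg (hw q) (hw r)
            · exact le_rfl
        obtain ⟨hnear, hex, -, hs, hP, herr, hbig⟩ := hcond
        obtain ⟨m, hIm, hmJ, hcand, e, he, he2, hdvd⟩ := rDiv_witness C hCM (hC.pos q hq)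
          (hC.pos r hrS) (hC.psi_nonneg q) hnear hex hs hP herr hbig
        have hmT : m ∈ T := Finset.mem_Icc.2
          ⟨hIm, hmJ.trans (le_max_of_le_right (Finset.le_sup (f := jr) hrS))⟩
        have hWm : W m r q := ⟨(max_comm _ _).le.trans hnear.2.1,
          (hnear.2.2.anti' (thr_mono' C.par (by omega))).symm,
          (C.node (jr r) r).2, Finset.mem_filter.2 ⟨Finset.mem_image_of_mem _ hrS, hcand⟩,
          e, he, he2, hdvd⟩
        refine le_trans (le_of_eq (if_pos hWm).symm) (Finset.single_le_sum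
          (f := fun m => if W m r q then wt C.ψ q * wt C.ψ r else 0) (fun i _ => ?_) hmT)
        split_ifs
        · exact mul_nonneg (hw q) (hw r)
        · exact le_rfl
    _ = ∑ m ∈ T, ∑ r ∈ C.S, ∑ q ∈ C.S.filter (fun q => W m r q), wt C.ψ r * wt C.ψ q := by
        rw [Finset.sum_comm]
        conv_lhs => arg 2; ext r; rw [Finset.sum_comm]
        rw [Finset.sum_comm]
        refine Finset.sum_congr rfl fun m _ => Finset.sum_congr rfl fun r _ => ?_
        rw [Finset.sum_filter]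
        exact Finset.sum_congr rfl fun q _ => by rw [mul_comm]
    _ ≤ ∑ m ∈ T, B * L m ^ (-kapD) * x ^ (1 - xiD) * mass C.ψ C.S ^ (1 + xiD) :=
        Finset.sum_le_sum fun m _ => hdiv C.k C.S C.ψ (C.par.thr m) x (L m) (Ps m) hC.pos
          hC.psi_nonneg (by linarith) (hL1 m) (hPsL m) (hcard m)
    _ ≤ ∑ m ∈ T, B * L m ^ (-kapD) * qI I ^ (a / 2) * 4 := by
        refine Finset.sum_le_sum fun m _ => ?_
        have := hL1 m
        refine mul_le_mul (mul_le_mul_of_nonneg_left ?_ (by positivity)) (mass_le_four hC)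
          (Real.rpow_nonneg (BilinearAux.mass_nonneg hC.psi_nonneg _) _) (by positivity)
        exact (Real.rpow_le_self_of_one_le hx1 (by norm_num [xiD])).trans
          (hI0 I ((le_max_left _ _).trans hI))
    _ = (∑ m ∈ T, L m ^ (-kapD)) * (4 * B * qI I ^ (a / 2)) := by
        rw [Finset.sum_mul]
        exact Finset.sum_congr rfl fun m _ => by ring
    _ ≤ 3 * qI I ^ (-a) * (4 * B * qI I ^ (a / 2)) := by
        refine mul_le_mul_of_nonneg_right ?_ (by positivity)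
        have hterm : ∀ m ∈ T, L m ^ (-kapD) ≤
            (if m = I then qI I ^ (-a) else 0) + (bandZ m : ℝ) ^ (-a) := by
          intro m _
          have hpos : 0 ≤ (bandZ m : ℝ) ^ (-a) := Real.rpow_nonneg (Nat.cast_nonneg _) _
          simp only [hLd]
          split_ifs with hmI
          · refine le_add_of_le_of_nonneg ?_ hpos
            rw [← Real.rpow_natCast, ← Real.rpow_mul hQ0.le]
            refine Real.rpow_le_rpow_of_exponent_le (by linarith) ?_
            rw [ha]; push_cast; linarith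
          · rw [zero_add, ← Real.rpow_mul (Nat.cast_nonneg _), ha]
            refine le_of_eq ?_
            ring_nf
        refine (Finset.sum_le_sum hterm).trans ?_
        rw [Finset.sum_add_distrib, Finset.sum_ite_eq' T I (fun _ => qI I ^ (-a)),
          if_pos (Finset.mem_Icc.2 ⟨le_rfl, le_max_left _ _⟩)]
        have h2 := hI1 I ((le_max_right _ _).trans hI) (max I (C.S.sup jr))
        have h3 : (bandZ I : ℝ) ^ (-a) ≤ qI I ^ (-a) := by
          refine Real.rpow_le_rpow_of_nonpos hQ0 ?_ (by linarith)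
          rw [qI]
          exact_mod_cast bandZ_mono' (Nat.div_le_self I 8)
        rw [← hT] at h2
        linarith
    _ = 12 * B * (qI I ^ (-a) * qI I ^ (a / 2)) := by ring
    _ = _ := by rw [← Real.rpow_add hQ0]; ring_nf

end Vale.Agent.P028.Full
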