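import Vale.Agent.P028.Full.PairFacts

/-!
Nodes at nested bands: a node moves to a deeper band when the deficient primes in between are
simple and divide its numerator, and to a shallower band when its scale is small.  The denominator
and the scale do not change.
-/

noncomputable section

namespace Vale.Agent.P028.Full

open Finset

/-- Dividing the shift by a divisor of the numerator keeps a node and its scale. -/
theorem isNode_div {β η : ℝ} {u v : ℤ} {P m : ℕ} (h : IsNode β η u P) (hm : 0 < m)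
    (hu : u = v * m) :
    IsNode (β / m) (η / m) v P ∧ nodeScale (β / m) (η / m) v P = nodeScale β η u P := by
  obtain ⟨hP, hc, h1, h2⟩ := h
  have hη : 0 < η := by nlinarith [sq_nonneg (η * P)]
  have hm' : (1 : ℝ) ≤ m := by exact_mod_cast hm
  have he : (P : ℝ) * (β / m) - v = ((P : ℝ) * β - u) / m := by
    rw [hu]
    push_cast
    field_simp
  have hq : η / 64 * m ≤ η / 64 * (m * m) := by
    refine mul_le_mul_of_nonneg_left ?_ (by positivity)
    exact le_mul_of_one_le_left (by linarith) hm'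
  refine ⟨⟨hP, ?_, ?_, ?_⟩, ?_⟩
  · rw [hu] at hc
    exact hc.of_mul_left_left
  · rw [div_mul_eq_mul_div, div_pow, div_lt_iff₀ (by positivity)]
    calc (η * P) ^ 2 < η / 64 := h1
      _ ≤ η / m / 64 * (m : ℝ) ^ 2 := by
          rw [sq, show η / m / 64 * ((m : ℝ) * m) = η / 64 * m by field_simp]
          exact le_mul_of_one_le_right (by positivity) hm'
  · rw [he, div_pow, div_lt_iff₀ (by positivity)]
    calc ((P : ℝ) * β - u) ^ 2 < η / 64 := h2
      _ ≤ η / m / 64 * (m : ℝ) ^ 2 := by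
          rw [sq, show η / m / 64 * ((m : ℝ) * m) = η / 64 * m by field_simp]
          exact le_mul_of_one_le_right (by positivity) hm'
  · rw [nodeScale, nodeScale, he, abs_div, abs_of_pos (by positivity : (0 : ℝ) < m),
      div_div_div_cancel_right₀ (by positivity)]

/-- Multiplying the shift keeps a node of small scale, and its scale. -/
theorem isNode_mul {β η : ℝ} {u : ℤ} {P t : ℕ} (h : IsNode β η u P) (ht : 0 < t)
    (hc : Nat.Coprime t P) (hs : η * t * nodeScale β η u P ^ 2 < 1 / 64) :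
    IsNode (β * t) (η * t) (u * t) P ∧
      nodeScale (β * t) (η * t) (u * t) P = nodeScale β η u P := by
  obtain ⟨hP, hcop, h1, -⟩ := h
  have hη : 0 < η := by nlinarith [sq_nonneg (η * P)]
  have ht' : (0 : ℝ) < t := by exact_mod_cast ht
  set T := nodeScale β η u P with hT
  have hPT : (P : ℝ) ≤ T := (le_max_left _ _).trans (le_max_right _ _)
  have heT : |(P : ℝ) * β - u| ≤ T * η := by
    rw [← div_le_iff₀ hη]
    exact (le_max_right _ _).trans (le_max_right _ _)
  have hT0 : 0 ≤ T := (Nat.cast_nonneg _).trans hPT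
  have he : (P : ℝ) * (β * t) - ((u * t : ℤ) : ℝ) = ((P : ℝ) * β - u) * t := by push_cast; ring
  have key : ∀ z : ℝ, |z| ≤ T * η → (z * t) ^ 2 < η * t / 64 := by
    intro z hz
    have h2 : z ^ 2 ≤ (T * η) ^ 2 := by
      rw [← sq_abs]
      exact pow_le_pow_left₀ (abs_nonneg _) hz 2
    calc (z * t) ^ 2 ≤ (T * η) ^ 2 * t ^ 2 := by rw [mul_pow]; gcongr
      _ = η * t * (η * t * T ^ 2) := by ring
      _ < η * t * (1 / 64) := mul_lt_mul_of_pos_left hs (by positivity)
      _ = _ := by ring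
  refine ⟨⟨hP, hcop.mul_left (Int.isCoprime_iff_nat_coprime.2 (by simpa using hc)), ?_, ?_⟩, ?_⟩
  · have := key (η * P) (by rw [abs_of_nonneg (by positivity), mul_comm T]; gcongr)
    rwa [mul_right_comm] at this
  · rw [he]
    exact key _ heT
  · simp only [hT, nodeScale]
    rw [he, abs_mul, abs_of_pos ht', mul_div_mul_right _ _ ht'.ne']

theorem Par.thr_mono (P : Par) {i j : ℕ} (h : i ≤ j) : P.thr i ≤ P.thr j :=
  Nat.pow_le_pow_left (Nat.pow_le_pow_right (by norm_num)
    (Nat.pow_le_pow_right (by norm_num) (by omega))) _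

variable (C : Ctx)

/-- The deficiencies are nested, with the primes between the thresholds in between. -/
theorem Ctx.def'_nested {o A : ℕ} (h : o ≤ A) (v : ℕ) :
    ∃ m : ℕ, 0 < m ∧ C.def' o v = C.def' A v * m ∧
      ∀ p : ℕ, p.Prime → p ∣ m → C.par.thr o < p ∧ p ≤ C.par.thr A := by
  classical
  set T := (C.S.biUnion Nat.primeFactors).filter (fun p => C.par.thr o < p) with hT
  refine ⟨∏ p ∈ T.filter (fun p => p ≤ C.par.thr A), p ^ (C.k v p - v.factorization p),
    prod_pos fun p hp => pow_pos (prime_of_mem_univ (mem_filter.1 (mem_filter.1 hp).1).1).pos _,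
    ?_, fun p hp hd => ?_⟩
  · rw [Ctx.def', Ctx.def', kDef, kDef, ← hT,
      ← prod_filter_mul_prod_filter_not T (fun p => p ≤ C.par.thr A), mul_comm]
    congr 1
    refine prod_congr ?_ fun _ _ => rfl
    ext p
    simp only [hT, mem_filter, not_le]
    constructor
    · exact fun hh => ⟨hh.1.1, hh.2⟩
    · exact fun hh => ⟨⟨hh.1, lt_of_le_of_lt (C.par.thr_mono h) hh.2⟩, hh.2⟩
  · obtain ⟨q, hq, hpq⟩ := hp.prime.exists_mem_finset_dvd hd
    obtain ⟨hq1, hq2⟩ := mem_filter.1 hq
    obtain rfl := (Nat.prime_dvd_prime_iff_eq hp (prime_of_mem_univ (mem_filter.1 hq1).1)).1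
      (hp.dvd_of_dvd_pow hpq)
    exact ⟨(mem_filter.1 hq1).2, hq2⟩

/-- A node at band `o` gives the node at a deeper band `A`. -/
theorem Ctx.node_deeper {o A v : ℕ} (h : o ≤ A) (hP : 0 < (C.node o v).2)
    (hl : ∀ l : ℕ, l.Prime → l ∣ C.def' o v → l ≤ C.par.thr A →
      ¬ l ^ 2 ∣ C.def' o v ∧ (l : ℤ) ∣ (C.node o v).1) :
    (C.node A v).2 = (C.node o v).2 ∧ C.scale A v = C.scale o v ∧
      (C.node A v).1 * (C.def' o v : ℤ) = (C.node o v).1 * (C.def' A v : ℤ) := by
  obtain ⟨m, hm, he, hmp⟩ := C.def'_nested h v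
  have hsq : Squarefree m := by
    rw [Nat.squarefree_iff_prime_squarefree]
    intro p hp hd
    have hp1 : p ∣ m := dvd_trans ⟨p, rfl⟩ hd
    refine (hl p hp (he ▸ hp1.mul_left _) (hmp p hp hp1).2).1 ?_
    rw [sq, he]
    exact hd.mul_left _
  have hdvd : (m : ℤ) ∣ (C.node o v).1 := by
    rw [Int.natCast_dvd, ← Nat.prod_primeFactors_of_squarefree hsq]
    refine prod_primes_dvd _ (fun p hp => (Nat.prime_of_mem_primeFactors hp).prime) fun p hp => ?_
    have hpp := Nat.prime_of_mem_primeFactors hp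
    have hpd := Nat.dvd_of_mem_primeFactors hp
    exact Int.natCast_dvd.1 (hl p hpp (he ▸ hpd.mul_left _) (hmp p hpp hpd).2).2
  obtain ⟨w, hw⟩ := hdvd
  have hm' : (m : ℝ) ≠ 0 := by exact_mod_cast hm.ne'
  obtain ⟨hn, hs⟩ := isNode_div (isNode_nodeOf hP) hm (show (C.node o v).1 = w * m by
    rw [hw]; ring)
  have e1 : C.γ * (C.def' o v : ℝ) / m = C.γ * C.def' A v := by
    rw [he]; push_cast; field_simp
  have e2 : C.rad o v / m = C.rad A v := by
    rw [Ctx.rad, Ctx.rad, he]; push_cast; field_simp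
  rw [e1, e2] at hn hs
  have heq : C.node A v = (w, (C.node o v).2) := nodeOf_eq hn
  refine ⟨by rw [heq], ?_, ?_⟩
  · rw [Ctx.scale, Ctx.scale, heq]
    exact hs
  · rw [heq, hw, he]
    push_cast
    ring

/-- A node of small scale at band `o` gives the node at a shallower band `A`. -/
theorem Ctx.node_shallower {o A v : ℕ} (h : A ≤ o) (hP : 0 < (C.node o v).2)
    (hPA : (C.node o v).2 ≤ C.par.thr A) (hs : C.rad A v * C.scale o v ^ 2 < 1 / 64) :
    (C.node A v).2 = (C.node o v).2 ∧ C.scale A v = C.scale o v ∧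
      (C.node A v).1 * (C.def' o v : ℤ) = (C.node o v).1 * (C.def' A v : ℤ) := by
  obtain ⟨m, hm, he, hmp⟩ := C.def'_nested h v
  have e1 : C.γ * (C.def' o v : ℝ) * m = C.γ * C.def' A v := by
    rw [he]; push_cast; ring
  have e2 : C.rad o v * m = C.rad A v := by
    rw [Ctx.rad, Ctx.rad, he]; push_cast; ring
  have hco : Nat.Coprime m (C.node o v).2 := Nat.coprime_of_dvd fun p hp h1 h2 => by
    have := (hmp p hp h1).1
    have := Nat.le_of_dvd hP h2
    omega
  obtain ⟨hn, hs'⟩ := isNode_mul (isNode_nodeOf hP) hm hco (by rw [← e2] at hs; exact hs)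
  rw [e1, e2] at hn hs'
  have heq : C.node A v = ((C.node o v).1 * m, (C.node o v).2) := nodeOf_eq hn
  refine ⟨by rw [heq], ?_, ?_⟩
  · rw [Ctx.scale, Ctx.scale, heq]
    exact hs'
  · rw [heq, he]
    push_cast
    ring

/-- A node of the same rational kills a prime of the other quotient. -/
theorem kill_dvd {p : ℕ} (hp : p.Prime) {n u u' cl uA : ℤ} {P P' b bA X X' : ℕ}
    (hlift : uA * b = u * bA) (hden : (p : ℤ) ∣ cl * (P * bA : ℕ) + uA)
    (hZ : n * (P * P' : ℕ) + u * (X * P' : ℕ) - u' * (X' * P : ℕ) = 0)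
    (hX : p ∣ X') (hP' : ¬ p ∣ P') (hnd : ¬ p ∣ P * bA) :
    (p : ℤ) ∣ n - cl * (X * b : ℕ) := by
  have hpi : Prime (p : ℤ) := Nat.prime_iff_prime_int.1 hp
  have h1 : (p : ℤ) ∣ (n - cl * (X * b : ℕ)) * ((P * bA : ℕ) : ℤ) * (P' : ℤ) := by
    have e : (n - cl * (X * b : ℕ)) * ((P * bA : ℕ) : ℤ) * (P' : ℤ) =
        u' * (X' * P : ℕ) * bA - (X * b * P' : ℕ) * (cl * (P * bA : ℕ) + uA) +
          (n * (P * P' : ℕ) + u * (X * P' : ℕ) - u' * (X' * P : ℕ)) * bA +
          (X * P' : ℕ) * (uA * b - u * bA) := by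
      push_cast; ring
    rw [e, hZ, hlift, sub_self, zero_mul, mul_zero, add_zero, add_zero]
    refine dvd_sub ?_ (hden.mul_left _)
    exact ((Int.natCast_dvd_natCast.2 (hX.mul_right P)).mul_left u').mul_right _
  rcases hpi.dvd_or_dvd h1 with h2 | h2
  · rcases hpi.dvd_or_dvd h2 with h3 | h3
    · exact h3
    · exact absurd (Int.natCast_dvd_natCast.1 h3) hnd
  · exact absurd (Int.natCast_dvd_natCast.1 h2) hP'

end Vale.Agent.P028.Full
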