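import Vale.Agent.P028.Full.WHigh
import Vale.Agent.P028.Full.PairFacts

/-!
Counting for the events of the exact coincidences: coprime points whose determinants are bounded
multiples of one integer, the integers near which a shift has a rational of given error, and the
uniqueness of a node in a dyadic range of denominators.
-/

noncomputable section

namespace Vale.Agent.P028.Full

open Finset

/-- At most `(b - a) / g + 1` values separated by `g` lie in `[a, b]`. -/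
theorem card_le_of_separated {α : Type*} (S : Finset α) (f : α → ℝ) {a b g : ℝ} (hg : 0 < g)
    (hab : a ≤ b) (hS : ∀ x ∈ S, a ≤ f x ∧ f x ≤ b)
    (hsep : ∀ x ∈ S, ∀ y ∈ S, x ≠ y → g ≤ |f x - f y|) :
    (S.card : ℝ) ≤ (b - a) / g + 1 := by
  have hle : S.card ≤ (Finset.range (⌊(b - a) / g⌋₊ + 1)).card := by
    refine Finset.card_le_card_of_injOn (fun x => ⌊(f x - a) / g⌋₊) (fun x hx => ?_) ?_
    · refine Finset.mem_coe.2 (Finset.mem_range.2 (Nat.lt_succ_of_le (Nat.floor_le_floor ?_)))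
      exact div_le_div_of_nonneg_right (by linarith [(hS x hx).2]) hg.le
    · intro x hx y hy hxy
      by_contra hne
      simp only [Finset.mem_coe] at hx hy
      have h := hsep x hx y hy hne
      have x1 := Nat.floor_le (div_nonneg (sub_nonneg.2 (hS x hx).1) hg.le)
      have x2 := Nat.lt_floor_add_one ((f x - a) / g)
      have y1 := Nat.floor_le (div_nonneg (sub_nonneg.2 (hS y hy).1) hg.le)
      have y2 := Nat.lt_floor_add_one ((f y - a) / g)
      simp only at hxy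
      rw [← hxy] at y1 y2
      have key : |(f x - a) / g - (f y - a) / g| < 1 := abs_lt.2 ⟨by linarith, by linarith⟩
      rw [← sub_div, abs_div, abs_of_pos hg, div_lt_one hg,
        show f x - a - (f y - a) = f x - f y by ring] at key
      linarith
  rw [Finset.card_range] at hle
  have := Nat.floor_le (div_nonneg (sub_nonneg.2 hab) hg.le)
  have : (S.card : ℝ) ≤ ((⌊(b - a) / g⌋₊ + 1 : ℕ) : ℝ) := by exact_mod_cast hle
  push_cast at this
  linarith

/-- The determinant of two points. -/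
def pdet (p q : ℕ × ℕ) : ℤ := (p.1 : ℤ) * q.2 - (q.1 : ℤ) * p.2

/-- Coprime points of one dyadic block whose determinants are multiples of `N` of size at most `B`:
there are at most `8 B / N + 1` of them. -/
theorem card_points_le (A : Finset (ℕ × ℕ)) {E N : ℕ} {B : ℝ} (hN : 0 < N) (hB : 0 ≤ B)
    (hA : ∀ p ∈ A, E ≤ p.2 ∧ p.2 < 2 * E ∧ Nat.Coprime p.1 p.2)
    (hdvd : ∀ p ∈ A, ∀ q ∈ A, (N : ℤ) ∣ pdet p q)
    (hbd : ∀ p ∈ A, ∀ q ∈ A, |(pdet p q : ℝ)| ≤ B) :
    (A.card : ℝ) ≤ 8 * B / N + 1 := by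
  rcases A.eq_empty_or_nonempty with rfl | ⟨p0, hp0⟩
  · simp only [Finset.card_empty, Nat.cast_zero]
    positivity
  have hE : 0 < E := by have := hA p0 hp0; omega
  have hE0 : (0 : ℝ) < E := by exact_mod_cast hE
  have hN0 : (0 : ℝ) < N := by exact_mod_cast hN
  set f : ℕ × ℕ → ℝ := fun p => (p.1 : ℝ) / p.2 with hf
  have hy : ∀ p ∈ A, (E : ℝ) ≤ p.2 ∧ (p.2 : ℝ) ≤ 2 * E := fun p hp =>
    ⟨by exact_mod_cast (hA p hp).1, by exact_mod_cast (hA p hp).2.1.le⟩
  have hdiff : ∀ p ∈ A, ∀ q ∈ A, f p - f q = (pdet p q : ℝ) / ((p.2 : ℝ) * q.2) := by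
    intro p hp q hq
    have := (hy p hp).1
    have := (hy q hq).1
    simp only [hf, pdet]
    rw [div_sub_div _ _ (by linarith) (by linarith)]
    push_cast
    ring
  have hrange : ∀ p ∈ A, |f p - f p0| ≤ B / (E : ℝ) ^ 2 := by
    intro p hp
    obtain ⟨h1, -⟩ := hy p hp
    obtain ⟨h2, -⟩ := hy p0 hp0
    rw [hdiff p hp p0 hp0, abs_div,
      abs_of_pos (mul_pos (hE0.trans_le h1) (hE0.trans_le h2)), sq]
    exact div_le_div₀ hB (hbd p hp p0 hp0) (by positivity) (mul_le_mul h1 h2 hE0.le (by linarith))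
  refine (card_le_of_separated A f (a := f p0 - B / (E : ℝ) ^ 2) (b := f p0 + B / (E : ℝ) ^ 2)
    (g := (N : ℝ) / (4 * (E : ℝ) ^ 2)) (by positivity)
    (by linarith [show 0 ≤ B / (E : ℝ) ^ 2 by positivity]) (fun p hp => ?_) fun p hp q hq hne => ?_
    ).trans (le_of_eq ?_)
  · have := abs_le.1 (hrange p hp)
    constructor <;> linarith
  · obtain ⟨h1, h1'⟩ := hy p hp
    obtain ⟨h2, h2'⟩ := hy q hq
    have hne0 : pdet p q ≠ 0 := by
      intro h0
      have h : p.1 * q.2 = q.1 * p.2 := by exact_mod_cast sub_eq_zero.1 h0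
      obtain ⟨a, b⟩ := coprime_point_ext (hA p hp).2.2 (hA q hq).2.2 h
      exact hne (Prod.ext a b)
    have hge : (N : ℝ) ≤ |(pdet p q : ℝ)| := by
      have h := Int.le_of_dvd (abs_pos.2 hne0) ((dvd_abs _ _).2 (hdvd p hp q hq))
      rw [← Int.cast_abs]
      exact_mod_cast h
    rw [hdiff p hp q hq, abs_div,
      abs_of_pos (mul_pos (hE0.trans_le h1) (hE0.trans_le h2))]
    refine div_le_div₀ (abs_nonneg _) hge (mul_pos (hE0.trans_le h1) (hE0.trans_le h2)) ?_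
    calc (p.2 : ℝ) * q.2 ≤ (2 * E) * (2 * E) := mul_le_mul h1' h2' (by linarith) (by linarith)
      _ = _ := by ring
  · field_simp
    ring

/-- Coprime points of one box with determinants divisible by `N`. -/
theorem card_points_box_le (A : Finset (ℕ × ℕ)) {E N X : ℕ} (hN : 0 < N)
    (hA : ∀ p ∈ A, p.1 ≤ X ∧ E ≤ p.2 ∧ p.2 < 2 * E ∧ Nat.Coprime p.1 p.2)
    (hdvd : ∀ p ∈ A, ∀ q ∈ A, (N : ℤ) ∣ pdet p q) :
    (A.card : ℝ) ≤ 16 * X * E / N + 1 := by
  refine (card_points_le A hN (B := 2 * X * E) (by positivity) (fun p hp => (hA p hp).2) hdvd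
    fun p hp q hq => ?_).trans_eq (by ring)
  obtain ⟨h1, -, h2, -⟩ := hA p hp
  obtain ⟨h3, -, h4, -⟩ := hA q hq
  have a1 : p.1 * q.2 ≤ 2 * X * E := by
    calc p.1 * q.2 ≤ X * (2 * E) := Nat.mul_le_mul h1 h4.le
      _ = _ := by ring
  have a2 : q.1 * p.2 ≤ 2 * X * E := by
    calc q.1 * p.2 ≤ X * (2 * E) := Nat.mul_le_mul h3 h2.le
      _ = _ := by ring
  have b1 : ((p.1 : ℝ) * q.2) ≤ 2 * X * E := by exact_mod_cast a1
  have b2 : ((q.1 : ℝ) * p.2) ≤ 2 * X * E := by exact_mod_cast a2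
  have c1 : (0 : ℝ) ≤ (p.1 : ℝ) * q.2 := by positivity
  have c2 : (0 : ℝ) ≤ (q.1 : ℝ) * p.2 := by positivity
  rw [pdet]
  push_cast
  exact abs_le.2 ⟨by linarith, by linarith⟩

private theorem sum_inv_sq_Icc_le : ∀ G : ℕ, ∑ g ∈ Finset.Icc 1 G, 1 / (g : ℝ) ^ 2 ≤
    if G = 0 then 0 else 2 - 1 / (G : ℝ)
  | 0 => by simp
  | G + 1 => by
    rw [Finset.sum_Icc_succ_top (by omega), if_neg (by omega)]
    refine (add_le_add_left (sum_inv_sq_Icc_le G) _).trans ?_
    rcases Nat.eq_zero_or_pos G with rfl | hG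
    · norm_num
    rw [if_neg hG.ne']
    have h : (1 : ℝ) ≤ G := by exact_mod_cast hG
    push_cast
    have : 1 / ((G : ℝ) + 1) ^ 2 ≤ 1 / (G : ℝ) - 1 / ((G : ℝ) + 1) := by
      rw [div_sub_div _ _ (by linarith) (by linarith), div_le_div_iff₀ (by positivity) (by positivity)]
      nlinarith
    linarith

/-- The integers of a dyadic block at which `β` has a rational with error at most `δ`: apart from
`17 F δ + 1` of them they are multiples of one denominator, and come from its fraction. -/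
theorem exists_near_multiples (β : ℝ) {δ : ℝ} (hδ : 0 ≤ δ) (F : ℕ) (A : Finset ℕ)
    (hA : ∀ f ∈ A, F ≤ f ∧ f < 2 * F ∧ ∃ u : ℤ, |(f : ℝ) * β - u| ≤ δ) :
    ∃ (q0 : ℕ) (u0 : ℤ), 0 < q0 ∧ IsCoprime u0 (q0 : ℤ) ∧
      ((A.filter (fun f : ℕ => ¬ (q0 ∣ f ∧
        ((f / q0 : ℕ) : ℝ) * |(q0 : ℝ) * β - u0| ≤ δ))).card : ℝ) ≤ 17 * (F * δ) + 1 := by
  classical
  set u : ℕ → ℤ := fun f => if h : f ∈ A then (hA f h).2.2.choose else 0 with hu
  have hus : ∀ f ∈ A, |(f : ℝ) * β - u f| ≤ δ := fun f hf => by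
    simp only [hu, dif_pos hf]
    exact (hA f hf).2.2.choose_spec
  have hfpos : ∀ f ∈ A, 0 < f := fun f hf => by have := hA f hf; omega
  set g : ℕ → ℕ := fun f => Int.gcd (u f) f with hg
  have hgpos : ∀ f ∈ A, 0 < g f := fun f hf =>
    Int.gcd_pos_of_ne_zero_right _ (by exact_mod_cast (hfpos f hf).ne')
  have hdvd : ∀ f1 f2 : ℕ, ((g f1 * g f2 : ℕ) : ℤ) ∣ u f1 * (f2 : ℤ) - u f2 * (f1 : ℤ) := by
    intro f1 f2
    push_cast
    refine dvd_sub (mul_dvd_mul (Int.gcd_dvd_left _ _) (Int.gcd_dvd_right _ _)) ?_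
    rw [mul_comm (g f1 : ℤ)]
    exact mul_dvd_mul (Int.gcd_dvd_left _ _) (Int.gcd_dvd_right _ _)
  have hcross : ∀ f1 ∈ A, ∀ f2 ∈ A,
      |((u f1 * (f2 : ℤ) - u f2 * (f1 : ℤ) : ℤ) : ℝ)| ≤ δ * ((f1 : ℝ) + f2) := by
    intro f1 h1 f2 h2
    push_cast
    calc |(u f1 : ℝ) * f2 - (u f2 : ℝ) * f1|
        = |((f2 : ℝ) * β - u f2) * f1 - ((f1 : ℝ) * β - u f1) * f2| := by ring_nf
      _ ≤ |((f2 : ℝ) * β - u f2) * f1| + |((f1 : ℝ) * β - u f1) * f2| := abs_sub _ _
      _ ≤ δ * f1 + δ * f2 := by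
          rw [abs_mul, abs_mul, Nat.abs_cast, Nat.abs_cast]
          exact add_le_add (mul_le_mul_of_nonneg_right (hus f2 h2) (Nat.cast_nonneg _))
            (mul_le_mul_of_nonneg_right (hus f1 h1) (Nat.cast_nonneg _))
      _ = _ := by ring
  have hF2 : ∀ f ∈ A, (F : ℝ) ≤ f ∧ (f : ℝ) ≤ 2 * F := fun f hf =>
    ⟨by exact_mod_cast (hA f hf).1, by exact_mod_cast (hA f hf).2.1.le⟩
  have hz : 0 ≤ (F : ℝ) * δ := by positivity
  set G : ℕ := ⌊Real.sqrt (4 * (F * δ))⌋₊ with hG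
  have hbig : ∀ f : ℕ, G < g f → Real.sqrt (4 * (F * δ)) < g f := fun f hf => Nat.lt_of_floor_lt hf
  -- two points with large gcd are on one line
  have hline : ∀ f1 ∈ A, ∀ f2 ∈ A, G < g f1 → G < g f2 → u f1 * (f2 : ℤ) = u f2 * (f1 : ℤ) := by
    intro f1 h1 f2 h2 g1 g2
    refine sub_eq_zero.1 (by_contra fun hne => ?_)
    have hle := Int.le_of_dvd (abs_pos.2 hne) ((dvd_abs _ _).2 (hdvd f1 f2))
    have hle' : ((g f1 * g f2 : ℕ) : ℝ) ≤ |((u f1 * (f2 : ℤ) - u f2 * (f1 : ℤ) : ℤ) : ℝ)| := by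
      rw [← Int.cast_abs]
      exact_mod_cast hle
    have hlt : 4 * ((F : ℝ) * δ) < (g f1 : ℝ) * g f2 := by
      rw [← Real.mul_self_sqrt (show 0 ≤ 4 * ((F : ℝ) * δ) by positivity)]
      exact mul_lt_mul'' (hbig f1 g1) (hbig f2 g2) (Real.sqrt_nonneg _) (Real.sqrt_nonneg _)
    have := hcross f1 h1 f2 h2
    have := mul_le_mul_of_nonneg_left (add_le_add (hF2 f1 h1).2 (hF2 f2 h2).2) hδ
    push_cast at hle'
    push_cast at *
    nlinarith
  -- few points have a given small gcd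
  have hsmall : ∀ d ∈ Finset.Icc 1 G,
      ((A.filter (fun f => g f = d)).card : ℝ) ≤ 8 * (F * δ) * (1 / (d : ℝ) ^ 2) + 1 := by
    intro d hd
    have hd1 : (1 : ℝ) ≤ d := by exact_mod_cast (Finset.mem_Icc.1 hd).1
    rcases (A.filter (fun f => g f = d)).eq_empty_or_nonempty with he | ⟨f0, hf0⟩
    · rw [he, Finset.card_empty, Nat.cast_zero]
      positivity
    have hF0 : 0 < (F : ℝ) := by
      have := hA f0 (Finset.mem_filter.1 hf0).1
      exact_mod_cast (show 0 < F by omega)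
    refine (card_le_of_separated _ (fun f : ℕ => (u f : ℝ) / f) (a := β - δ / F) (b := β + δ / F)
      (g := (d : ℝ) ^ 2 / (4 * (F : ℝ) ^ 2)) (by positivity)
      (by linarith [show 0 ≤ δ / (F : ℝ) by positivity]) (fun f hf => ?_)
      fun f1 h1 f2 h2 hne => ?_).trans (le_of_eq ?_)
    · obtain ⟨hf, -⟩ := Finset.mem_filter.1 hf
      have hF := (hF2 f hf).1
      have h : |(u f : ℝ) / f - β| ≤ δ / F := by
        rw [div_sub' (by linarith), abs_div, abs_of_pos (hF0.trans_le hF)]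
        exact div_le_div₀ hδ (by rw [abs_sub_comm]; exact hus f hf) hF0 hF
      rw [abs_le] at h
      constructor <;> linarith
    · obtain ⟨h1, e1⟩ := Finset.mem_filter.1 h1
      obtain ⟨h2, e2⟩ := Finset.mem_filter.1 h2
      have hne0 : u f1 * (f2 : ℤ) - u f2 * (f1 : ℤ) ≠ 0 := by
        intro h0
        have hd0 : (0 : ℤ) < d := by exact_mod_cast (Finset.mem_Icc.1 hd).1
        obtain ⟨a1, b1, c1, ha1, hb1⟩ := Int.exists_gcd_one (m := u f1) (n := (f1 : ℤ))
          (by rw [show Int.gcd (u f1) (f1 : ℤ) = d from e1]; exact_mod_cast hd0)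
        obtain ⟨a2, b2, c2, ha2, hb2⟩ := Int.exists_gcd_one (m := u f2) (n := (f2 : ℤ))
          (by rw [show Int.gcd (u f2) (f2 : ℤ) = d from e2]; exact_mod_cast hd0)
        rw [show Int.gcd (u f1) (f1 : ℤ) = d from e1] at ha1 hb1
        rw [show Int.gcd (u f2) (f2 : ℤ) = d from e2] at ha2 hb2
        have hab : a1 * b2 = a2 * b1 := by
          have h := sub_eq_zero.1 h0
          rw [ha1, hb1, ha2, hb2] at h
          refine mul_right_cancel₀ (pow_ne_zero 2 hd0.ne') ?_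
          linear_combination h
        have hb1' : 0 < b1 := pos_of_mul_pos_left
          (hb1 ▸ (by exact_mod_cast hfpos f1 h1 : (0 : ℤ) < f1)) hd0.le
        have hb2' : 0 < b2 := pos_of_mul_pos_left
          (hb2 ▸ (by exact_mod_cast hfpos f2 h2 : (0 : ℤ) < f2)) hd0.le
        have hbb : b1 = b2 := by
          refine Int.dvd_antisymm hb1'.le hb2'.le ?_ ?_
          · exact (Int.isCoprime_iff_gcd_eq_one.2 c1).symm.dvd_of_dvd_mul_left ⟨a2, by linear_combination hab⟩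
          · exact (Int.isCoprime_iff_gcd_eq_one.2 c2).symm.dvd_of_dvd_mul_left ⟨a1, by linear_combination -hab⟩
        refine hne ?_
        have : (f1 : ℤ) = f2 := by rw [hb1, hb2, hbb]
        exact_mod_cast this
      have hle := Int.le_of_dvd (abs_pos.2 hne0) ((dvd_abs _ _).2 (hdvd f1 f2))
      rw [e1, e2] at hle
      have hle' : (d : ℝ) ^ 2 ≤ |((u f1 * (f2 : ℤ) - u f2 * (f1 : ℤ) : ℤ) : ℝ)| := by
        rw [sq, ← Int.cast_abs]
        exact_mod_cast hle
      have p1 : (0 : ℝ) < f1 := hF0.trans_le (hF2 f1 h1).1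
      have p2 : (0 : ℝ) < f2 := hF0.trans_le (hF2 f2 h2).1
      rw [div_sub_div _ _ p1.ne' p2.ne', abs_div, abs_of_pos (mul_pos p1 p2)]
      refine div_le_div₀ (abs_nonneg _) ?_ (mul_pos p1 p2) ?_
      · refine hle'.trans_eq (congrArg abs ?_)
        push_cast
        ring
      · calc (f1 : ℝ) * f2 ≤ (2 * F) * (2 * F) :=
            mul_le_mul (hF2 f1 h1).2 (hF2 f2 h2).2 p2.le (by linarith)
          _ = _ := by ring
    · field_simp
      ring
  have hcount : ((A.filter (fun f => g f ≤ G)).card : ℝ) ≤ 17 * (F * δ) + 1 := by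
    have hsplit : (A.filter (fun f => g f ≤ G)).card =
        ∑ d ∈ Finset.Icc 1 G, (A.filter (fun f => g f = d)).card := by
      rw [Finset.card_eq_sum_card_fiberwise (f := g) (t := Finset.Icc 1 G) fun f hf => ?_]
      · refine Finset.sum_congr rfl fun d hd => congrArg Finset.card ?_
        ext f
        simp only [Finset.mem_filter]
        constructor
        · exact fun h => ⟨h.1.1, h.2⟩
        · exact fun h => ⟨⟨h.1, h.2 ▸ (Finset.mem_Icc.1 hd).2⟩, h.2⟩
      · obtain ⟨h1, h2⟩ := Finset.mem_filter.1 hf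
        exact Finset.mem_coe.2 (Finset.mem_Icc.2 ⟨hgpos f h1, h2⟩)
    rw [hsplit, Nat.cast_sum]
    refine (Finset.sum_le_sum hsmall).trans ?_
    rw [Finset.sum_add_distrib, ← Finset.mul_sum, Finset.sum_const, Nat.card_Icc, nsmul_one,
      Nat.add_sub_cancel]
    have h1 : ∑ d ∈ Finset.Icc 1 G, 1 / (d : ℝ) ^ 2 ≤ 2 := by
      refine (sum_inv_sq_Icc_le G).trans ?_
      split_ifs
      · norm_num
      · linarith [show (0 : ℝ) ≤ 1 / (G : ℝ) by positivity]
    have h2 : (G : ℝ) ≤ F * δ + 1 := by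
      refine (Nat.floor_le (Real.sqrt_nonneg _)).trans ?_
      rw [Real.sqrt_le_iff]
      constructor
      · linarith
      · nlinarith [sq_nonneg ((F : ℝ) * δ - 1)]
    have := mul_le_mul_of_nonneg_left h1 (show 0 ≤ 8 * ((F : ℝ) * δ) by positivity)
    linarith
  by_cases hex : ∃ f ∈ A, G < g f
  · obtain ⟨f0, hf0, hg0⟩ := hex
    have hgz : (0 : ℤ) < g f0 := by exact_mod_cast hgpos f0 hf0
    obtain ⟨a0, b0, c0, ha0, hb0⟩ := Int.exists_gcd_one (m := u f0) (n := (f0 : ℤ))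
      (hgpos f0 hf0)
    change u f0 = a0 * (g f0 : ℤ) at ha0
    change (f0 : ℤ) = b0 * (g f0 : ℤ) at hb0
    have hb0' : 0 < b0 := pos_of_mul_pos_left
      (hb0 ▸ (by exact_mod_cast hfpos f0 hf0 : (0 : ℤ) < f0)) hgz.le
    obtain ⟨q0, rfl⟩ : ∃ q0 : ℕ, b0 = q0 := ⟨b0.toNat, (Int.toNat_of_nonneg hb0'.le).symm⟩
    refine ⟨q0, a0, by exact_mod_cast hb0', Int.isCoprime_iff_gcd_eq_one.2 c0, ?_⟩
    refine le_trans (Nat.cast_le.2 (Finset.card_le_card fun f hf => ?_)) hcount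
    obtain ⟨hf, hnot⟩ := Finset.mem_filter.1 hf
    refine Finset.mem_filter.2 ⟨hf, not_lt.1 fun hgf => hnot ?_⟩
    have hl := hline f hf f0 hf0 hgf hg0
    rw [ha0, hb0] at hl
    have hl' : u f * (q0 : ℤ) = a0 * (f : ℤ) := by
      refine mul_right_cancel₀ hgz.ne' ?_
      linear_combination hl
    have hdv : q0 ∣ f := Int.natCast_dvd_natCast.1
      ((Int.isCoprime_iff_gcd_eq_one.2 c0).symm.dvd_of_dvd_mul_left ⟨u f, by linear_combination -hl'⟩)
    refine ⟨hdv, ?_⟩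
    obtain ⟨m, rfl⟩ := hdv
    have hq : 0 < q0 := by exact_mod_cast hb0'
    rw [Nat.mul_div_cancel_left m hq]
    have hum : u (q0 * m) = a0 * (m : ℤ) := by
      refine mul_right_cancel₀ (show (q0 : ℤ) ≠ 0 by exact_mod_cast hq.ne') ?_
      rw [hl']
      push_cast
      ring
    have h := hus _ hf
    rw [hum] at h
    push_cast at h
    calc (m : ℝ) * |(q0 : ℝ) * β - a0| = |(q0 : ℝ) * m * β - a0 * m| := by
          rw [← abs_of_nonneg (Nat.cast_nonneg (α := ℝ) m), ← abs_mul, Nat.abs_cast]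
          ring_nf
      _ ≤ δ := h
  · refine ⟨1, 0, one_pos, isCoprime_one_right, le_trans (Nat.cast_le.2 (Finset.card_le_card
      fun f hf => ?_)) hcount⟩
    obtain ⟨hf, -⟩ := Finset.mem_filter.1 hf
    exact Finset.mem_filter.2 ⟨hf, not_lt.1 fun h => hex ⟨f, hf, h⟩⟩

/-- Nodes of one shift at two scales whose denominators differ by at most a factor `2` are equal. -/
theorem IsNode.eq_of_dyadic {β η η' : ℝ} {u u' : ℤ} {P P' : ℕ} (h : IsNode β η u P)
    (h' : IsNode β η' u' P') (h1 : P ≤ 2 * P') (h2 : P' ≤ 2 * P) : u = u' ∧ P = P' := by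
  obtain ⟨hP, hc, a1, a2⟩ := h
  obtain ⟨hP', hc', b1, b2⟩ := h'
  have key : ∀ {η : ℝ} {P : ℕ} {e : ℝ}, (η * P) ^ 2 < η / 64 → e ^ 2 < η / 64 →
      (P : ℝ) * |e| ≤ 1 / 64 := by
    intro η P e x1 x2
    have hη : 0 < η := by nlinarith [sq_nonneg e]
    have hm : (η * P) ^ 2 * e ^ 2 ≤ (η / 64) * (η / 64) :=
      mul_le_mul x1.le x2.le (sq_nonneg _) (by linarith)
    have h3 : η ^ 2 * ((P : ℝ) * |e|) ^ 2 ≤ η ^ 2 * (1 / 64) ^ 2 := by
      rw [mul_pow (P : ℝ), sq_abs]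
      linarith
    exact le_of_pow_le_pow_left₀ two_ne_zero (by norm_num)
      (le_of_mul_le_mul_left h3 (by positivity))
  have e1 := key a1 a2
  have e2 := key b1 b2
  have h1' : (P : ℝ) ≤ 2 * P' := by exact_mod_cast h1
  have h2' : (P' : ℝ) ≤ 2 * P := by exact_mod_cast h2
  have hlt : |((u * P' - u' * P : ℤ) : ℝ)| < 1 := by
    push_cast
    calc |(u : ℝ) * P' - u' * P|
        = |((P' : ℝ) * β - u') * P - ((P : ℝ) * β - u) * P'| := by ring_nf
      _ ≤ |((P' : ℝ) * β - u') * P| + |((P : ℝ) * β - u) * P'| := abs_sub _ _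
      _ = |(P' : ℝ) * β - u'| * P + |(P : ℝ) * β - u| * P' := by
          rw [abs_mul, abs_mul, Nat.abs_cast, Nat.abs_cast]
      _ ≤ |(P' : ℝ) * β - u'| * (2 * P') + |(P : ℝ) * β - u| * (2 * P) :=
          add_le_add (mul_le_mul_of_nonneg_left h1' (abs_nonneg _))
            (mul_le_mul_of_nonneg_left h2' (abs_nonneg _))
      _ < 1 := by
          have := e1; have := e2; linarith
  have hzero : u * (P' : ℤ) = u' * (P : ℤ) := by
    rw [← Int.cast_abs, ← Int.cast_one, Int.cast_lt, Int.abs_lt_one_iff] at hlt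
    linarith
  have d1 : (P : ℤ) ∣ P' := hc.symm.dvd_of_dvd_mul_left ⟨u', by linear_combination hzero⟩
  have d2 : (P' : ℤ) ∣ P := hc'.symm.dvd_of_dvd_mul_left ⟨u, by linear_combination -hzero⟩
  have hPP : P = P' := Nat.dvd_antisymm (Int.natCast_dvd_natCast.1 d1) (Int.natCast_dvd_natCast.1 d2)
  refine ⟨?_, hPP⟩
  rw [hPP] at hzero
  exact mul_right_cancel₀ (by exact_mod_cast hP'.ne') hzero

end Vale.Agent.P028.Full
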