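import Vale.Agent.P028.Full.Moment.Defs
import Vale.Agent.P028.Full.Moment.Nodes
import Vale.Agent.P028.Full.Moment.Points
import Vale.Agent.P028.Full.Bil
import Vale.Agent.P028.Full.Pools

/-!
The events which are read off one side: slack, smooth parts, bad deficiencies and heavy fibres.
-/

noncomputable section

namespace Vale.Agent.P028.Full

open Finset

namespace EventsSmall

theorem bandZ_rpow (j : ℕ) (t : ℝ) :
    (bandZ j : ℝ) ^ t = (2 : ℝ) ^ (t * ((2 : ℝ) ^ j)) := by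
  rw [bandZ]
  push_cast
  rw [← Real.rpow_natCast (2 : ℝ) (2 ^ j), ← Real.rpow_mul zero_le_two, mul_comm]
  push_cast
  rfl

theorem bandZ_real (j : ℕ) : (bandZ j : ℝ) = (2 : ℝ) ^ ((2 : ℝ) ^ j) := by
  simpa using bandZ_rpow j 1

theorem qI_rpow (I : ℕ) (t : ℝ) : qI I ^ t = (2 : ℝ) ^ (t * ((2 : ℝ) ^ (I / 8))) := bandZ_rpow _ t

theorem one_le_bandZ' (j : ℕ) : (1 : ℝ) ≤ bandZ j := by
  rw [bandZ_real]
  exact Real.one_le_rpow one_le_two (by positivity)

theorem one_le_qI (I : ℕ) : 1 ≤ qI I := one_le_bandZ' _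

/-- A doubly exponential gain beats every power of `Q`. -/
theorem exists_grow (a b : ℝ) (ha : 0 < a) :
    ∃ I0 : ℕ, ∀ I, I0 ≤ I → ∀ A, I / 3 ≤ A →
      b * (2 : ℝ) ^ (I / 8) + b * A + b ≤ a * (2 : ℝ) ^ A := by
  set B := |b| with hB
  have hB0 : 0 ≤ B := abs_nonneg b
  obtain ⟨n, hn⟩ := exists_nat_ge (3 * B / a + 1)
  refine ⟨16 * n + 48, fun I hI A hA => ?_⟩
  have hAd : I / 8 + n ≤ A := by omega
  obtain ⟨d, rfl⟩ := Nat.exists_eq_add_of_le hAd
  have hn0 : 3 * B ≤ a * n := by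
    have := mul_le_mul_of_nonneg_left hn ha.le
    rw [mul_add, mul_div_cancel₀ _ ha.ne'] at this
    nlinarith
  have h2n : (n : ℝ) ≤ (2 : ℝ) ^ n := by exact_mod_cast Nat.lt_two_pow_self.le
  have hm : (1 : ℝ) ≤ (2 : ℝ) ^ (I / 8 + n + d) := one_le_pow₀ one_le_two
  have hA2 : ((I / 8 + n + d : ℕ) : ℝ) ≤ (2 : ℝ) ^ (I / 8 + n + d) := by
    exact_mod_cast Nat.lt_two_pow_self.le
  -- the first term
  have e1 : 3 * (B * (2 : ℝ) ^ (I / 8)) ≤ a * (2 : ℝ) ^ (I / 8 + n + d) := by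
    rw [pow_add, pow_add]
    have h1 : (1 : ℝ) ≤ (2 : ℝ) ^ d := one_le_pow₀ one_le_two
    have h8 : (0 : ℝ) ≤ (2 : ℝ) ^ (I / 8) := by positivity
    nlinarith [mul_le_mul_of_nonneg_right hn0 h8, mul_le_mul_of_nonneg_left h2n (mul_nonneg ha.le h8),
      mul_le_mul_of_nonneg_left h1 (mul_nonneg (mul_nonneg ha.le h8) (by positivity : (0:ℝ) ≤ 2 ^ n))]
  -- the linear term: `2 ^ A` is at least `A * n`
  have e2 : 3 * (B * ((I / 8 + n + d : ℕ) : ℝ) + B) ≤ a * (2 : ℝ) ^ (I / 8 + n + d) * 2 := by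
    set A := I / 8 + n + d with hAdef
    have hAn : 2 * n + 2 ≤ A := by omega
    have h4 : (n : ℝ) * ((A : ℝ) + 1) ≤ 2 * (2 : ℝ) ^ A := by
      have key : n * (A + 1) ≤ 2 * 2 ^ A := by
        obtain ⟨e, he⟩ := Nat.exists_eq_add_of_le hAn
        have h5 : n < 2 ^ n := Nat.lt_two_pow_self
        have h6 : A + 1 ≤ 2 ^ (n + 1) * 2 ^ (e + 1) := by
          have h7 : n + 1 < 2 ^ (n + 1) := Nat.lt_two_pow_self
          have h8 : e + 1 < 2 ^ (e + 1) := Nat.lt_two_pow_self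
          have : 2 * (n + 1) + e + 1 ≤ 2 * ((n + 1) * (e + 1)) + 1 * (e + 1) := by nlinarith
          nlinarith
        calc n * (A + 1) ≤ 2 ^ n * (2 ^ (n + 1) * 2 ^ (e + 1)) := Nat.mul_le_mul h5.le h6
          _ = 2 ^ A := by rw [he, ← pow_add, ← pow_add]; ring_nf
          _ ≤ 2 * 2 ^ A := Nat.le_mul_of_pos_left _ two_pos
      exact_mod_cast key
    calc 3 * (B * (A : ℝ) + B) = 3 * B * ((A : ℝ) + 1) := by ring
      _ ≤ a * n * ((A : ℝ) + 1) := mul_le_mul_of_nonneg_right hn0 (by positivity)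
      _ ≤ a * (2 * (2 : ℝ) ^ A) := by rw [mul_assoc]; exact mul_le_mul_of_nonneg_left h4 ha.le
      _ = _ := by ring
  have hb1 : b * (2 : ℝ) ^ (I / 8) ≤ B * (2 : ℝ) ^ (I / 8) :=
    mul_le_mul_of_nonneg_right (le_abs_self b) (by positivity)
  have hb2 : b * ((I / 8 + n + d : ℕ) : ℝ) ≤ B * ((I / 8 + n + d : ℕ) : ℝ) :=
    mul_le_mul_of_nonneg_right (le_abs_self b) (Nat.cast_nonneg _)
  linarith [le_abs_self b]

theorem sum_half_pow_le (T : Finset ℕ) : ∑ A ∈ T, (1 / 2 : ℝ) ^ A ≤ 2 := by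
  refine le_trans (Finset.sum_le_sum_of_subset_of_nonneg (fun A hA => ?_) fun _ _ _ => by positivity)
    (sum_geometric_two_le (T.sup id + 1))
  exact Finset.mem_range.2 (Nat.lt_succ_of_le (Finset.le_sup (f := id) hA))

open Classical in
/-- The pairs near `I` whose first member has a deficiency at band `A` of small probability. -/
theorem exists_cellEvent_le : ∃ B : ℝ, 0 ≤ B ∧ ∀ (ξ K : ℝ) (C : Ctx), C.Ok ξ K →
    ∀ (I A : ℕ) (P : ℕ → Prop) (H1 : ℝ), I / 32 ≤ A → 0 ≤ H1 → H1 ≤ 1 →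
      (∀ v₀ ∈ C.S, ∑ b ∈ ((kCell C.k C.S (C.par.thr A) v₀).filter P).image (C.def' A),
        defProb (kCentre C.k C.S (C.par.thr A) v₀) b ≤ H1) →
      ∑ q ∈ C.S.filter P, ∑ r ∈ C.S.filter (fun r => C.NearI I q r), wt C.ψ q * wt C.ψ r ≤
        B * (bandZ (I / 32) : ℝ) * H1 ^ (1 / 3 : ℝ) := by
  obtain ⟨C0, hC0, hcell⟩ := exists_cellPairs_le (1 / 100) (by norm_num) le_rfl
  refine ⟨4 * C0, by positivity, fun ξ K C hok I A P H1 hIA hH10 hH1 hsum => ?_⟩
  set x : ℝ := (bandZ (I / 32) : ℝ) with hx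
  have hx1 : 1 ≤ x := one_le_bandZ' _
  set Y := C.par.thr A with hY
  set W : ℕ → ℝ := wt C.ψ with hW
  have hψ := hok.psi_nonneg
  have hW0 : ∀ q, 0 ≤ W q := BilinearAux.wt_nonneg hψ
  have hmono : C.par.thr (I / 32) ≤ Y := C.par.thr_mono hIA
  have hone : ∀ v₀ ∈ C.S, ∑ q ∈ (kCell C.k C.S Y v₀).filter P,
      ∑ r ∈ C.S.filter (fun r => C.NearI I q r), W q * W r ≤
      C0 * x * H1 ^ (1 / 3 : ℝ) * mass C.ψ (kCell C.k C.S Y v₀) ^ (1 + 1 / 100 : ℝ) := by
    intro v₀ hv₀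
    have h := hcell C.k C.S C.ψ Y v₀ x (((kCell C.k C.S Y v₀).filter P).image (C.def' A)) H1
      hok.pos hψ hv₀ (by linarith) hH1 hH10
      ((Finset.sum_le_sum_of_subset_of_nonneg (Finset.filter_subset _ _) fun b _ _ =>
        div_nonneg (Nat.cast_nonneg _) (Nat.cast_nonneg _)).trans (hsum v₀ hv₀))
    refine le_trans ?_ (h.trans ?_)
    · refine le_trans (Finset.sum_le_sum fun q hq => ?_)
        (Finset.sum_le_sum_of_subset_of_nonneg (fun q hq => Finset.mem_filter.2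
          ⟨(Finset.mem_filter.1 hq).1, Finset.mem_image_of_mem (C.def' A) hq⟩) fun q _ _ =>
          Finset.sum_nonneg fun r _ => mul_nonneg (hW0 q) (hW0 r))
      refine Finset.sum_le_sum_of_subset_of_nonneg (fun r hr => ?_) fun r _ _ =>
        mul_nonneg (hW0 q) (hW0 r)
      obtain ⟨hrS, -, hd, hs⟩ := Finset.mem_filter.1 hr
      have hq' := (Finset.mem_filter.1 hq).1
      have hs' : SameCell C.k Y q r := fun p hp hlt => hs p hp (hmono.trans_lt hlt)
      refine Finset.mem_filter.2 ⟨?_, hd, hs'⟩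
      rw [← kCell_eq_of_mem C.k C.S Y hq']
      exact Finset.mem_filter.2 ⟨hrS, fun p hp hlt => (hs' p hp hlt).1⟩
    · refine mul_le_mul_of_nonneg_right (mul_le_mul_of_nonneg_right (mul_le_mul_of_nonneg_left ?_
        hC0.le) (Real.rpow_nonneg hH10 _)) (Real.rpow_nonneg (BilinearAux.mass_nonneg hψ _) _)
      exact (Real.rpow_le_rpow_of_exponent_le hx1 (by norm_num)).trans_eq (Real.rpow_one x)
  have hsplit : ∑ q ∈ C.S.filter P, ∑ r ∈ C.S.filter (fun r => C.NearI I q r), W q * W r =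
      ∑ Cl ∈ C.S.image (kCell C.k C.S Y), ∑ q ∈ Cl.filter P,
        ∑ r ∈ C.S.filter (fun r => C.NearI I q r), W q * W r := by
    rw [Finset.sum_filter, sum_kCells C.k C.S Y]
    exact Finset.sum_congr rfl fun Cl _ => (Finset.sum_filter _ _).symm
  rw [hsplit]
  have hm0 := BilinearAux.mass_nonneg hψ C.S
  calc ∑ Cl ∈ C.S.image (kCell C.k C.S Y), ∑ q ∈ Cl.filter P,
        ∑ r ∈ C.S.filter (fun r => C.NearI I q r), W q * W r
      ≤ ∑ Cl ∈ C.S.image (kCell C.k C.S Y),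
          C0 * x * H1 ^ (1 / 3 : ℝ) * (2 * mass C.ψ Cl) := by
        refine Finset.sum_le_sum fun Cl hCl => ?_
        obtain ⟨v₀, hv₀, rfl⟩ := Finset.mem_image.1 hCl
        refine (hone v₀ hv₀).trans (mul_le_mul_of_nonneg_left ?_ (by positivity))
        have h0 := BilinearAux.mass_nonneg hψ (kCell C.k C.S Y v₀)
        rw [Real.rpow_one_add' h0 (by norm_num), mul_comm]
        refine mul_le_mul_of_nonneg_right ?_ h0
        have h2 : mass C.ψ (kCell C.k C.S Y v₀) ≤ 2 :=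
          (BilinearAux.mass_mono hψ (Finset.filter_subset _ _)).trans hok.mass_le
        exact (Real.rpow_le_rpow h0 h2 (by norm_num)).trans
          ((Real.rpow_le_rpow_of_exponent_le one_le_two (by norm_num)).trans_eq (Real.rpow_one 2))
    _ = C0 * x * H1 ^ (1 / 3 : ℝ) * (2 * mass C.ψ C.S) := by
        rw [← Finset.mul_sum, ← Finset.mul_sum]
        exact congrArg (fun t => C0 * x * H1 ^ (1 / 3 : ℝ) * (2 * t))
          (sum_kCells C.k C.S Y W).symm
    _ ≤ C0 * x * H1 ^ (1 / 3 : ℝ) * (2 * 2) := by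
        refine mul_le_mul_of_nonneg_left ?_ (by positivity)
        linarith [hok.mass_le]
    _ = 4 * C0 * x * H1 ^ (1 / 3 : ℝ) := by ring

open Classical in
/-- Split by the band at which the event is witnessed. -/
theorem sum_event_le (S : Finset ℕ) (a : ℕ → ℕ → Prop) (E : ℕ → ℕ → Prop) (N : ℕ → ℕ → Prop)
    (W : ℕ → ℝ) (hW : ∀ q, 0 ≤ W q) (g : ℕ → ℝ)
    (hE : ∀ q r, E q r → ∃ A, a A q)
    (hg : ∀ A, (∃ q ∈ S, a A q) →
      ∑ q ∈ S.filter (a A), ∑ r ∈ S.filter (fun r => N q r), W q * W r ≤ g A)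
    (G : ℝ) (hG : ∀ A q, q ∈ S → a A q → g A ≤ G * (1 / 2 : ℝ) ^ A) (hG0 : 0 ≤ G) :
    ∑ q ∈ S, ∑ r ∈ S.filter (fun r => N q r ∧ E q r), W q * W r ≤ G * 2 := by
  set P : ℕ → Prop := fun q => ∃ A, a A q with hP
  set pick : ℕ → ℕ := fun q => if h : P q then h.choose else 0 with hpick
  have hpick' : ∀ q, P q → a (pick q) q := fun q h => by
    simp only [hpick, dif_pos h]; exact h.choose_spec
  set T := (S.filter P).image pick with hT
  set inner : ℕ → ℝ := fun q => ∑ r ∈ S.filter (fun r => N q r), W q * W r with hinner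
  have hin0 : ∀ q, 0 ≤ inner q := fun q => Finset.sum_nonneg fun r _ => mul_nonneg (hW q) (hW r)
  have h1 : ∑ q ∈ S, ∑ r ∈ S.filter (fun r => N q r ∧ E q r), W q * W r ≤
      ∑ q ∈ S.filter P, inner q := by
    rw [Finset.sum_filter (s := S) P]
    refine Finset.sum_le_sum fun q _ => ?_
    by_cases h : P q
    · rw [if_pos h]
      exact Finset.sum_le_sum_of_subset_of_nonneg
        (Finset.monotone_filter_right _ fun r _ hr => hr.1) fun r _ _ => mul_nonneg (hW q) (hW r)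
    · rw [if_neg h]
      refine le_of_eq (Finset.sum_eq_zero fun r hr => ?_)
      exact absurd (hE q r (Finset.mem_filter.1 hr).2.2) h
  refine h1.trans ?_
  rw [← Finset.sum_fiberwise_of_maps_to (g := pick) (t := T)
    (fun q hq => Finset.mem_image_of_mem _ hq)]
  refine le_trans (Finset.sum_le_sum (g := fun A => G * (1 / 2 : ℝ) ^ A) fun A hA => ?_) ?_
  · obtain ⟨q, hq, rfl⟩ := Finset.mem_image.1 hA
    obtain ⟨hqS, hqP⟩ := Finset.mem_filter.1 hq
    have ha := hpick' q hqP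
    refine le_trans ?_ ((hg _ ⟨q, hqS, ha⟩).trans (hG _ q hqS ha))
    refine Finset.sum_le_sum_of_subset_of_nonneg (fun v hv => ?_) fun v _ _ => hin0 v
    obtain ⟨hv', he⟩ := Finset.mem_filter.1 hv
    obtain ⟨hvS, hvP⟩ := Finset.mem_filter.1 hv'
    exact Finset.mem_filter.2 ⟨hvS, he ▸ hpick' v hvP⟩
  · rw [← Finset.mul_sum]
    exact mul_le_mul_of_nonneg_left (sum_half_pow_le T) hG0

theorem half_pow_eq (A : ℕ) : (1 / 2 : ℝ) ^ A = (2 : ℝ) ^ (-(A : ℝ)) := by
  rw [Real.rpow_neg zero_le_two, Real.rpow_natCast, one_div, inv_pow]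

/-- A deficiency with one more prime. -/
theorem defProb_mul_prime_le {K l b : ℕ} (hl : l.Prime) (h : l * b ∣ K) (hK : 0 < K) :
    defProb K (l * b) ≤ 2 / (l : ℝ) * defProb K b := by
  obtain ⟨n, rfl⟩ := h
  have hb : 0 < b := Nat.pos_of_ne_zero (by rintro rfl; simp at hK)
  have e1 : l * b * n / (l * b) = n := Nat.mul_div_cancel_left _ (Nat.mul_pos hl.pos hb)
  have e2 : l * b * n / b = l * n := by
    rw [show l * b * n = b * (l * n) by ring, Nat.mul_div_cancel_left _ hb]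
  rw [defProb, defProb, e1, e2]
  have h1 : l.totient * n.totient ≤ (l * n).totient := Nat.totient_super_multiplicative l n
  rw [Nat.totient_prime hl] at h1
  have h2 : (l : ℝ) * n.totient ≤ 2 * ((l * n).totient : ℝ) := by
    have h3 : l * n.totient ≤ 2 * (l * n).totient := by
      refine le_trans ?_ (Nat.mul_le_mul_left 2 h1)
      rw [← mul_assoc]
      exact Nat.mul_le_mul_right _ (by have := hl.two_le; omega)
    exact_mod_cast h3
  have hl0 : (0 : ℝ) < l := by exact_mod_cast hl.pos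
  rw [div_mul_div_comm, div_le_div_iff₀ (by positivity) (by positivity)]
  nlinarith [mul_le_mul_of_nonneg_right h2 (by positivity : (0 : ℝ) ≤ (l * b * n : ℕ))]

/-- The deficiencies which are multiples of `m`. -/
theorem sum_defProb_dvd_le {K m : ℕ} (hK : 0 < K) :
    ∑ b ∈ K.divisors.filter (fun b => m ∣ b), defProb K b ≤ 1 / (m : ℝ) := by
  by_cases hm : m ∣ K
  swap
  · refine le_of_eq_of_le (Finset.sum_eq_zero fun b hb => ?_) (by positivity)
    obtain ⟨hb, hmb⟩ := Finset.mem_filter.1 hb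
    exact absurd (hmb.trans (Nat.dvd_of_mem_divisors hb)) hm
  obtain ⟨n, rfl⟩ := hm
  have hm0 : 0 < m := Nat.pos_of_mul_pos_right hK
  have hn0 : 0 < n := Nat.pos_of_mul_pos_left hK
  have he : (m * n).divisors.filter (fun b => m ∣ b) = n.divisors.image (fun e => m * e) := by
    ext b
    simp only [Finset.mem_filter, Nat.mem_divisors, Finset.mem_image]
    constructor
    · rintro ⟨⟨h, -⟩, e, rfl⟩
      exact ⟨e, ⟨Nat.dvd_of_mul_dvd_mul_left hm0 h, hn0.ne'⟩, rfl⟩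
    · rintro ⟨e, ⟨he, -⟩, rfl⟩
      exact ⟨⟨mul_dvd_mul_left m he, (Nat.mul_pos hm0 hn0).ne'⟩, dvd_mul_right _ _⟩
  rw [he, Finset.sum_image (fun a _ b _ h => Nat.eq_of_mul_eq_mul_left hm0 h)]
  have h1 : ∀ e ∈ n.divisors, defProb (m * n) (m * e) = 1 / (m : ℝ) * defProb n e := fun e _ => by
    rw [defProb, defProb, Nat.mul_div_mul_left _ _ hm0, Nat.cast_mul, div_mul_div_comm, one_mul]
  rw [Finset.sum_congr rfl h1, ← Finset.mul_sum]
  exact mul_le_of_le_one_right (by positivity) (sum_defProb_le hn0 _ subset_rfl)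

theorem sum_inv_sq_le (T : Finset ℕ) {Y : ℕ} (hY : 0 < Y) (hT : ∀ l ∈ T, Y < l) :
    ∑ l ∈ T, 1 / ((l ^ 2 : ℕ) : ℝ) ≤ 1 / (Y : ℝ) := by
  have h := sum_Ioc_inv_sq_le_sub (α := ℝ) hY.ne' (le_max_left Y (T.sup id))
  have h0 : (0 : ℝ) ≤ ((max Y (T.sup id) : ℕ) : ℝ)⁻¹ := by positivity
  refine le_trans ?_ (le_trans (h.trans (sub_le_self _ h0)) (one_div _).ge)
  refine le_of_eq_of_le (Finset.sum_congr rfl fun l _ => by push_cast; rw [one_div]) ?_
  exact Finset.sum_le_sum_of_subset_of_nonneg (fun l hl => Finset.mem_Ioc.2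
    ⟨hT l hl, (Finset.le_sup (f := id) hl).trans (le_max_right _ _)⟩) fun _ _ _ => by positivity

open Classical in
/-- Primes `l` of one dyadic block at which a shift `l β` is near a rational `u / P`, `l ∤ u`. -/
theorem card_near_le (T : Finset ℕ) (s : ℕ) (β R E : ℝ) (hR : 1 ≤ R) (hE : 1 ≤ E)
    (hT : ∀ l ∈ T, l.Prime ∧ 2 ^ s ≤ l ∧ l < 2 ^ (s + 1) ∧
      ∃ (P : ℕ) (u : ℤ), 0 < P ∧ (P : ℝ) ≤ R ∧ ¬ (l : ℤ) ∣ u ∧
        |(P : ℝ) * (β * l) - u| ≤ E / Real.sqrt l) :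
    (T.card : ℝ) ≤ 9 * R * E * Real.sqrt (2 ^ s : ℕ) := by
  choose! hlp hlo hhi P u hP hPR hu herr using hT
  set L : ℝ := ((2 ^ s : ℕ) : ℝ) with hL
  have hL1 : 1 ≤ L := by rw [hL]; exact_mod_cast Nat.one_le_two_pow
  have hsL : 1 ≤ Real.sqrt L := by rw [Real.one_le_sqrt]; exact hL1
  have hfib : ∀ p ∈ T.image P, ((T.filter (fun l => P l = p)).card : ℝ) ≤ 9 * E * Real.sqrt L := by
    intro p hp
    obtain ⟨l0, hl0, rfl⟩ := Finset.mem_image.1 hp
    have hp0 : (0 : ℝ) < (P l0 : ℕ) := by exact_mod_cast hP l0 hl0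
    set p : ℝ := ((P l0 : ℕ) : ℝ) with hpd
    set ε : ℝ := E / (p * L * Real.sqrt L) with hε
    have h := card_le_of_separated (T.filter (fun l => P l = P l0))
      (fun l => (u l : ℝ) / (p * l)) (a := β - ε) (b := β + ε) (g := 1 / (4 * p * L ^ 2))
      (by positivity) (by have : 0 ≤ ε := by positivity
                          linarith) (fun l hl => ?_) (fun l hl l' hl' hne => ?_)
    · refine h.trans ?_
      have e : (β + ε - (β - ε)) / (1 / (4 * p * L ^ 2)) = 8 * E * Real.sqrt L := by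
        rw [hε]
        field_simp
        rw [Real.sq_sqrt (by linarith : 0 ≤ L)]
        ring
      rw [e]
      nlinarith
    · obtain ⟨hlT, he⟩ := Finset.mem_filter.1 hl
      have h1 : L ≤ (l : ℝ) := by rw [hL]; exact_mod_cast hlo l hlT
      have hl0' : (0 : ℝ) < l := lt_of_lt_of_le (by linarith) h1
      have h2 := herr l hlT
      rw [he, ← hpd] at h2
      have h3 : |(u l : ℝ) / (p * l) - β| ≤ ε := by
        rw [show (u l : ℝ) / (p * l) - β = -((p * (β * l) - u l) / (p * l)) by field_simp; ring,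
          abs_neg, abs_div, abs_of_pos (mul_pos hp0 hl0'), hε]
        calc |p * (β * l) - u l| / (p * l) ≤ E / Real.sqrt l / (p * l) := by gcongr
          _ ≤ E / Real.sqrt L / (p * L) := by gcongr
          _ = _ := by rw [div_div]; ring_nf
      constructor <;> linarith [abs_le.1 h3]
    · obtain ⟨hlT, -⟩ := Finset.mem_filter.1 hl
      obtain ⟨hlT', -⟩ := Finset.mem_filter.1 hl'
      have hne0 : u l * (l' : ℤ) - u l' * (l : ℤ) ≠ 0 := by
        intro h0
        have hd : (l : ℤ) ∣ u l * l' := ⟨u l', by linarith⟩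
        rcases (Nat.prime_iff_prime_int.1 (hlp l hlT)).dvd_mul.1 hd with h5 | h5
        · exact hu l hlT h5
        · exact hne ((Nat.prime_dvd_prime_iff_eq (hlp l hlT) (hlp l' hlT')).1
            (Int.natCast_dvd_natCast.1 h5))
      have h1 : (1 : ℝ) ≤ |(u l : ℝ) * l' - (u l' : ℝ) * l| := by
        exact_mod_cast Int.one_le_abs hne0
      have hl2 : (l : ℝ) ≤ 2 * L := by
        have := (hhi l hlT).le
        rw [pow_succ'] at this
        rw [hL]; exact_mod_cast this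
      have hl2' : (l' : ℝ) ≤ 2 * L := by
        have := (hhi l' hlT').le
        rw [pow_succ'] at this
        rw [hL]; exact_mod_cast this
      have hla : (0 : ℝ) < l := by exact_mod_cast (hlp l hlT).pos
      have hlb : (0 : ℝ) < l' := by exact_mod_cast (hlp l' hlT').pos
      rw [show (u l : ℝ) / (p * l) - (u l' : ℝ) / (p * l') =
        ((u l : ℝ) * l' - (u l' : ℝ) * l) / (p * l * l') by field_simp, abs_div,
        abs_of_pos (by positivity : 0 < p * l * l')]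
      refine div_le_div₀ (abs_nonneg _) h1 (by positivity) ?_
      nlinarith [mul_le_mul hl2 hl2' hlb.le (by positivity), mul_pos hla hlb]
  have hcard : ((T.image P).card : ℝ) ≤ R := by
    refine le_trans ?_ (Nat.floor_le (by linarith : 0 ≤ R))
    refine Nat.cast_le.2 ((Finset.card_le_card fun p hp => ?_).trans
      (Nat.card_Icc 1 ⌊R⌋₊).le)
    obtain ⟨l, hl, rfl⟩ := Finset.mem_image.1 hp
    exact Finset.mem_Icc.2 ⟨hP l hl, Nat.le_floor (hPR l hl)⟩
  rw [Finset.card_eq_sum_card_image P T, Nat.cast_sum]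
  refine (Finset.sum_le_sum hfib).trans ?_
  rw [Finset.sum_const, nsmul_eq_mul]
  calc ((T.image P).card : ℝ) * (9 * E * Real.sqrt L) ≤ R * (9 * E * Real.sqrt L) :=
        mul_le_mul_of_nonneg_right hcard (by positivity)
    _ = _ := by ring

/-- `∑ 1 / l` over those primes above `Y`. -/
theorem sum_near_le (T : Finset ℕ) (Y : ℕ) (hY : 0 < Y) (β R E : ℝ) (hR : 1 ≤ R) (hE : 1 ≤ E)
    (hT : ∀ l ∈ T, l.Prime ∧ Y < l ∧
      ∃ (P : ℕ) (u : ℤ), 0 < P ∧ (P : ℝ) ≤ R ∧ ¬ (l : ℤ) ∣ u ∧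
        |(P : ℝ) * (β * l) - u| ≤ E / Real.sqrt l) :
    ∑ l ∈ T, 1 / (l : ℝ) ≤ 180 * R * E * (Y : ℝ) ^ (-(1 / 4 : ℝ)) := by
  classical
  set ρ : ℝ := (2 : ℝ) ^ (-(1 / 4 : ℝ)) with hρ
  have hρ0 : 0 ≤ ρ := by positivity
  have hρ1 : ρ ≤ 9 / 10 := by
    have h4 : ρ ^ 4 = 1 / 2 := by
      rw [hρ, ← Real.rpow_natCast (((2 : ℝ) ^ (-(1 / 4 : ℝ)))) 4, ← Real.rpow_mul zero_le_two]
      norm_num [Real.rpow_neg_one]
    by_contra hc
    push_neg at hc
    have := pow_lt_pow_left₀ hc (by norm_num) (four_ne_zero (α := ℕ))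
    rw [h4] at this
    norm_num at this
  have hY0 : (0 : ℝ) < Y := by exact_mod_cast hY
  rw [← Finset.sum_fiberwise_of_maps_to (g := fun l => Nat.log 2 l) (t := T.image (Nat.log 2))
    (fun l hl => Finset.mem_image_of_mem _ hl)]
  have hblock : ∀ s ∈ T.image (Nat.log 2), ∑ l ∈ T.filter (fun l => Nat.log 2 l = s), 1 / (l : ℝ) ≤
      18 * R * E * (Y : ℝ) ^ (-(1 / 4 : ℝ)) * ρ ^ s := by
    intro s hs
    obtain ⟨l0, hl0, rfl⟩ := Finset.mem_image.1 hs
    set s := Nat.log 2 l0 with hsd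
    set L : ℝ := ((2 ^ s : ℕ) : ℝ) with hL
    have hL0 : 0 < L := by positivity
    have hmem : ∀ l ∈ T.filter (fun l => Nat.log 2 l = s),
        2 ^ s ≤ l ∧ l < 2 ^ (s + 1) := fun l hl => by
      obtain ⟨hlT, he⟩ := Finset.mem_filter.1 hl
      rw [← he]
      exact ⟨Nat.pow_log_le_self 2 (hT l hlT).1.ne_zero, Nat.lt_pow_succ_log_self one_lt_two l⟩
    have hc := card_near_le (T.filter (fun l => Nat.log 2 l = s)) s β R E hR hE fun l hl =>
      ⟨(hT l (Finset.mem_filter.1 hl).1).1, (hmem l hl).1, (hmem l hl).2,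
        (hT l (Finset.mem_filter.1 hl).1).2.2⟩
    rw [← hL] at hc
    refine (Finset.sum_le_sum (g := fun _ => 1 / L) fun l hl => ?_).trans ?_
    · refine one_div_le_one_div_of_le hL0 ?_
      rw [hL]; exact_mod_cast (hmem l hl).1
    rw [Finset.sum_const, nsmul_eq_mul]
    refine (mul_le_mul_of_nonneg_right hc (by positivity)).trans ?_
    have hLY : (Y : ℝ) ≤ 2 * L := by
      have h1 : l0 < 2 ^ (s + 1) := Nat.lt_pow_succ_log_self one_lt_two l0
      have h2 := ((hT l0 hl0).2.1.trans h1).le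
      rw [pow_succ'] at h2
      rw [hL]; exact_mod_cast h2
    have e1 : Real.sqrt L * (1 / L) = L ^ (-(1 / 4 : ℝ)) * L ^ (-(1 / 4 : ℝ)) := by
      rw [← Real.rpow_add hL0, Real.sqrt_eq_rpow, one_div L, ← Real.rpow_neg_one L,
        ← Real.rpow_add hL0]
      norm_num
    have e2 : L ^ (-(1 / 4 : ℝ)) = ρ ^ s := by
      rw [hρ, hL, Nat.cast_pow, ← Real.rpow_natCast, ← Real.rpow_natCast, ← Real.rpow_mul
        (by norm_num), ← Real.rpow_mul zero_le_two]
      norm_num [mul_comm]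
    have e3 : L ^ (-(1 / 4 : ℝ)) ≤ 2 * (Y : ℝ) ^ (-(1 / 4 : ℝ)) := by
      calc L ^ (-(1 / 4 : ℝ)) ≤ ((Y : ℝ) / 2) ^ (-(1 / 4 : ℝ)) :=
            Real.rpow_le_rpow_of_nonpos (by positivity) (by linarith) (by norm_num)
        _ = (2 : ℝ) ^ (1 / 4 : ℝ) * (Y : ℝ) ^ (-(1 / 4 : ℝ)) := by
            rw [Real.div_rpow hY0.le zero_le_two, Real.rpow_neg zero_le_two, div_inv_eq_mul,
              mul_comm]
        _ ≤ _ := mul_le_mul_of_nonneg_right
            ((Real.rpow_le_rpow_of_exponent_le one_le_two (by norm_num)).trans_eq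
              (Real.rpow_one 2)) (by positivity)
    calc 9 * R * E * Real.sqrt L * (1 / L)
        = 9 * R * E * (L ^ (-(1 / 4 : ℝ)) * ρ ^ s) := by rw [mul_assoc _ (Real.sqrt L), e1, e2]
      _ ≤ 9 * R * E * (2 * (Y : ℝ) ^ (-(1 / 4 : ℝ)) * ρ ^ s) := by gcongr
      _ = _ := by ring
  refine (Finset.sum_le_sum hblock).trans ?_
  rw [← Finset.mul_sum]
  have hgeo : ∀ n : ℕ, ∑ s ∈ Finset.range n, ρ ^ s ≤ 10 := fun n => by
    rw [geom_sum_eq (by linarith) n, div_le_iff_of_neg (by linarith)]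
    nlinarith [pow_nonneg hρ0 n]
  refine (mul_le_mul_of_nonneg_left ((Finset.sum_le_sum_of_subset_of_nonneg (fun s hs =>
      Finset.mem_range.2 (Nat.lt_succ_of_le (Finset.le_sup (f := id) hs))) fun _ _ _ =>
      by positivity).trans (hgeo ((T.image (Nat.log 2)).sup id + 1))) (by positivity)).trans ?_
  exact le_of_eq (by ring)

open Classical in
/-- Bad deficiencies above `Y` are improbable. -/
theorem sum_bad_le {K Y : ℕ} (hK : 0 < K) (hY : 0 < Y) (γ R E : ℝ) (hR : 1 ≤ R) (hE : 1 ≤ E) :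
    ∑ b ∈ K.divisors.filter (fun b => ∃ l : ℕ, l.Prime ∧ Y < l ∧ l ∣ b ∧
        (l ^ 2 ∣ b ∨ ∃ (P : ℕ) (u : ℤ), 0 < P ∧ (P : ℝ) ≤ R ∧ ¬ (l : ℤ) ∣ u ∧
          |(P : ℝ) * (γ * b) - u| ≤ E / Real.sqrt l)),
      defProb K b ≤ 361 * R * E * (Y : ℝ) ^ (-(1 / 4 : ℝ)) := by
  set T := K.primeFactors.filter (fun l => Y < l) with hT
  set cnd : ℕ → ℕ → Prop := fun l b => ∃ (P : ℕ) (u : ℤ), 0 < P ∧ (P : ℝ) ≤ R ∧ ¬ (l : ℤ) ∣ u ∧
    |(P : ℝ) * (γ * b) - u| ≤ E / Real.sqrt l with hcnd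
  have hp0 : ∀ b, 0 ≤ defProb K b := fun b => div_nonneg (Nat.cast_nonneg _) (Nat.cast_nonneg _)
  -- split by the prime
  have hpt : ∀ b ∈ K.divisors.filter (fun b => ∃ l : ℕ, l.Prime ∧ Y < l ∧ l ∣ b ∧
      (l ^ 2 ∣ b ∨ cnd l b)), defProb K b ≤
        (∑ l ∈ T, if l ^ 2 ∣ b then defProb K b else 0) +
        ∑ l ∈ T, if l ∣ b ∧ cnd l b then defProb K b else 0 := by
    intro b hb
    obtain ⟨hbd, l, hl, hYl, hlb, h⟩ := Finset.mem_filter.1 hb
    have hlT : l ∈ T := Finset.mem_filter.2 ⟨Nat.mem_primeFactors.2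
      ⟨hl, hlb.trans (Nat.dvd_of_mem_divisors hbd), hK.ne'⟩, hYl⟩
    have n1 : 0 ≤ ∑ l ∈ T, if l ^ 2 ∣ b then defProb K b else 0 :=
      Finset.sum_nonneg fun l _ => by split_ifs <;> simp [hp0]
    have n2 : 0 ≤ ∑ l ∈ T, if l ∣ b ∧ cnd l b then defProb K b else 0 :=
      Finset.sum_nonneg fun l _ => by split_ifs <;> simp [hp0]
    rcases h with h | h
    · have := Finset.single_le_sum (f := fun l => if l ^ 2 ∣ b then defProb K b else 0)
        (fun l _ => by split_ifs <;> simp [hp0]) hlT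
      simp only [if_pos h] at this
      linarith
    · have := Finset.single_le_sum (f := fun l => if l ∣ b ∧ cnd l b then defProb K b else 0)
        (fun l _ => by split_ifs <;> simp [hp0]) hlT
      simp only [if_pos (And.intro hlb h)] at this
      linarith
  refine (Finset.sum_le_sum hpt).trans ?_
  refine (Finset.sum_le_sum_of_subset_of_nonneg (Finset.filter_subset _ _) fun b _ _ =>
    add_nonneg (Finset.sum_nonneg fun l _ => by split_ifs <;> simp [hp0])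
      (Finset.sum_nonneg fun l _ => by split_ifs <;> simp [hp0])).trans ?_
  rw [Finset.sum_add_distrib, Finset.sum_comm, Finset.sum_comm (s := K.divisors)]
  have hY0 : (0 : ℝ) < Y := by exact_mod_cast hY
  have h1 : ∑ l ∈ T, ∑ b ∈ K.divisors, (if l ^ 2 ∣ b then defProb K b else 0) ≤
      (Y : ℝ) ^ (-(1 / 4 : ℝ)) := by
    refine (Finset.sum_le_sum (g := fun l => 1 / ((l ^ 2 : ℕ) : ℝ)) fun l _ => ?_).trans
      ((sum_inv_sq_le T hY fun l hl => (Finset.mem_filter.1 hl).2).trans ?_)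
    · rw [← Finset.sum_filter]
      exact sum_defProb_dvd_le hK
    · rw [one_div, ← Real.rpow_neg_one]
      exact Real.rpow_le_rpow_of_exponent_le (by exact_mod_cast hY) (by norm_num)
  have h2 : ∑ l ∈ T, ∑ b ∈ K.divisors, (if l ∣ b ∧ cnd l b then defProb K b else 0) ≤
      360 * R * E * (Y : ℝ) ^ (-(1 / 4 : ℝ)) := by
    calc ∑ l ∈ T, ∑ b ∈ K.divisors, (if l ∣ b ∧ cnd l b then defProb K b else 0)
        ≤ ∑ l ∈ T, ∑ e ∈ K.divisors, (if cnd l (l * e) then 2 / (l : ℝ) * defProb K e else 0) := by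
          refine Finset.sum_le_sum fun l hl => ?_
          obtain ⟨hlp, hlK, -⟩ := Nat.mem_primeFactors.1 (Finset.mem_filter.1 hl).1
          rw [← Finset.sum_filter, ← Finset.sum_filter]
          set E' := K.divisors.filter (fun b => l ∣ b ∧ cnd l b) with hE'
          refine (Finset.sum_le_sum (g := fun b => 2 / (l : ℝ) * defProb K (b / l))
            fun b hb => ?_).trans ?_
          · obtain ⟨hbd, hlb, -⟩ := Finset.mem_filter.1 hb
            have e := Nat.mul_div_cancel' hlb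
            have := defProb_mul_prime_le hlp (b := b / l)
              (by rw [e]; exact Nat.dvd_of_mem_divisors hbd) hK
            rwa [e] at this
          rw [← Finset.sum_image (f := fun e => 2 / (l : ℝ) * defProb K e) (g := fun b => b / l)
            fun a ha b hb h => by
              obtain ⟨-, hla, -⟩ := Finset.mem_filter.1 ha
              obtain ⟨-, hlb, -⟩ := Finset.mem_filter.1 hb
              rw [← Nat.mul_div_cancel' hla, ← Nat.mul_div_cancel' hlb]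
              exact congrArg (l * ·) h]
          refine Finset.sum_le_sum_of_subset_of_nonneg (fun e he => ?_) fun e _ _ =>
            mul_nonneg (by positivity) (hp0 e)
          obtain ⟨b, hb, rfl⟩ := Finset.mem_image.1 he
          obtain ⟨hbd, hlb, hc⟩ := Finset.mem_filter.1 hb
          refine Finset.mem_filter.2 ⟨Nat.mem_divisors.2
            ⟨(Nat.div_dvd_of_dvd hlb).trans (Nat.dvd_of_mem_divisors hbd), hK.ne'⟩, ?_⟩
          rwa [Nat.mul_div_cancel' hlb]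
      _ = ∑ e ∈ K.divisors, defProb K e * (2 * ∑ l ∈ T.filter (fun l => cnd l (l * e)),
            1 / (l : ℝ)) := by
          rw [Finset.sum_comm]
          refine Finset.sum_congr rfl fun e _ => ?_
          rw [Finset.sum_filter (s := T), Finset.mul_sum, Finset.mul_sum]
          refine Finset.sum_congr rfl fun l _ => ?_
          split_ifs <;> ring
      _ ≤ ∑ e ∈ K.divisors, defProb K e * (360 * R * E * (Y : ℝ) ^ (-(1 / 4 : ℝ))) := by
          refine Finset.sum_le_sum fun e _ => mul_le_mul_of_nonneg_left ?_ (hp0 e)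
          refine (mul_le_mul_of_nonneg_left (sum_near_le (T.filter (fun l => cnd l (l * e))) Y hY
            (γ * e) R E hR hE fun l hl => ?_) zero_le_two).trans (le_of_eq (by ring))
          obtain ⟨hlT, P, u, hP, hPR, hu, herr⟩ := Finset.mem_filter.1 hl
          obtain ⟨hl', hYl⟩ := Finset.mem_filter.1 hlT
          refine ⟨(Nat.mem_primeFactors.1 hl').1, hYl, P, u, hP, hPR, hu, ?_⟩
          rwa [show γ * e * l = γ * ((l * e : ℕ) : ℝ) by push_cast; ring]
      _ ≤ _ := by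
          rw [← Finset.sum_mul]
          exact mul_le_of_le_one_left (by positivity) (sum_defProb_le hK _ subset_rfl)
  have h3 : (Y : ℝ) ^ (-(1 / 4 : ℝ)) ≤ R * E * (Y : ℝ) ^ (-(1 / 4 : ℝ)) :=
    le_mul_of_one_le_left (by positivity) (one_le_mul_of_one_le_of_one_le hR hE)
  linarith

end EventsSmall

open EventsSmall

open Classical in
/-- Slack gains: scale the radius. -/
theorem eventSmall_slack (M : ℕ) (hM : 4 ≤ M) (c : ℝ) (hc : 0 < c) :
    EventSmall M c (fun C I _ q r => C.SlackSide I q r) := by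
  obtain ⟨C0, hbil⟩ := exists_bilinear_le (1 / 100) (by norm_num) le_rfl
  refine ⟨1, 16 * |C0|, 0, one_pos, fun ξ K C _ hok I _ _ => ?_⟩
  set Q := qI I with hQ
  set x : ℝ := (bandZ (I / 32) : ℝ) with hx
  set a : ℝ := x * Q ^ (10 : ℝ) with ha
  have hQ1 : 1 ≤ Q := one_le_qI I
  have hx1 : 1 ≤ x := one_le_bandZ' _
  have hxQ : x ≤ Q := Nat.cast_le.2 (Nat.pow_le_pow_right two_pos
    (Nat.pow_le_pow_right two_pos (by omega)))
  have hQ10 : 1 ≤ Q ^ (10 : ℝ) := Real.one_le_rpow hQ1 (by norm_num)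
  have ha1 : 1 ≤ a := one_le_mul_of_one_le_of_one_le hx1 hQ10
  have ha0 : 0 < a := by linarith
  have hψ := hok.psi_nonneg
  set f : ℕ → ℝ := fun v => a * C.ψ v with hf
  have hfw : ∀ v, wt f v = a * wt C.ψ v := fun v => by simp only [wt, hf]; ring
  obtain ⟨p, hp1, hp⟩ := Nat.exists_infinite_primes (C.S.sup id + 1)
  have hzero : ∀ v ∈ C.S, 0 < v ∧ v.factorization p = 0 := fun v hv => ⟨hok.pos v hv,
    Nat.factorization_eq_zero_of_not_dvd fun hd => by
      have := Nat.le_of_dvd (hok.pos v hv) hd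
      have h2 : v ≤ C.S.sup id := Finset.le_sup (f := id) hv
      omega⟩
  have h := hbil f C.ψ C.S C.S x p 0 0 (by linarith) hp hzero hzero
    (fun v => mul_nonneg ha0.le (hψ v)) hψ
  have hd0 : (p : ℝ) ^ (-(alphaX (1 / 100) * ((Nat.dist 0 0 : ℕ) : ℝ))) = 1 := by simp
  rw [hd0, mul_one] at h
  have hmass : mass f C.S = a * mass C.ψ C.S := by
    simp only [mass, hfw, Finset.mul_sum]
  rw [hmass] at h
  have h' : a * ∑ q ∈ C.S, ∑ r ∈ C.S.filter (fun r => C.NearI I q r ∧ C.SlackSide I q r),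
      wt C.ψ q * wt C.ψ r ≤ C0 * x ^ (1 - 1 / 100 : ℝ) *
        massFac (1 / 100) (a * mass C.ψ C.S) (mass C.ψ C.S) := by
    refine le_trans ?_ h
    rw [Finset.mul_sum]
    refine Finset.sum_le_sum fun q _ => ?_
    rw [Finset.mul_sum]
    refine le_trans (le_of_eq (Finset.sum_congr rfl fun r _ => by rw [hfw]; ring))
      (Finset.sum_le_sum_of_subset_of_nonneg (fun r hr => ?_) fun r _ _ =>
        mul_nonneg (BilinearAux.wt_nonneg (fun v => mul_nonneg ha0.le (hψ v)) q)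
          (BilinearAux.wt_nonneg hψ r))
    obtain ⟨hrS, ⟨-, hd, -⟩, hs⟩ := Finset.mem_filter.1 hr
    refine Finset.mem_filter.2 ⟨hrS, max_le ?_ ((le_max_right _ _).trans hd)⟩
    have hs' : C.ψ q * (qd r q : ℝ) ≤ Q ^ (-(10 : ℝ)) := hs
    simp only [hf]
    calc a * C.ψ q * (qd r q : ℝ) = a * (C.ψ q * (qd r q : ℝ)) := by ring
      _ ≤ a * Q ^ (-(10 : ℝ)) := mul_le_mul_of_nonneg_left hs' ha0.le
      _ = x := by
        rw [ha, mul_assoc, ← Real.rpow_add (by linarith : 0 < Q)]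
        norm_num
  set m := mass C.ψ C.S with hm
  have hm0 : 0 ≤ m := BilinearAux.mass_nonneg hψ _
  have hm2 : m ≤ 2 := hok.mass_le
  have hmf : massFac (1 / 100) (a * m) m ≤ 16 * a ^ (1 / 700 + thetaX (1 / 100) : ℝ) := by
    have e1 : (a * m + m) ^ ((1 / 100 : ℝ) / 7) ≤ 4 * a ^ (1 / 700 : ℝ) := by
      have h1 : a * m + m ≤ 4 * a := by nlinarith
      refine (Real.rpow_le_rpow (by positivity) h1 (by norm_num)).trans ?_
      rw [Real.mul_rpow (by norm_num) ha0.le, show (1 / 100 : ℝ) / 7 = 1 / 700 by norm_num]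
      exact mul_le_mul_of_nonneg_right ((Real.rpow_le_rpow_of_exponent_le (by norm_num)
        (by norm_num)).trans_eq (Real.rpow_one 4)) (by positivity)
    have e2 : (a * m * m) ^ thetaX (1 / 100) ≤ 4 * a ^ thetaX (1 / 100) := by
      have h1 : a * m * m ≤ 4 * a := by nlinarith [mul_le_mul hm2 hm2 hm0 zero_le_two]
      refine (Real.rpow_le_rpow (by positivity) h1 (by norm_num [thetaX])).trans ?_
      rw [Real.mul_rpow (by norm_num) ha0.le]
      exact mul_le_mul_of_nonneg_right ((Real.rpow_le_rpow_of_exponent_le (by norm_num)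
        (by norm_num [thetaX])).trans_eq (Real.rpow_one 4)) (by positivity)
    rw [massFac, Real.rpow_add ha0]
    refine (mul_le_mul e1 e2 (by positivity) (by positivity)).trans (le_of_eq ?_)
    ring
  rw [← le_div_iff₀' ha0] at h'
  refine h'.trans ?_
  rw [div_le_iff₀ ha0]
  have hx99 : x ^ (1 - 1 / 100 : ℝ) ≤ Q :=
    ((Real.rpow_le_rpow_of_exponent_le hx1 (by norm_num)).trans_eq (Real.rpow_one x)).trans hxQ
  set t : ℝ := 1 / 700 + thetaX (1 / 100) with ht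
  have hkey : Q * a ^ t ≤ Q ^ (-(1 : ℝ)) * a := by
    have ht0 : t ≤ 51 / 100 := by norm_num [ht, thetaX]
    have h1 : Q ^ (2 : ℝ) ≤ a ^ (1 - t) := by
      calc Q ^ (2 : ℝ) ≤ (Q ^ (10 : ℝ)) ^ (49 / 100 : ℝ) := by
            rw [← Real.rpow_mul (by linarith : 0 ≤ Q)]
            exact Real.rpow_le_rpow_of_exponent_le hQ1 (by norm_num)
        _ ≤ a ^ (49 / 100 : ℝ) :=
            Real.rpow_le_rpow (by positivity) (le_mul_of_one_le_left (by positivity) hx1)
              (by norm_num)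
        _ ≤ _ := Real.rpow_le_rpow_of_exponent_le ha1 (by linarith)
    have e : a ^ (1 - t) * a ^ t = a := by rw [← Real.rpow_add ha0]; simp
    calc Q * a ^ t = Q ^ (-(1 : ℝ)) * (Q ^ (2 : ℝ) * a ^ t) := by
          rw [← mul_assoc, ← Real.rpow_add (by linarith : 0 < Q)]
          norm_num
      _ ≤ Q ^ (-(1 : ℝ)) * (a ^ (1 - t) * a ^ t) := by gcongr
      _ = _ := by rw [e]
  calc C0 * x ^ (1 - 1 / 100 : ℝ) * massFac (1 / 100) (a * m) m
      ≤ |C0| * Q * (16 * a ^ t) :=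
        mul_le_mul (mul_le_mul (le_abs_self _) hx99 (by positivity) (abs_nonneg _)) hmf
          (mul_nonneg (Real.rpow_nonneg (by positivity) _) (Real.rpow_nonneg (by positivity) _))
          (by positivity)
    _ = 16 * |C0| * (Q * a ^ t) := by ring
    _ ≤ 16 * |C0| * (Q ^ (-(1 : ℝ)) * a) := by gcongr
    _ = _ := by ring

open Classical in
/-- A large smooth part gains. -/
theorem eventSmall_smooth (M : ℕ) (hM : 4 ≤ M) (c : ℝ) (hc : 0 < c) :
    EventSmall M c (fun C I _ q r => C.SmoothSide I q r) := by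
  obtain ⟨B, e, hB, he, hev⟩ := exists_smooth_event_le (1 / 100) (by norm_num) le_rfl
  set c0 : ℝ := min (evSlack (1 / 100)) (1 / (2 * (M : ℝ) + 5)) with hc0
  have hc0' : 0 < c0 := lt_min (by norm_num [evSlack]) (by positivity)
  obtain ⟨I1, hI1⟩ := exists_grow (c0 / 9) (3 + e * (2 * M + 6)) (by positivity)
  refine ⟨1, B * 16, I1 + 24, one_pos, fun ξ K C hpar hok I _ hI => ?_⟩
  have hψ := hok.psi_nonneg
  have hM' : C.par.M = M := by rw [hpar]
  set Y := C.par.thr (I / 3) with hY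
  set x : ℝ := (bandZ (I / 32) : ℝ) with hx
  set N : ℝ := (bandZ (I - 4) : ℝ) with hN
  have h := hev C.ψ C.ψ C.S C.S x N Y hok.pos hok.pos hψ hψ
    (lt_of_lt_of_le one_pos (one_le_bandZ' _)) (one_le_bandZ' _)
  refine le_trans (Finset.sum_le_sum fun q _ => Finset.sum_le_sum_of_subset_of_nonneg
    (fun r hr => ?_) fun r _ _ => mul_nonneg (BilinearAux.wt_nonneg hψ q)
      (BilinearAux.wt_nonneg hψ r)) (h.trans ?_)
  · obtain ⟨hrS, ⟨-, hd, -⟩, hs⟩ := Finset.mem_filter.1 hr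
    refine Finset.mem_filter.2 ⟨hrS, hd, Or.inl ?_⟩
    show ((bandZ (I - 4) : ℕ) : ℝ) < _
    exact_mod_cast hs
  -- the size of the threshold
  set i := I / 3 with hi
  have hL : smLog Y ≤ (2 * M + 5) * (2 : ℝ) ^ i := by
    rw [smLog, hY, Par.thr, hM']
    have h1 : (1 : ℝ) ≤ ((bandZ (i + 1) ^ M : ℕ) : ℝ) := by
      rw [Nat.cast_pow]; exact one_le_pow₀ (one_le_bandZ' _)
    have h2 : Real.log (((bandZ (i + 1) ^ M : ℕ) : ℝ) + 3) ≤
        Real.log 4 + Real.log ((bandZ (i + 1) ^ M : ℕ) : ℝ) := by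
      rw [← Real.log_mul (by norm_num) (by linarith)]
      exact Real.log_le_log (by linarith) (by linarith)
    rw [Nat.cast_pow, Real.log_pow] at h2
    rw [Nat.cast_pow]
    have h3 : Real.log (bandZ (i + 1) : ℝ) ≤ 2 * (2 : ℝ) ^ i := by
      rw [bandZ_real, Real.log_rpow two_pos, pow_succ']
      exact mul_le_of_le_one_right (by positivity) (Real.log_two_lt_d9.le.trans (by norm_num))
    have h4 : Real.log 4 ≤ 4 := by
      have := Real.log_le_sub_one_of_pos (show (0 : ℝ) < 4 by norm_num); linarith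
    have h5 : (1 : ℝ) ≤ (2 : ℝ) ^ i := one_le_pow₀ one_le_two
    nlinarith [mul_le_mul_of_nonneg_left h3 (Nat.cast_nonneg (α := ℝ) M)]
  have hL1 := one_le_smLog Y
  have hη : c0 / (2 : ℝ) ^ i ≤ smEta (1 / 100) Y := by
    rw [smEta]
    refine le_min ((div_le_self hc0'.le (one_le_pow₀ one_le_two)).trans (min_le_left _ _)) ?_
    calc c0 / (2 : ℝ) ^ i ≤ 1 / (2 * M + 5) / (2 : ℝ) ^ i :=
          div_le_div_of_nonneg_right (min_le_right _ _) (by positivity)
      _ = 1 / ((2 * M + 5) * (2 : ℝ) ^ i) := by rw [div_div]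
      _ ≤ _ := one_div_le_one_div_of_le (by linarith) hL
  -- powers of two
  have hLe : smLog Y ^ e ≤ (2 : ℝ) ^ (e * ((2 * M + 5) + (i : ℝ))) := by
    rw [mul_comm e, Real.rpow_mul zero_le_two]
    refine Real.rpow_le_rpow (by linarith) (hL.trans ?_) he
    rw [Real.rpow_add two_pos, Real.rpow_natCast]
    refine mul_le_mul_of_nonneg_right ?_ (by positivity)
    rw [show (2 * (M : ℝ) + 5) = ((2 * M + 5 : ℕ) : ℝ) by push_cast; ring, Real.rpow_natCast]
    exact_mod_cast Nat.lt_two_pow_self.le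
  set A := I - 4 - i with hA
  have hNe : N ^ (-smEta (1 / 100) Y / 3) ≤ (2 : ℝ) ^ (-(c0 / 3) * (2 : ℝ) ^ A) := by
    rw [hN, bandZ_rpow]
    refine Real.rpow_le_rpow_of_exponent_le one_le_two ?_
    have hp : (2 : ℝ) ^ (I - 4) = (2 : ℝ) ^ i * (2 : ℝ) ^ A := by
      rw [← pow_add]; congr 1; omega
    rw [hp]
    have h1 : c0 ≤ smEta (1 / 100) Y * (2 : ℝ) ^ i := by
      rwa [div_le_iff₀ (by positivity)] at hη
    have h2 : (0 : ℝ) ≤ (2 : ℝ) ^ A := by positivity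
    nlinarith [mul_le_mul_of_nonneg_right h1 h2]
  have hfac : massFac (1 / 100) (mass C.ψ C.S) (mass C.ψ C.S) ≤ 16 := by
    have hm0 := BilinearAux.mass_nonneg hψ C.S
    have hm2 := hok.mass_le
    rw [massFac]
    have e1 : (mass C.ψ C.S + mass C.ψ C.S) ^ ((1 / 100 : ℝ) / 7) ≤ 4 :=
      (Real.rpow_le_rpow (by linarith) (show _ ≤ (4 : ℝ) by linarith) (by norm_num)).trans
        ((Real.rpow_le_rpow_of_exponent_le (by norm_num) (by norm_num)).trans_eq (Real.rpow_one 4))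
    have e2 : (mass C.ψ C.S * mass C.ψ C.S) ^ thetaX (1 / 100) ≤ 4 :=
      (Real.rpow_le_rpow (by positivity) (show _ ≤ (4 : ℝ) by nlinarith)
        (by norm_num [thetaX])).trans ((Real.rpow_le_rpow_of_exponent_le (by norm_num)
        (by norm_num [thetaX])).trans_eq (Real.rpow_one 4))
    exact (mul_le_mul e1 e2 (by positivity) (by norm_num)).trans (by norm_num)
  have hfac0 : 0 ≤ massFac (1 / 100) (mass C.ψ C.S) (mass C.ψ C.S) :=
    mul_nonneg (Real.rpow_nonneg (add_nonneg (BilinearAux.mass_nonneg hψ _)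
      (BilinearAux.mass_nonneg hψ _)) _) (Real.rpow_nonneg (mul_nonneg (BilinearAux.mass_nonneg hψ _)
      (BilinearAux.mass_nonneg hψ _)) _)
  have hxb : x ^ (1 - 1 / 100 : ℝ) ≤ (2 : ℝ) ^ ((2 : ℝ) ^ (I / 8)) := by
    rw [← bandZ_real]
    exact ((Real.rpow_le_rpow_of_exponent_le (one_le_bandZ' _) (by norm_num)).trans_eq
      (Real.rpow_one x)).trans (Nat.cast_le.2 (Nat.pow_le_pow_right two_pos
      (Nat.pow_le_pow_right two_pos (by omega))))
  have hgrow := hI1 I (by omega) A (by omega)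
  have hiA : (i : ℝ) ≤ A := Nat.cast_le.2 (by omega)
  calc B * (smLog Y ^ e * N ^ (-smEta (1 / 100) Y / 3)) ^ (1 / 3 : ℝ) * x ^ (1 - 1 / 100 : ℝ) *
        massFac (1 / 100) (mass C.ψ C.S) (mass C.ψ C.S)
      ≤ B * ((2 : ℝ) ^ (e * ((2 * M + 5) + (i : ℝ))) *
          (2 : ℝ) ^ (-(c0 / 3) * (2 : ℝ) ^ A)) ^ (1 / 3 : ℝ) *
          (2 : ℝ) ^ ((2 : ℝ) ^ (I / 8)) * 16 := by
        gcongr
    _ = B * 16 * (2 : ℝ) ^ ((e * ((2 * M + 5) + (i : ℝ)) + -(c0 / 3) * (2 : ℝ) ^ A) * (1 / 3) +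
          (2 : ℝ) ^ (I / 8)) := by
        rw [← Real.rpow_add two_pos, ← Real.rpow_mul zero_le_two,
          Real.rpow_add two_pos ((e * ((2 * M + 5) + (i : ℝ)) + _) * _)]
        ring
    _ ≤ B * 16 * qI I ^ (-(1 : ℝ)) := by
        rw [qI_rpow]
        refine mul_le_mul_of_nonneg_left (Real.rpow_le_rpow_of_exponent_le one_le_two ?_)
          (by positivity)
        have h0 : (0 : ℝ) ≤ e * (2 * M + 6) := by positivity
        have hp : (0 : ℝ) ≤ (2 : ℝ) ^ (I / 8) := by positivity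
        have hA0 : (0 : ℝ) ≤ (A : ℝ) := Nat.cast_nonneg _
        nlinarith [mul_le_mul_of_nonneg_left hiA he, mul_nonneg h0 hp, mul_nonneg h0 hA0,
          mul_nonneg (mul_nonneg he (Nat.cast_nonneg M)) hA0,
          mul_nonneg he (Nat.cast_nonneg (α := ℝ) M)]

open Classical in
/-- Bad deficiencies are improbable. -/
theorem eventSmall_badDef (M : ℕ) (hM : 4 ≤ M) (c : ℝ) (hc : 0 < c) :
    EventSmall M c (fun C I _ q _ => C.BadDef I q) := by
  obtain ⟨B, hB, hcell⟩ := exists_cellEvent_le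
  obtain ⟨I1, hI1⟩ := exists_grow (1 / 3) 174 (by norm_num)
  refine ⟨1, B * 722, I1, one_pos, fun ξ K C hpar hok I _ hI => ?_⟩
  have hψ := hok.psi_nonneg
  set Q := qI I with hQ
  have hQ1 : 1 ≤ Q := one_le_qI I
  have hR : 1 ≤ Q ^ (256 : ℕ) := one_le_pow₀ hQ1
  have hE : 1 ≤ Q ^ (258 : ℕ) := one_le_pow₀ hQ1
  set a : ℕ → ℕ → Prop := fun o q => I ≤ o ∧ ∃ ℓ : ℕ, ℓ.Prime ∧ C.par.thr o < ℓ ∧
    ℓ ∣ C.def' o q ∧ (ℓ ^ 2 ∣ C.def' o q ∨ ∃ (P : ℕ) (u : ℤ), 0 < P ∧
      (P : ℝ) ≤ Q ^ (256 : ℕ) ∧ ¬ (ℓ : ℤ) ∣ u ∧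
      |(P : ℝ) * (C.γ * C.def' o q) - u| ≤ Q ^ (258 : ℕ) / Real.sqrt ℓ) with haA
  set x : ℝ := (bandZ (I / 32) : ℝ) with hx
  set H1 : ℕ → ℝ := fun o =>
    min 1 (361 * Q ^ (256 : ℕ) * Q ^ (258 : ℕ) * (C.par.thr o : ℝ) ^ (-(1 / 4 : ℝ))) with hH1
  have hH10 : ∀ o, 0 ≤ H1 o := fun o => le_min zero_le_one (by positivity)
  have hthr : ∀ o, 0 < C.par.thr o := fun o => pow_pos (pow_pos two_pos _) _
  refine (sum_event_le C.S a (fun q _ => C.BadDef I q) (C.NearI I) (wt C.ψ)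
    (BilinearAux.wt_nonneg hψ) (fun o => B * x * H1 o ^ (1 / 3 : ℝ)) ?_ ?_
    (B * 361 * Q ^ (-(1 : ℝ))) ?_ (by positivity)).trans (le_of_eq (by ring))
  · rintro q r ⟨o, ℓ, hIo, hℓ⟩
    exact ⟨o, hIo, ℓ, hℓ⟩
  · rintro o ⟨q0, -, hIo, -⟩
    refine hcell ξ K C hok I o (a o) (H1 o) (by omega) (hH10 o) (min_le_left _ _) fun v₀ hv₀ => ?_
    set Y := C.par.thr o with hY
    set Kc := kCentre C.k C.S Y v₀ with hKc
    have hKpos : 0 < Kc := kCentre_pos C.k C.S Y v₀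
    have hmem : ∀ b ∈ ((kCell C.k C.S Y v₀).filter (a o)).image (C.def' o),
        b ∈ Kc.divisors.filter (fun b => ∃ l : ℕ, l.Prime ∧ Y < l ∧ l ∣ b ∧
          (l ^ 2 ∣ b ∨ ∃ (P : ℕ) (u : ℤ), 0 < P ∧ (P : ℝ) ≤ Q ^ (256 : ℕ) ∧ ¬ (l : ℤ) ∣ u ∧
            |(P : ℝ) * (C.γ * b) - u| ≤ Q ^ (258 : ℕ) / Real.sqrt l)) := by
      intro b hb
      obtain ⟨q, hq, rfl⟩ := Finset.mem_image.1 hb
      obtain ⟨hqC, -, ℓ, h1, h2, h3, h4⟩ := Finset.mem_filter.1 hq
      refine Finset.mem_filter.2 ⟨Nat.mem_divisors.2 ⟨?_, hKpos.ne'⟩, ℓ, h1, h2, h3, h4⟩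
      have e : kCentre C.k C.S Y q = Kc :=
        kCentre_congr C.k C.S Y fun p hp hlt => ((Finset.mem_filter.1 hqC).2 p hp hlt).symm
      rw [← e]
      exact kDef_dvd_kCentre C.k C.S Y q
    have h0 : ∀ b, 0 ≤ defProb Kc b := fun b =>
      div_nonneg (Nat.cast_nonneg _) (Nat.cast_nonneg _)
    refine le_min ?_ ?_
    · convert (Finset.sum_le_sum_of_subset_of_nonneg hmem fun b _ _ => h0 b).trans
        (sum_defProb_le hKpos _ (Finset.filter_subset _ _)) using 4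
    · convert (Finset.sum_le_sum_of_subset_of_nonneg hmem fun b _ _ => h0 b).trans
        (sum_bad_le hKpos (hthr o) C.γ _ _ hR hE) using 4
  · rintro o q - ⟨hIo, -⟩
    have hgrow := hI1 I hI (o + 1) (by omega)
    have hxQ : x ≤ (2 : ℝ) ^ ((2 : ℝ) ^ (I / 8)) := by
      rw [← bandZ_real]
      exact Nat.cast_le.2 (Nat.pow_le_pow_right two_pos (Nat.pow_le_pow_right two_pos (by omega)))
    have hYge : (C.par.thr o : ℝ) ^ (-(1 / 4 : ℝ)) ≤ (2 : ℝ) ^ (-((2 : ℝ) ^ (o + 1))) := by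
      rw [Par.thr, hpar, Nat.cast_pow, ← Real.rpow_natCast, ← Real.rpow_mul (Nat.cast_nonneg _),
        bandZ_rpow]
      refine Real.rpow_le_rpow_of_exponent_le one_le_two ?_
      have hM4 : (4 : ℝ) ≤ M := by exact_mod_cast hM
      have hp : (0 : ℝ) ≤ (2 : ℝ) ^ (o + 1) := by positivity
      show (M : ℝ) * -(1 / 4) * (2 : ℝ) ^ (o + 1) ≤ -(2 : ℝ) ^ (o + 1)
      nlinarith
    have hQpow : Q ^ (256 : ℕ) * Q ^ (258 : ℕ) = (2 : ℝ) ^ (514 * (2 : ℝ) ^ (I / 8)) := by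
      rw [← pow_add, ← Real.rpow_natCast, hQ, qI_rpow]
      norm_num
    have hroot : H1 o ^ (1 / 3 : ℝ) ≤
        361 * (2 : ℝ) ^ ((514 * (2 : ℝ) ^ (I / 8) + -((2 : ℝ) ^ (o + 1))) * (1 / 3)) := by
      refine (Real.rpow_le_rpow (hH10 o) (min_le_right _ _) (by norm_num)).trans ?_
      rw [mul_assoc (361 : ℝ), hQpow, mul_assoc (361 : ℝ),
        Real.mul_rpow (by norm_num) (by positivity)]
      refine mul_le_mul ((Real.rpow_le_rpow_of_exponent_le (by norm_num) (by norm_num)).trans_eq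
        (Real.rpow_one 361)) ?_ (by positivity) (by norm_num)
      rw [Real.rpow_mul zero_le_two (514 * (2 : ℝ) ^ (I / 8) + -((2 : ℝ) ^ (o + 1))), Real.rpow_add two_pos]
      exact Real.rpow_le_rpow (by positivity)
        (mul_le_mul_of_nonneg_left hYge (by positivity)) (by norm_num)
    calc B * x * H1 o ^ (1 / 3 : ℝ)
        ≤ B * (2 : ℝ) ^ ((2 : ℝ) ^ (I / 8)) *
          (361 * (2 : ℝ) ^ ((514 * (2 : ℝ) ^ (I / 8) + -((2 : ℝ) ^ (o + 1))) * (1 / 3))) :=
          mul_le_mul (mul_le_mul_of_nonneg_left hxQ hB) hroot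
            (Real.rpow_nonneg (hH10 o) _) (by positivity)
      _ = B * 361 * (2 : ℝ) ^ ((2 : ℝ) ^ (I / 8) +
          (514 * (2 : ℝ) ^ (I / 8) + -((2 : ℝ) ^ (o + 1))) * (1 / 3)) := by
          rw [Real.rpow_add two_pos]; ring
      _ ≤ B * 361 * ((2 : ℝ) ^ (-(1 : ℝ) * (2 : ℝ) ^ (I / 8)) * (2 : ℝ) ^ (-(o : ℝ))) := by
          rw [← Real.rpow_add two_pos]
          refine mul_le_mul_of_nonneg_left (Real.rpow_le_rpow_of_exponent_le one_le_two ?_)
            (by positivity)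
          push_cast at hgrow
          have : (0 : ℝ) ≤ (o : ℝ) := Nat.cast_nonneg _
          have : (0 : ℝ) ≤ (2 : ℝ) ^ (I / 8) := by positivity
          nlinarith
      _ = B * 361 * Q ^ (-(1 : ℝ)) * (1 / 2 : ℝ) ^ o := by
          rw [hQ, qI_rpow, half_pow_eq]; ring

open Classical in
/-- Heavy fibres are improbable. -/
theorem eventSmall_heavy (M : ℕ) (hM : 4 ≤ M) (c : ℝ) (hc : 0 < c) :
    EventSmall M c (fun C I _ q _ => C.HeavyFrom I q) := by
  obtain ⟨B, hB, hcell⟩ := exists_cellEvent_le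
  obtain ⟨I1, hI1⟩ := exists_grow (c / 6) 2 (by positivity)
  refine ⟨1, B * 2, I1, one_pos, fun ξ K C hpar hok I _ hI => ?_⟩
  have hψ := hok.psi_nonneg
  have hpc : C.par.c = c := by rw [hpar]
  set a : ℕ → ℕ → Prop := fun A q =>
    I / 3 ≤ A ∧ C.rad A q * Real.sqrt (bandZ A) ≤ 1 ∧ ¬ C.Light A q with haA
  set x : ℝ := (bandZ (I / 32) : ℝ) with hx
  set H1 : ℕ → ℝ := fun A => (bandZ A : ℝ) ^ (-(c / 2)) with hH1
  refine (sum_event_le C.S a (fun q _ => C.HeavyFrom I q) (C.NearI I) (wt C.ψ)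
    (BilinearAux.wt_nonneg hψ) (fun A => B * x * H1 A ^ (1 / 3 : ℝ)) ?_ ?_
    (B * qI I ^ (-(1 : ℝ))) ?_ (mul_nonneg hB (Real.rpow_nonneg (Nat.cast_nonneg _) _))).trans
    (le_of_eq (by ring))
  · intro q r h
    exact h
  · rintro A ⟨q0, -, hIA, -⟩
    refine hcell ξ K C hok I A (a A) (H1 A) (by omega) (Real.rpow_nonneg (Nat.cast_nonneg _) _)
      (Real.rpow_le_one_of_one_le_of_nonpos (one_le_bandZ' _) (by linarith)) fun v₀ hv₀ => ?_
    set Y := C.par.thr A with hY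
    set Cl := kCell C.k C.S Y v₀ with hCl
    set m := mass C.ψ Cl with hm
    have hMpos : 0 < m := by
      refine Finset.sum_pos (fun v hv => ?_) ⟨v₀, mem_kCell_self C.k C.S Y hv₀⟩
      have hvS := (Finset.mem_filter.1 hv).1
      exact mul_pos (div_pos (Nat.cast_pos.2 (Nat.totient_pos.2 (hok.pos v hvS)))
        (Nat.cast_pos.2 (hok.pos v hvS))) (hok.psi_pos v hvS)
    have hb : ∀ b ∈ (Cl.filter (a A)).image (C.def' A), defProb (kCentre C.k C.S Y v₀) b ≤
        H1 A / m * ∑ v ∈ Cl.filter (fun v => C.def' A v = b), wt C.ψ v := by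
      intro b hb
      obtain ⟨q, hq, rfl⟩ := Finset.mem_image.1 hb
      obtain ⟨hqC, -, hrad, hheavy⟩ := Finset.mem_filter.1 hq
      have hqS := (Finset.mem_filter.1 hqC).1
      have e1 : kCell C.k C.S Y q = Cl := kCell_eq_of_mem C.k C.S Y hqC
      have e2 : kCentre C.k C.S Y q = kCentre C.k C.S Y v₀ :=
        kCentre_congr C.k C.S Y fun p hp hlt => ((Finset.mem_filter.1 hqC).2 p hp hlt).symm
      set η := C.rad A q with hη
      have hη0 : 0 < η := mul_pos (hok.psi_pos q hqS) (Nat.cast_pos.2 (kDef_pos C.k C.S Y q))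
      rw [Ctx.Light, not_le, hpc] at hheavy
      have hZ : (bandZ A : ℝ) ^ (c / 2) ≤ max 1 (η ^ (-c)) := by
        refine le_max_of_le_right ?_
        have hs : 0 < Real.sqrt (bandZ A : ℝ) :=
          Real.sqrt_pos.2 (lt_of_lt_of_le one_pos (one_le_bandZ' A))
        calc (bandZ A : ℝ) ^ (c / 2) = (Real.sqrt (bandZ A : ℝ)) ^ c := by
              rw [Real.sqrt_eq_rpow, ← Real.rpow_mul (Nat.cast_nonneg _)]; ring_nf
          _ ≤ (η⁻¹) ^ c := by
              refine Real.rpow_le_rpow hs.le ?_ hc.le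
              rw [inv_eq_one_div, le_div_iff₀ hη0, mul_comm]
              exact hrad
          _ = η ^ (-c) := by rw [Real.rpow_neg hη0.le, Real.inv_rpow hη0.le]
      have hp0 : 0 < C.prob A q := kProb_pos C.k C.S Y q
      have h1 : (bandZ A : ℝ) ^ (c / 2) * m * C.prob A q ≤
          mass C.ψ (kFibre C.k C.S Y q) := by
        refine le_trans ?_ hheavy.le
        rw [← hη, ← hY, e1, ← hm]
        gcongr
      rw [kFibre, e1, Ctx.prob, kProb_eq, ← hY, e2] at h1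
      rw [div_mul_eq_mul_div, le_div_iff₀ hMpos]
      have hz : 0 < (bandZ A : ℝ) ^ (c / 2) :=
        Real.rpow_pos_of_pos (lt_of_lt_of_le one_pos (one_le_bandZ' A)) _
      calc defProb (kCentre C.k C.S Y v₀) (C.def' A q) * m
          = ((bandZ A : ℝ) ^ (c / 2))⁻¹ *
            ((bandZ A : ℝ) ^ (c / 2) * m * defProb (kCentre C.k C.S Y v₀) (C.def' A q)) := by
            field_simp
        _ ≤ ((bandZ A : ℝ) ^ (c / 2))⁻¹ *
            ∑ v ∈ Cl.filter (fun v => C.def' A v = C.def' A q), wt C.ψ v :=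
            mul_le_mul_of_nonneg_left h1 (by positivity)
        _ = _ := by simp only [hH1, Real.rpow_neg (Nat.cast_nonneg _)]
    refine le_trans (le_of_eq ?_) ((Finset.sum_le_sum hb).trans ?_)
    · congr 3
    rw [← Finset.mul_sum, div_mul_eq_mul_div, div_le_iff₀ hMpos]
    refine mul_le_mul_of_nonneg_left ?_ (Real.rpow_nonneg (Nat.cast_nonneg _) _)
    rw [hm, mass, ← Finset.sum_fiberwise_of_maps_to (s := Cl) (g := C.def' A)
      (t := Cl.image (C.def' A)) fun v hv => Finset.mem_image_of_mem _ hv]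
    exact Finset.sum_le_sum_of_subset_of_nonneg
      (Finset.image_subset_image (Finset.filter_subset _ _))
      fun b _ _ => Finset.sum_nonneg fun v _ => BilinearAux.wt_nonneg hψ v
  · rintro A q - ⟨hIA, -⟩
    have hgrow := hI1 I hI A hIA
    have hxQ : x ≤ (2 : ℝ) ^ ((2 : ℝ) ^ (I / 8)) := by
      rw [← bandZ_real]
      exact Nat.cast_le.2 (Nat.pow_le_pow_right two_pos (Nat.pow_le_pow_right two_pos (by omega)))
    calc B * x * H1 A ^ (1 / 3 : ℝ)
        ≤ B * (2 : ℝ) ^ ((2 : ℝ) ^ (I / 8)) * (2 : ℝ) ^ (-(c / 6) * (2 : ℝ) ^ A) := by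
          refine mul_le_mul (mul_le_mul_of_nonneg_left hxQ hB) (le_of_eq ?_)
            (Real.rpow_nonneg (Real.rpow_nonneg (Nat.cast_nonneg _) _) _) (by positivity)
          simp only [hH1]
          rw [← Real.rpow_mul (Nat.cast_nonneg _), bandZ_rpow]
          ring_nf
      _ ≤ B * ((2 : ℝ) ^ (-(1 : ℝ) * (2 : ℝ) ^ (I / 8)) * (2 : ℝ) ^ (-(A : ℝ))) := by
          rw [mul_assoc, ← Real.rpow_add two_pos, ← Real.rpow_add two_pos]
          refine mul_le_mul_of_nonneg_left (Real.rpow_le_rpow_of_exponent_le one_le_two ?_) hB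
          have : (0 : ℝ) ≤ (A : ℝ) := Nat.cast_nonneg _
          nlinarith
      _ = B * qI I ^ (-(1 : ℝ)) * (1 / 2 : ℝ) ^ A := by
          rw [qI_rpow, half_pow_eq]; ring

end Vale.Agent.P028.Full
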