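import Vale.Agent.P028.Full.Moment.SparseEvent

/-!
The events in which one quotient lies in a sparse set given the other: a class or an interval.
-/

noncomputable section

namespace Vale.Agent.P028.Full

open Finset

/-- The data of an exact coincidence, without the two deficiencies. -/
theorem Ctx.ExactAt.facts {C : Ctx} {I J q r : ℕ} (h : C.ExactAt I J q r) (hn : C.NearI I q r)
    (hq : 0 < q) (hr : 0 < r) :
    ∃ (n : ℤ) (X X' : ℕ), qd r q = X * C.def' I q ∧ qd q r = X' * C.def' J r ∧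
      Nat.Coprime X X' ∧
      |(n : ℝ) + (X : ℝ) * (C.γ * C.def' I q) - (X' : ℝ) * (C.γ * C.def' J r)| <
        2 * (bandZ (I / 32) : ℝ) ∧
      n * (C.node I q).2 * (C.node J r).2 + (C.node I q).1 * X * (C.node J r).2 -
        (C.node J r).1 * X' * (C.node I q).2 = 0 := by
  obtain ⟨hIJ, -, -, -, -, n, hn1, hn2⟩ := h
  obtain ⟨-, hD, hs⟩ := hn
  have hsame : ∀ {B : ℕ}, I ≤ B → SameCell C.k (C.par.thr B) q r := fun {B} hB p hp hY =>
    hs p hp (lt_of_le_of_lt (C.par.thr_mono ((Nat.div_le_self I 32).trans hB)) hY)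
  have e1 := C.qd_eq (hsame le_rfl) hq hr
  have e2 := C.qd_eq (hsame hIJ).symm hr hq
  set X := cPart C.k C.S (C.par.thr I) q r
  set X' := cPart C.k C.S (C.par.thr J) r q
  refine ⟨n, X, X', e1, e2, ?_, ?_, ?_⟩
  · have hc : Nat.Coprime (qd r q) (qd q r) := by
      rw [qd, qd, Nat.gcd_comm q r]
      exact Nat.coprime_div_gcd_div_gcd (Nat.gcd_pos_of_pos_left _ hr)
    exact (hc.coprime_dvd_left ⟨_, e1⟩).coprime_dvd_right ⟨_, e2⟩
  · refine lt_of_le_of_lt (le_of_eq ?_) (hn1.trans_le (mul_le_mul_of_nonneg_left hD two_pos.le))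
    congr 1
    rw [mdiff, e1, e2]
    push_cast
    ring
  · have hb : (C.def' I q : ℤ) * C.def' J r ≠ 0 := mul_ne_zero
      (by exact_mod_cast (kDef_pos C.k C.S _ q).ne') (by exact_mod_cast (kDef_pos C.k C.S _ r).ne')
    refine (mul_eq_zero.1 ?_).resolve_left hb
    rw [← hn2, anatZ, e1, e2]
    push_cast
    ring

/-- In two exact relations with one node on each side and one first cofactor, the common part of
the denominators divides the difference of any numbers proportional to the second cofactors. -/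
theorem dvd_sub_of_exact {P P' : ℕ} {u u' n1 n2 : ℤ} {X Y1 Y2 a1 a2 : ℕ} (hP : 0 < P)
    (hP' : 0 < P') (hu : IsCoprime u (P : ℤ)) (hu' : IsCoprime u' (P' : ℤ))
    (hc : Nat.Coprime X Y1)
    (e1 : n1 * P * P' + u * X * P' - u' * Y1 * P = 0)
    (e2 : n2 * P * P' + u * X * P' - u' * Y2 * P = 0) (hr : a1 * Y2 = a2 * Y1) :
    (Nat.gcd P P' : ℤ) ∣ (a1 : ℤ) - a2 := by
  obtain ⟨A, A', hco, hA, hA'⟩ := Nat.exists_coprime P P'
  set G := Nat.gcd P P' with hG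
  have hG0 : (G : ℤ) ≠ 0 := by exact_mod_cast (Nat.gcd_pos_of_pos_left P' hP).ne'
  have hP'0 : (P' : ℤ) ≠ 0 := by exact_mod_cast hP'.ne'
  have hA'0 : (A' : ℤ) ≠ 0 := fun h0 => hP'0 (by rw [hA']; push_cast; rw [h0, zero_mul])
  have hPZ : (P : ℤ) = A * G := by exact_mod_cast hA
  have hP'Z : (P' : ℤ) = A' * G := by exact_mod_cast hA'
  have hdvd : ∀ {n : ℤ} {Y : ℕ}, n * P * P' + u * X * P' - u' * Y * P = 0 → A' ∣ Y := by
    intro n Y e
    have h : (G : ℤ) * (n * A * (A' * G) + u * X * A' - u' * Y * A) = 0 := by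
      rw [← e, hPZ, hP'Z]; ring
    have h' := (mul_eq_zero.1 h).resolve_left hG0
    have hd : (A' : ℤ) ∣ u' * A * Y := ⟨n * A * G + u * X, by linear_combination -h'⟩
    have hcop : IsCoprime (A' : ℤ) (u' * A) := by
      refine IsCoprime.mul_right ?_ (Int.isCoprime_iff_nat_coprime.2 (by simpa using hco.symm))
      exact (hu'.of_isCoprime_of_dvd_right ⟨G, hP'Z⟩).symm
    exact Int.natCast_dvd_natCast.1 (hcop.dvd_of_dvd_mul_left hd)
  obtain ⟨α1, rfl⟩ := hdvd e1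
  obtain ⟨α2, rfl⟩ := hdvd e2
  push_cast at e1 e2
  -- the relations without the common factor
  have f : ∀ {n : ℤ} {α : ℕ}, n * P * P' + u * X * P' - u' * (A' * α) * P = 0 →
      n * A * G + u * X - u' * α * A = 0 := by
    intro n α e
    refine (mul_eq_zero.1 (?_ : ((G : ℤ) * A') * _ = 0)).resolve_left (mul_ne_zero hG0 hA'0)
    rw [← e, hPZ, hP'Z]
    ring
  have f1 := f e1
  have f2 := f e2
  -- the first cofactor has the part of `P` outside the common part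
  have hGu : IsCoprime (G : ℤ) u := (hu.of_isCoprime_of_dvd_right ⟨A, by rw [hPZ]; ring⟩).symm
  have hGu' : IsCoprime (G : ℤ) u' :=
    (hu'.of_isCoprime_of_dvd_right ⟨A', by rw [hP'Z]; ring⟩).symm
  obtain ⟨β, hβ⟩ : (A : ℤ) ∣ X := by
    refine IsCoprime.dvd_of_dvd_mul_left (hu.of_isCoprime_of_dvd_right ⟨G, hPZ⟩).symm
      ⟨u' * α1 - n1 * G, by linear_combination f1⟩
  have hA0 : (A : ℤ) ≠ 0 := fun h0 => by
    have : (P : ℤ) = 0 := by rw [hPZ, h0, zero_mul]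
    exact hP.ne' (by exact_mod_cast this)
  have g : ∀ {n : ℤ} {α : ℕ}, n * A * G + u * X - u' * α * A = 0 →
      n * G + u * β - u' * α = 0 := by
    intro n α e
    refine (mul_eq_zero.1 (?_ : (A : ℤ) * _ = 0)).resolve_left hA0
    rw [← e, hβ]
    ring
  have g1 := g f1
  have g2 := g f2
  -- `α1` is prime to the common part
  have hαG : IsCoprime (α1 : ℤ) (G : ℤ) := by
    have hXY : IsCoprime (β : ℤ) (α1 : ℤ) := by
      have h0 : IsCoprime (X : ℤ) ((A' * α1 : ℕ) : ℤ) :=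
        Int.isCoprime_iff_nat_coprime.2 (by rw [Int.natAbs_natCast, Int.natAbs_natCast]; exact hc)
      rw [hβ, Nat.cast_mul] at h0
      exact h0.of_mul_left_right.of_mul_right_right
    obtain ⟨a, b, hab⟩ := hXY
    obtain ⟨s, t, hst⟩ := hGu
    have hβ' : β = G * (s * β - t * n1) + α1 * (t * u') := by
      linear_combination (-β) * hst + t * g1
    exact ⟨a * (t * u') + b, a * (s * β - t * n1), by linear_combination hab - a * hβ'⟩
  have hdiff : (G : ℤ) ∣ (α1 : ℤ) - α2 :=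
    hGu'.dvd_of_dvd_mul_left ⟨n1 - n2, by linear_combination g2 - g1⟩
  refine hαG.symm.dvd_of_dvd_mul_right ?_
  have hr' : (a1 : ℤ) * α2 = a2 * α1 := by
    have : A' * (a1 * α2) = A' * (a2 * α1) := by linear_combination hr
    have h' : (A' : ℤ) * ((a1 : ℤ) * α2) = (A' : ℤ) * ((a2 : ℤ) * α1) := by exact_mod_cast this
    exact mul_left_cancel₀ hA'0 h'
  obtain ⟨k, hk⟩ := hdiff
  exact ⟨a1 * k, by linear_combination (a1 : ℤ) * hk + hr'⟩

/-- Separated numbers of one block. -/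
theorem card_block_le_of_sep (T : Finset ℕ) {j : ℕ} {Q : ℝ} (hQ : 1 ≤ Q)
    (hlog : ∀ a ∈ T, 0 < a ∧ Nat.log 2 a = j)
    (hsep : ∀ a ∈ T, ∀ a' ∈ T, a ≠ a' → Q ^ (4 : ℕ) ≤ |(a : ℝ) - a'|) :
    (T.card : ℝ) ≤ 2 ^ j / Q ^ (2 : ℕ) + 1 := by
  have hQ0 : 0 < Q := by linarith
  refine (card_le_of_separated T (fun a => (a : ℝ)) (a := (2 : ℝ) ^ j) (b := 2 * 2 ^ j)
    (show 0 < Q ^ (4 : ℕ) by positivity) (by linarith [pow_pos (two_pos (α := ℝ)) j])
    (fun a ha => ⟨pow_le_of_log_eq (hlog a ha).1 (hlog a ha).2, le_of_log_eq (hlog a ha).2⟩)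
    hsep).trans (add_le_add ?_ le_rfl)
  rw [show (2 : ℝ) * 2 ^ j - 2 ^ j = 2 ^ j by ring]
  exact div_le_div_of_nonneg_left (by positivity) (by positivity)
    (pow_le_pow_right₀ hQ (by norm_num))

/-- Numbers of one block whose multiples by a factor are close and large. -/
theorem card_block_le_of_close (T : Finset ℕ) {j : ℕ} {W R : ℝ} (hW : 0 ≤ W) (hR : 0 < R)
    (hlog : ∀ a ∈ T, Nat.log 2 a = j)
    (hclose : ∀ a ∈ T, ∀ a' ∈ T, ∃ s : ℝ, |s| * |(a : ℝ) - a'| ≤ W ∧ R ≤ |s| * a) :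
    (T.card : ℝ) ≤ 4 * W * 2 ^ j / R + 1 := by
  rcases T.eq_empty_or_nonempty with rfl | ⟨a0, ha0⟩
  · simp only [Finset.card_empty, Nat.cast_zero]
    positivity
  set d : ℝ := 2 * W * 2 ^ j / R with hd
  have hd0 : 0 ≤ d := by positivity
  have hnear : ∀ a ∈ T, |(a : ℝ) - a0| ≤ d := by
    intro a ha
    obtain ⟨s, h1, h2⟩ := hclose a ha a0 ha0
    rw [hd, le_div_iff₀ hR]
    calc |(a : ℝ) - a0| * R ≤ |(a : ℝ) - a0| * (|s| * a) :=
          mul_le_mul_of_nonneg_left h2 (abs_nonneg _)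
      _ = |s| * |(a : ℝ) - a0| * a := by ring
      _ ≤ W * (2 * 2 ^ j) := mul_le_mul h1 (le_of_log_eq (hlog a ha)) (Nat.cast_nonneg _) hW
      _ = _ := by ring
  refine (card_le_of_separated T (fun a => (a : ℝ)) (a := (a0 : ℝ) - d) (b := (a0 : ℝ) + d)
    one_pos (by linarith) (fun a ha => by
      have := abs_le.1 (hnear a ha); constructor <;> linarith) fun a _ a' _ hne => ?_).trans
    (le_of_eq (by rw [hd]; ring))
  have h1 : (1 : ℤ) ≤ |(a : ℤ) - a'| := Int.one_le_abs (sub_ne_zero.2 (by exact_mod_cast hne))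
  exact_mod_cast h1

/-- The common part of two denominators is at least `Q ^ 4`. -/
theorem pow_le_gcd {P P' : ℕ} {Q : ℝ} (hQ : 0 ≤ Q) (h : Q ^ (8 : ℕ) < (P : ℝ))
    (hg : P < Nat.gcd P P' ^ 2) : Q ^ (4 : ℕ) ≤ (Nat.gcd P P' : ℝ) := by
  refine le_of_pow_le_pow_left₀ two_ne_zero (Nat.cast_nonneg _) ?_
  rw [← pow_mul]
  refine h.le.trans ?_
  exact_mod_cast hg.le

/-- Two large denominators with a large common part put a quotient in one class. -/
theorem eventSmall_pClass (M : ℕ) (hM : 4 ≤ M) (c : ℝ) (hc : 0 < c) :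
    EventSmall M c (fun C I jr q r => C.ExactAt I (jr r) q r ∧ ¬ C.SlackSide I q r ∧
      ¬ C.SlackSide I r q ∧ qI I ^ (8 : ℕ) < ((C.node I q).2 : ℝ) ∧
      (C.node I q).2 < Nat.gcd (C.node I q).2 (C.node (jr r) r).2 ^ 2) := by
  have _ := hM
  have _ := hc
  refine eventSmall_of_blocks M c _ (fun C I jr q r h => ⟨h.2.1, h.1.2.1, h.1.2.2.2.1⟩)
    ⟨0, fun ξ K C _ hok I jr _ => ⟨?_, ?_⟩⟩
  · intro r b X g j z T hr hT
    have hpos : ∀ a ∈ T, 0 < a ∧ Nat.log 2 a = j := fun a ha => by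
      obtain ⟨hl, q, hq, -, -, -, -, -, hg⟩ := hT a ha
      exact ⟨Nat.pos_of_mul_pos_left (hg ▸ BilinearAux.qd_pos (hok.pos q hq)), hl⟩
    refine card_block_le_of_sep T (one_le_qI I) hpos fun a1 ha1 a2 ha2 hne => ?_
    obtain ⟨-, q1, hq1, hn1, he1, hz1, hb1, hX1, hg1⟩ := hT a1 ha1
    obtain ⟨-, q2, hq2, hn2, he2, hz2, hb2, hX2, hg2⟩ := hT a2 ha2
    obtain ⟨n1, x1, y1, x1e, y1e, hco, -, ex1⟩ := he1.1.facts hn1 (hok.pos q1 hq1) (hok.pos r hr)
    obtain ⟨n2, x2, y2, x2e, y2e, -, -, ex2⟩ := he2.1.facts hn2 (hok.pos q2 hq2) (hok.pos r hr)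
    obtain ⟨-, -, -, hP, hP', -⟩ := he1.1
    have hu : IsCoprime (C.node I q1).1 ((C.node I q1).2 : ℤ) := (isNode_nodeOf hP).2.1
    have hu' : IsCoprime (C.node (jr r) r).1 ((C.node (jr r) r).2 : ℤ) := (isNode_nodeOf hP').2.1
    have hbig := pow_le_gcd (le_trans zero_le_one (one_le_qI I)) he1.2.2.2.1 he1.2.2.2.2
    rw [hz1] at ex1 hu hbig hP
    rw [hz2] at ex2
    have hx : x1 = x2 := by
      rw [hb1, hX1] at x1e
      rw [hb2, hX2] at x2e
      exact Nat.eq_of_mul_eq_mul_right (hb1 ▸ kDef_pos C.k C.S _ q1) (x1e.symm.trans x2e)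
    subst hx
    have hr' : a1 * y2 = a2 * y1 := by
      refine Nat.eq_of_mul_eq_mul_right (kDef_pos C.k C.S (C.par.thr (jr r)) r) ?_
      change a1 * y2 * C.def' (jr r) r = a2 * y1 * C.def' (jr r) r
      rw [mul_assoc, mul_assoc, ← y2e, ← y1e, hg1, hg2]
      ring
    have hd := dvd_sub_of_exact hP hP' hu hu' hco ex1 ex2 hr'
    refine hbig.trans ?_
    have := Int.le_of_dvd (abs_pos.2 (sub_ne_zero.2 (by exact_mod_cast hne))) ((dvd_abs _ _).2 hd)
    exact_mod_cast this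
  · intro r b X g j z T hr hT
    have hpos : ∀ a ∈ T, 0 < a ∧ Nat.log 2 a = j := fun a ha => by
      obtain ⟨hl, q, hq, -, -, -, -, -, hg⟩ := hT a ha
      exact ⟨Nat.pos_of_mul_pos_left (hg ▸ BilinearAux.qd_pos (hok.pos r hr)), hl⟩
    refine card_block_le_of_sep T (one_le_qI I) hpos fun a1 ha1 a2 ha2 hne => ?_
    obtain ⟨-, q1, hq1, hn1, he1, hz1, hb1, hX1, hg1⟩ := hT a1 ha1
    obtain ⟨-, q2, hq2, hn2, he2, hz2, hb2, hX2, hg2⟩ := hT a2 ha2
    obtain ⟨n1, x1, y1, x1e, y1e, hco, -, ex1⟩ := he1.1.facts hn1 (hok.pos q1 hq1) (hok.pos r hr)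
    obtain ⟨n2, x2, y2, x2e, y2e, -, -, ex2⟩ := he2.1.facts hn2 (hok.pos q2 hq2) (hok.pos r hr)
    obtain ⟨-, -, -, hP, hP', -⟩ := he1.1
    have hu : IsCoprime (C.node I q1).1 ((C.node I q1).2 : ℤ) := (isNode_nodeOf hP).2.1
    have hu' : IsCoprime (C.node (jr r) r).1 ((C.node (jr r) r).2 : ℤ) := (isNode_nodeOf hP').2.1
    have hbig := pow_le_gcd (le_trans zero_le_one (one_le_qI I)) he1.2.2.2.1 he1.2.2.2.2
    rw [hz1] at ex1 hu hbig hP
    rw [hz2] at ex2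
    have hy : y1 = y2 := by
      rw [hX1] at y1e
      rw [hX2] at y2e
      exact Nat.eq_of_mul_eq_mul_right (kDef_pos C.k C.S (C.par.thr (jr r)) r)
        (y1e.symm.trans y2e)
    subst hy
    have hr' : a1 * x2 = a2 * x1 := by
      refine Nat.eq_of_mul_eq_mul_right (hb1 ▸ kDef_pos C.k C.S _ q1 : 0 < b) ?_
      rw [hb1] at x1e
      rw [hb2] at x2e
      rw [mul_assoc, mul_assoc, ← x2e, ← x1e, hg1, hg2]
      ring
    have hd := dvd_sub_of_exact (n1 := -n1) (n2 := -n2) hP' hP hu' hu hco.symm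
      (by linear_combination -ex1) (by linear_combination -ex2) hr'
    rw [Nat.gcd_comm] at hd
    refine hbig.trans ?_
    have := Int.le_of_dvd (abs_pos.2 (sub_ne_zero.2 (by exact_mod_cast hne))) ((dvd_abs _ _).2 hd)
    exact_mod_cast this

/-- An exact near coincidence relates the two errors. -/
theorem abs_err_sub_le {P P' : ℕ} {u u' n : ℤ} {X Y : ℕ} {β β' W : ℝ} (hP : 0 < P) (hP' : 0 < P')
    (hex : n * P * P' + u * X * P' - u' * Y * P = 0)
    (hn : |(n : ℝ) + (X : ℝ) * β - (Y : ℝ) * β'| < W) :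
    |((P : ℝ) * β - u) / P * X - ((P' : ℝ) * β' - u') / P' * Y| ≤ W := by
  have h1 : (P : ℝ) ≠ 0 := by exact_mod_cast hP.ne'
  have h2 : (P' : ℝ) ≠ 0 := by exact_mod_cast hP'.ne'
  have hexR : (n : ℝ) * P * P' + u * X * P' - u' * Y * P = 0 := by exact_mod_cast hex
  have e : ((P : ℝ) * β - u) / P * X - ((P' : ℝ) * β' - u') / P' * Y =
      (n : ℝ) + (X : ℝ) * β - (Y : ℝ) * β' := by
    field_simp
    linear_combination -hexR
  rw [e]
  exact hn.le

/-- A large error of a small node puts a quotient in a short interval. -/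
theorem eventSmall_pErr (M : ℕ) (hM : 4 ≤ M) (c : ℝ) (hc : 0 < c) :
    EventSmall M c (fun C I jr q r => C.ExactAt I (jr r) q r ∧ ¬ C.SlackSide I q r ∧
      ¬ C.SlackSide I r q ∧ ((C.node I q).2 : ℝ) ≤ qI I ^ (8 : ℕ) ∧
      qI I ^ (40 : ℕ) * C.rad I q < C.nodeErr I q) := by
  have _ := hM
  have _ := hc
  refine eventSmall_of_blocks M c _ (fun C I jr q r h => ⟨h.2.1, h.1.2.1, h.1.2.2.2.1⟩)
    ⟨256, fun ξ K C _ hok I jr hI => ?_⟩
  set Q := qI I with hQd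
  set Z : ℝ := (bandZ (I / 32) : ℝ) with hZd
  have hQ1 : 1 ≤ Q := one_le_qI I
  have hQ0 : 0 < Q := by linarith
  have hQ32 : 32 ≤ Q := by
    rw [hQd, qI_eq, show (32 : ℝ) = 2 ^ 5 by norm_num]
    refine pow_le_pow_right₀ one_le_two ?_
    calc 5 ≤ 2 ^ 3 := by norm_num
      _ ≤ 2 ^ (I / 8) := Nat.pow_le_pow_right (by norm_num) (by omega)
  have hZ1 : 1 ≤ Z := one_le_bandZ _
  have hZQ : Z ≤ Q := by
    have := bandZ_pow_le_qI (n := 1) (by norm_num) hI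
    rwa [pow_one] at this
  -- `|e X / P| ≥ Q ^ 22`
  have hbig : ∀ q r X : ℕ, C.ExactAt I (jr r) q r → ¬ C.SlackSide I q r →
      ((C.node I q).2 : ℝ) ≤ Q ^ (8 : ℕ) → Q ^ (40 : ℕ) * C.rad I q < C.nodeErr I q →
      qd r q = X * C.def' I q →
      Q ^ (22 : ℕ) ≤ |(((C.node I q).2 : ℝ) * (C.γ * C.def' I q) - (C.node I q).1) /
        (C.node I q).2 * X| := by
    intro q r X he hs hP hE hX
    have hP0 : (0 : ℝ) < (C.node I q).2 := by exact_mod_cast he.2.2.2.1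
    rw [Ctx.SlackSide, not_le, ← hQd, Real.rpow_neg hQ0.le,
      show (10 : ℝ) = ((10 : ℕ) : ℝ) by norm_num, Real.rpow_natCast, hX, Nat.cast_mul] at hs
    have hs' : (Q ^ (10 : ℕ))⁻¹ ≤ C.rad I q * X := hs.le.trans_eq (by rw [Ctx.rad]; ring)
    rw [abs_mul, abs_div, Nat.abs_cast, Nat.abs_cast, div_mul_eq_mul_div, le_div_iff₀ hP0]
    calc Q ^ (22 : ℕ) * ((C.node I q).2 : ℝ) ≤ Q ^ (22 : ℕ) * Q ^ (8 : ℕ) :=
          mul_le_mul_of_nonneg_left hP (by positivity)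
      _ = Q ^ (40 : ℕ) * (Q ^ (10 : ℕ))⁻¹ := by field_simp
      _ ≤ Q ^ (40 : ℕ) * (C.rad I q * X) := mul_le_mul_of_nonneg_left hs' (by positivity)
      _ = Q ^ (40 : ℕ) * C.rad I q * X := by ring
      _ ≤ _ := mul_le_mul_of_nonneg_right hE.le (Nat.cast_nonneg _)
  have hfin : ∀ j : ℕ, 4 * (4 * Z) * (2 : ℝ) ^ j / (Q ^ (22 : ℕ) / 2) + 1 ≤
      2 ^ j / Q ^ (2 : ℕ) + 1 := by
    intro j
    have h32 : 32 * Z ≤ Q ^ (20 : ℕ) :=
      (mul_le_mul hQ32 hZQ (by linarith) hQ0.le).trans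
        ((sq Q).symm.le.trans (pow_le_pow_right₀ hQ1 (by norm_num)))
    refine add_le_add ?_ le_rfl
    rw [div_le_div_iff₀ (by positivity) (by positivity)]
    calc 4 * (4 * Z) * (2 : ℝ) ^ j * Q ^ (2 : ℕ) = 2 ^ j * Q ^ (2 : ℕ) * (32 * Z) / 2 := by ring
      _ ≤ 2 ^ j * Q ^ (2 : ℕ) * Q ^ (20 : ℕ) / 2 := by gcongr
      _ = _ := by ring
  refine ⟨?_, ?_⟩
  · intro r b X g j z T hr hT
    refine (card_block_le_of_close T (W := 4 * Z) (R := Q ^ (22 : ℕ) / 2) (by linarith)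
      (by positivity) (fun a ha => (hT a ha).1) fun a1 ha1 a2 ha2 => ?_).trans (hfin j)
    obtain ⟨-, q1, hq1, hn1, he1, hz1, hb1, hX1, hg1⟩ := hT a1 ha1
    obtain ⟨-, q2, hq2, hn2, he2, hz2, hb2, hX2, hg2⟩ := hT a2 ha2
    obtain ⟨n1, x1, y1, x1e, y1e, -, w1, ex1⟩ := he1.1.facts hn1 (hok.pos q1 hq1) (hok.pos r hr)
    obtain ⟨n2, x2, y2, x2e, y2e, -, w2, ex2⟩ := he2.1.facts hn2 (hok.pos q2 hq2) (hok.pos r hr)
    have hP := he1.1.2.2.2.1
    have hP2 := he2.1.2.2.2.1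
    have hP' := he1.1.2.2.2.2.1
    have l1 := hbig q1 r x1 he1.1 he1.2.1 he1.2.2.2.1 he1.2.2.2.2 x1e
    have d1 := abs_err_sub_le hP hP' ex1 w1
    have d2 := abs_err_sub_le hP2 hP' ex2 w2
    have hx : x1 = x2 := by
      rw [hb1, hX1] at x1e
      rw [hb2, hX2] at x2e
      exact Nat.eq_of_mul_eq_mul_right (hb1 ▸ kDef_pos C.k C.S _ q1) (x1e.symm.trans x2e)
    subst hx
    rw [hz1, hb1] at d1 l1
    rw [hz2, hb2] at d2
    set M0 : ℝ := ((z.2 : ℝ) * (C.γ * b) - z.1) / z.2 * x1 with hM0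
    set μ : ℝ := (((C.node (jr r) r).2 : ℝ) * (C.γ * C.def' (jr r) r) -
      (C.node (jr r) r).1) / (C.node (jr r) r).2 with hμ
    have hbJ : (0 : ℝ) < C.def' (jr r) r := by exact_mod_cast kDef_pos C.k C.S _ r
    have hy1 : (y1 : ℝ) = (g : ℝ) / C.def' (jr r) r * a1 := by
      rw [div_mul_eq_mul_div, eq_div_iff hbJ.ne']
      exact_mod_cast y1e.symm.trans hg1
    have hy2 : (y2 : ℝ) = (g : ℝ) / C.def' (jr r) r * a2 := by
      rw [div_mul_eq_mul_div, eq_div_iff hbJ.ne']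
      exact_mod_cast y2e.symm.trans hg2
    rw [hy1, ← mul_assoc] at d1
    rw [hy2, ← mul_assoc] at d2
    refine ⟨μ * ((g : ℝ) / C.def' (jr r) r), ?_, ?_⟩
    · rw [← abs_mul, mul_sub]
      refine (abs_sub_le _ M0 _).trans ?_
      rw [abs_sub_comm _ M0]
      linarith
    · rw [← Nat.abs_cast a1, ← abs_mul]
      have h1 := abs_sub_abs_le_abs_sub M0 (μ * ((g : ℝ) / C.def' (jr r) r) * a1)
      have h2 : 4 * Z ≤ Q ^ (22 : ℕ) :=
        (mul_le_mul (show (4 : ℝ) ≤ Q by linarith) hZQ (by linarith) hQ0.le).trans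
          ((sq Q).symm.le.trans (pow_le_pow_right₀ hQ1 (by norm_num)))
      linarith
  · intro r b X g j z T hr hT
    refine (card_block_le_of_close T (W := 4 * Z) (R := Q ^ (22 : ℕ) / 2) (by linarith)
      (by positivity) (fun a ha => (hT a ha).1) fun a1 ha1 a2 ha2 => ?_).trans (hfin j)
    obtain ⟨-, q1, hq1, hn1, he1, hz1, hb1, hX1, hg1⟩ := hT a1 ha1
    obtain ⟨-, q2, hq2, hn2, he2, hz2, hb2, hX2, hg2⟩ := hT a2 ha2
    obtain ⟨n1, x1, y1, x1e, y1e, -, w1, ex1⟩ := he1.1.facts hn1 (hok.pos q1 hq1) (hok.pos r hr)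
    obtain ⟨n2, x2, y2, x2e, y2e, -, w2, ex2⟩ := he2.1.facts hn2 (hok.pos q2 hq2) (hok.pos r hr)
    have hP := he1.1.2.2.2.1
    have hP2 := he2.1.2.2.2.1
    have hP' := he1.1.2.2.2.2.1
    have l1 := hbig q1 r x1 he1.1 he1.2.1 he1.2.2.2.1 he1.2.2.2.2 x1e
    have d1 := abs_err_sub_le hP hP' ex1 w1
    have d2 := abs_err_sub_le hP2 hP' ex2 w2
    have hy : y1 = y2 := by
      rw [hX1] at y1e
      rw [hX2] at y2e
      exact Nat.eq_of_mul_eq_mul_right (kDef_pos C.k C.S (C.par.thr (jr r)) r)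
        (y1e.symm.trans y2e)
    subst hy
    rw [hz1, hb1] at d1 l1
    rw [hz2, hb2] at d2
    set μ : ℝ := ((z.2 : ℝ) * (C.γ * b) - z.1) / z.2 with hμ
    set M0 : ℝ := (((C.node (jr r) r).2 : ℝ) * (C.γ * C.def' (jr r) r) -
      (C.node (jr r) r).1) / (C.node (jr r) r).2 * y1 with hM0
    have hb : (0 : ℝ) < b := by exact_mod_cast (hb1 ▸ kDef_pos C.k C.S _ q1 : 0 < b)
    rw [hb1] at x1e
    rw [hb2] at x2e
    have hy1 : (x1 : ℝ) = (g : ℝ) / b * a1 := by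
      rw [div_mul_eq_mul_div, eq_div_iff hb.ne']
      exact_mod_cast x1e.symm.trans hg1
    have hy2 : (x2 : ℝ) = (g : ℝ) / b * a2 := by
      rw [div_mul_eq_mul_div, eq_div_iff hb.ne']
      exact_mod_cast x2e.symm.trans hg2
    rw [hy1, ← mul_assoc] at d1 l1
    rw [hy2, ← mul_assoc] at d2
    refine ⟨μ * ((g : ℝ) / b), ?_, ?_⟩
    · rw [← abs_mul, mul_sub]
      refine (abs_sub_le _ M0 _).trans ?_
      rw [abs_sub_comm M0]
      linarith
    · rw [← Nat.abs_cast a1, ← abs_mul]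
      linarith [pow_pos hQ0 22]

end Vale.Agent.P028.Full
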