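import Vale.Agent.P028.Full.MomentDiv
import Vale.Agent.P028.Lift.StateGain

/-!
Events in which, given one member and the deficiency of the other, each deviation of the other
lies in a set which is sparse in every block.  In a state the first member of the pair is the
variable one: an upward deviation from `A` on is sparse given the downward one; a smaller one
gains when the deviation of the fixed member is above `A ^ 2`; otherwise the downward deviation
is at least `A` and is sparse given the upward one.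
-/

noncomputable section

namespace Vale.Agent.P028.Full

open Finset BilinearAux

open Classical in
/-- The pairs of `E` are sparse in each deviation of the first member. -/
structure SparsePairs (V₀ H : Finset ℕ) (K : ℕ → ℕ) (Y : ℕ) (e0 N0 M0 : ℝ)
    (E : ℕ → ℕ → Prop) : Prop where
  prime_H : ∀ p ∈ H, p.Prime
  mem_H : ∀ v ∈ V₀, ∀ p ∈ v.primeFactors, Y < p → p ∈ H
  centre : ∀ q r, E q r → ∀ p ∈ H, q.factorization p = K p ∨ r.factorization p = K p
  far : ∀ q r, E q r → M0 * hiDef K H q ≤ qd r q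
  up_block : ∀ r ∈ V₀, ∀ (b X g j : ℕ) (T : Finset ℕ),
    (∀ a ∈ T, Nat.log 2 a = j ∧ ∃ q ∈ V₀, E q r ∧ hiDef K H q = b ∧ qd r q = X ∧
      qd q r = g * a) → (T.card : ℝ) ≤ e0 * 2 ^ j + N0
  down_block : ∀ r ∈ V₀, ∀ (b X g j : ℕ) (T : Finset ℕ),
    (∀ l ∈ T, Nat.log 2 l = j ∧ ∃ q ∈ V₀, E q r ∧ hiDef K H q = b ∧ qd q r = X ∧
      qd r q = g * l) → (T.card : ℝ) ≤ e0 * 2 ^ j + N0

theorem pDown_mul {Nh Nl h l : ℕ} (hco : Nat.Coprime Nh Nl) (hh : h ∣ Nh) (hl : l ∣ Nl) :
    Lift.pDown (Nh * Nl) (h * l) = Lift.pDown Nh h * Lift.pDown Nl l := by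
  simp only [Lift.pDown]
  rw [Nat.totient_mul hco, Nat.totient_mul ((hco.coprime_dvd_left hh).coprime_dvd_right hl)]
  push_cast
  ring

/-- A block of numbers from `A` on which holds `e0 * 2 ^ j + N0` of them is sparse. -/
theorem block_absorb {T : Finset ℕ} {A e0 N0 : ℝ} {j : ℕ} (hA : 0 < A) (he : 0 ≤ e0)
    (hN : 0 ≤ N0) (hT : (T.card : ℝ) ≤ e0 * 2 ^ j + N0)
    (hmem : ∀ a ∈ T, Nat.log 2 a = j ∧ A ≤ (a : ℝ)) :
    (T.card : ℝ) ≤ (e0 + 2 * N0 / A) * 2 ^ j := by
  rcases T.eq_empty_or_nonempty with rfl | ⟨a, ha⟩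
  · simp only [Finset.card_empty, Nat.cast_zero]
    positivity
  obtain ⟨h1, h2⟩ := hmem a ha
  have h3 : (a : ℝ) ≤ 2 ^ j * 2 := by
    rw [← pow_succ]
    exact_mod_cast h1 ▸ (Nat.lt_pow_succ_log_self one_lt_two a).le
  refine hT.trans ?_
  rw [add_mul]
  refine add_le_add le_rfl ?_
  rw [div_mul_eq_mul_div, le_div_iff₀ hA]
  calc N0 * A ≤ N0 * (2 ^ j * 2) := mul_le_mul_of_nonneg_left (h2.trans h3) hN
    _ = _ := by ring

open Classical in
/-- The sum over the first members in a state, for a test function on their upward deviations. -/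
theorem sparse_state_sum_le {P S U V W V₀ H : Finset ℕ} {i j k K : ℕ → ℕ} {Y : ℕ}
    {E : ℕ → ℕ → Prop} (h : FinState P S U V W i j) (hV : V ⊆ V₀) {e0 N0 M0 A L : ℝ}
    (hs : SparsePairs V₀ H K Y e0 N0 M0 E) (hA : 1 ≤ A) (hL : 1 ≤ L) (he : 0 ≤ e0) (hN : 0 ≤ N0)
    (hM : A ^ (4 : ℕ) ≤ M0) (hR : (fixedPart (P \ U) j i : ℝ) ≤ A) {r : ℕ} (hr : r ∈ W)
    (hr0 : r ∈ V₀) (V' : Finset ℕ) (hV' : V' ⊆ V)
    (hpair : ∀ q ∈ V', E q r ∧ NoCoDev U (hiOv K H k) q r)
    (Fc : ℕ → ℝ) (hFc : ∀ a, 0 ≤ Fc a) (Pr : ℕ → Prop)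
    (hPr : ∀ q ∈ V', Pr (upDev U (hiOv K H k) q))
    {Cb Cs η D Cd Ct : ℝ} (hCb : 0 ≤ Cb) (hη : 0 ≤ η) (hD0 : 0 ≤ D) (hCd : 0 ≤ Cd)
    (hCt : 0 ≤ Ct)
    (hblock : ∀ (T : Finset ℕ) (e : ℝ), 0 ≤ e → (∀ a ∈ T, 0 < a ∧ Pr a) →
      (∀ l : ℕ, ((T.filter (fun a => Nat.log 2 a = l)).card : ℝ) ≤ e * 2 ^ l) →
      ∑ a ∈ T, Fc a ≤ Cb * e)
    (hall : ∀ T : Finset ℕ, (∀ a ∈ T, 0 < a ∧ Pr a) → ∑ a ∈ T, Fc a ≤ Cs)
    (hsmall : ∀ T : Finset ℕ, A ^ (2 : ℕ) < (upDev U (hiOv K H k) r : ℝ) →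
      (∀ a ∈ T, 0 < a ∧ Pr a ∧ (a : ℝ) < A) → ∑ a ∈ T, Fc a ≤ η)
    (hD : ∀ N : ℕ, 0 < N →
      (Nat.totient N : ℝ) / N * ∑ d ∈ N.divisors, 1 / (Nat.totient d : ℝ) ≤ D)
    (hdownB : ∀ (T : Finset ℕ) (e L : ℝ), 0 ≤ e → 1 ≤ L →
      (∀ d ∈ T, 0 < d ∧ Real.log d ≤ L) →
      (∀ l : ℕ, ((T.filter (fun d => Nat.log 2 d = l)).card : ℝ) ≤ e * 2 ^ l) →
      ∑ d ∈ T, 1 / (Nat.totient d : ℝ) ≤ Cd * e * L ^ 2)
    (htail : ∀ (N Y : ℕ) (T : Finset ℕ) (L : ℝ), 0 < N → (∀ p ∈ N.primeFactors, p ≤ Y) →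
      T ⊆ N.divisors → (∀ d ∈ T, L ≤ Real.log d) →
      ∑ d ∈ T, Lift.pDown N d ≤ Ct * Real.exp (-(L / Real.log (2 + (Y : ℝ)) ^ 2))) :
    ∑ q ∈ V', (Nat.totient (centre U (hiOv K H k)) : ℝ) / centre U (hiOv K H k) /
        Nat.totient (downDev U (hiOv K H k) q) * Fc (upDev U (hiOv K H k) q) ≤
      D * (D * (Cb * (e0 + 2 * N0 / A)) + D * η +
        Cs * (Cd * (e0 + 2 * N0 / A) * L ^ 2 +
          Ct * Real.exp (-(L / Real.log (2 + (Y : ℝ)) ^ 2)))) := by
  set k' := hiOv K H k with hk'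
  have hA0 : 0 < A := by linarith
  set e : ℝ := e0 + 2 * N0 / A with hed
  have he' : 0 ≤ e := by positivity
  have hCs : 0 ≤ Cs := le_trans (by simp) (hall ∅ (by simp))
  have hU := h.prime_U
  have hUh : ∀ p ∈ U ∩ H, p.Prime := fun p hp => hU p (Finset.mem_inter.1 hp).1
  have hUl : ∀ p ∈ U \ H, p.Prime := fun p hp => hU p (Finset.mem_sdiff.1 hp).1
  rcases V'.eq_empty_or_nonempty with rfl | ⟨q0, hq0⟩
  · simp only [Finset.sum_empty]
    positivity
  set Nh := ∏ p ∈ U ∩ H, p ^ K p with hNh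
  set Nl := centre (U \ H) k with hNl
  have hNh0 : 0 < Nh := prodPow_pos hUh _
  have hNl0 : 0 < Nl := prodPow_pos hUl _
  have hco : Nat.Coprime Nh Nl := by
    refine Nat.coprime_prod_left_iff.2 fun p hp => Nat.coprime_prod_right_iff.2 fun q hq => ?_
    exact Nat.Coprime.pow _ _ ((Nat.coprime_primes (hUh p hp) (hUl q hq)).2 fun e =>
      (Finset.mem_sdiff.1 hq).2 (e ▸ (Finset.mem_inter.1 hp).2))
  -- the primes of the free downward deviation are at most `Y`
  have hNlY : ∀ p ∈ Nl.primeFactors, p ≤ Y := by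
    intro p hp
    by_contra hY
    rw [← Nat.support_factorization, Finsupp.mem_support_iff, hNl, centre,
      factorization_prodPow hUl] at hp
    obtain ⟨hpU, hk0⟩ := ite_ne_right_iff.1 hp
    obtain ⟨hpU1, hpU2⟩ := Finset.mem_sdiff.1 hpU
    have hz : ∀ v ∈ V₀, v.factorization p = 0 := fun v hv => by
      by_contra hne
      refine hpU2 (hs.mem_H v hv p ?_ (not_le.1 hY))
      rw [← Nat.support_factorization]
      exact Finsupp.mem_support_iff.2 hne
    rcases (hpair q0 hq0).2 p hpU1 with e1 | e1 <;>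
      simp only [hk', hiOv, if_neg hpU2] at e1
    · rw [hz q0 (hV (hV' hq0))] at e1; exact hk0 e1.symm
    · rw [hz r hr0] at e1; exact hk0 e1.symm
  set hi : ℕ → ℕ := fun q => hiDef K (U ∩ H) q with hhi
  set lo : ℕ → ℕ := fun q => downDev (U \ H) k q with hlo
  set up : ℕ → ℕ := fun q => upDev U k' q with hup
  have hhd : ∀ q, hi q ∣ Nh := fun q =>
    Finset.prod_dvd_prod_of_dvd _ _ fun p _ => pow_dvd_pow _ (Nat.sub_le _ _)
  have hld : ∀ q, lo q ∣ Nl := fun q =>
    Finset.prod_dvd_prod_of_dvd _ _ fun p _ => pow_dvd_pow _ (Nat.sub_le _ _)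
  have hloinj : Set.InjOn (fun q => (hi q, (lo q, up q))) V' := by
    intro q hq q' hq' e
    simp only [Prod.mk.injEq] at e
    refine (dev_injOn h (k := k')).1 (hV' hq) (hV' hq') (Prod.ext e.2.2 ?_)
    simp only [hk', downDev_split]
    simp only [hhi, hlo] at e
    rw [e.1, e.2.1]
  set κ := ∏ p ∈ H \ U, p ^ (K p - i p) with hκ
  have hκ1 : 1 ≤ κ := prodPow_pos (fun p hp => hs.prime_H p (Finset.mem_sdiff.1 hp).1) _
  have hb : ∀ q ∈ V', hiDef K H q = κ * hi q := fun q hq => by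
    rw [hiDef_split U H K q]
    refine congrArg (· * _) (Finset.prod_congr rfl fun p hp => ?_)
    rw [h.V_fix q (hV' hq) p (Finset.mem_sdiff.1 hp).2]
  set R := fixedPart (P \ U) j i with hRd
  set Q := fixedPart (P \ U) i j with hQd
  set c := upDev U k' r with hc
  set dr := downDev U k' r with hdr
  have hqd : ∀ q ∈ V', qd q r = Q * (up q * dr) ∧ qd r q = R * (c * (hi q * lo q)) := by
    intro q hq
    obtain ⟨e1, e2⟩ := qd_eq_of_finState h (hV' hq) hr (hpair q hq).2
    refine ⟨e1, ?_⟩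
    rw [e2, hk', downDev_split]
  -- one value of the high part
  have hinner : ∀ hh : ℕ,
      ∑ z ∈ (V'.filter (fun q => hi q = hh)).image (fun q => (lo q, up q)),
        Lift.pDown Nl z.1 * Fc z.2 ≤
      D * (Cb * e) + D * η +
        Cs * (Cd * e * L ^ 2 + Ct * Real.exp (-(L / Real.log (2 + (Y : ℝ)) ^ 2))) := by
    intro hh
    set Z := (V'.filter (fun q => hi q = hh)).image (fun q => (lo q, up q)) with hZ
    have hp0 : ∀ z : ℕ × ℕ, 0 ≤ Lift.pDown Nl z.1 * Fc z.2 := fun z =>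
      mul_nonneg (div_nonneg (by positivity) (Nat.cast_nonneg _)) (hFc _)
    have hZq : ∀ z ∈ Z, ∃ q ∈ V', hi q = hh ∧ lo q = z.1 ∧ up q = z.2 := fun z hz => by
      obtain ⟨q, hq, rfl⟩ := Finset.mem_image.1 hz
      exact ⟨q, (Finset.mem_filter.1 hq).1, (Finset.mem_filter.1 hq).2, rfl, rfl⟩
    have hl : ∀ z ∈ Z, z.1 ∈ Nl.divisors := fun z hz => by
      obtain ⟨q, -, -, e1, -⟩ := hZq z hz
      exact Nat.mem_divisors.2 ⟨e1 ▸ hld q, hNl0.ne'⟩
    have ha : ∀ z ∈ Z, 0 < z.2 ∧ Pr z.2 := fun z hz => by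
      obtain ⟨q, hq, -, -, e2⟩ := hZq z hz
      exact ⟨e2 ▸ upDev_pos hU k' q, e2 ▸ hPr q hq⟩
    have hbyl : ∀ (Z' : Finset (ℕ × ℕ)) (G : ℝ), Z' ⊆ Z →
        (∀ l : ℕ, ∑ a ∈ (Z'.filter (fun z => z.1 = l)).image Prod.snd, Fc a ≤ G) → 0 ≤ G →
        ∑ z ∈ Z', Lift.pDown Nl z.1 * Fc z.2 ≤ D * G := by
      intro Z' G hsub hG hG0
      rw [← Finset.sum_fiberwise_of_maps_to (g := Prod.fst) (t := Nl.divisors)
        fun z hz => hl z (hsub hz)]
      calc ∑ l ∈ Nl.divisors, ∑ z ∈ Z'.filter (fun z => z.1 = l), Lift.pDown Nl z.1 * Fc z.2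
          ≤ ∑ l ∈ Nl.divisors, Lift.pDown Nl l * G := by
            refine Finset.sum_le_sum fun l _ => ?_
            refine le_trans (le_of_eq ?_) (mul_le_mul_of_nonneg_left (hG l)
              (div_nonneg (by positivity) (Nat.cast_nonneg _)))
            rw [Finset.mul_sum, Finset.sum_image fun z hz z' hz' e => Prod.ext
              ((Finset.mem_filter.1 hz).2.trans (Finset.mem_filter.1 hz').2.symm) e]
            exact Finset.sum_congr rfl fun z hz => by rw [(Finset.mem_filter.1 hz).2]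
        _ = ((Nat.totient Nl : ℝ) / Nl * ∑ d ∈ Nl.divisors, 1 / (Nat.totient d : ℝ)) * G := by
            rw [Finset.mul_sum, Finset.sum_mul]
            exact Finset.sum_congr rfl fun d _ => by rw [Lift.pDown]; ring
        _ ≤ D * G := mul_le_mul_of_nonneg_right (hD Nl hNl0) hG0
    rw [← Finset.sum_filter_add_sum_filter_not Z (fun z => A ≤ (z.2 : ℝ))]
    rw [add_assoc (D * (Cb * e))]
    refine add_le_add (hbyl _ _ (Finset.filter_subset _ _) (fun l => ?_) (by positivity)) ?_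
    · -- a large upward deviation
      refine hblock _ e he' (fun a ha' => ?_) fun l' => block_absorb hA0 he hN ?_ fun a ha' => ?_
      · obtain ⟨z, hz, rfl⟩ := Finset.mem_image.1 ha'
        exact ha z (Finset.mem_filter.1 (Finset.mem_filter.1 hz).1).1
      · refine hs.up_block r hr0 (κ * hh) (R * (c * (hh * l))) (Q * dr) l' _ fun a ha' => ?_
        obtain ⟨ha1, ha2⟩ := Finset.mem_filter.1 ha'
        obtain ⟨z, hz, rfl⟩ := Finset.mem_image.1 ha1
        obtain ⟨hz1, hz2⟩ := Finset.mem_filter.1 hz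
        obtain ⟨q, hq, e1, e2, e3⟩ := hZq z (Finset.mem_filter.1 hz1).1
        refine ⟨ha2, q, hV (hV' hq), (hpair q hq).1, by rw [hb q hq, e1], ?_, ?_⟩
        · rw [(hqd q hq).2, e1, e2, hz2]
        · rw [(hqd q hq).1, e3]; ring
      · obtain ⟨ha1, ha2⟩ := Finset.mem_filter.1 ha'
        obtain ⟨z, hz, rfl⟩ := Finset.mem_image.1 ha1
        exact ⟨ha2, (Finset.mem_filter.1 (Finset.mem_filter.1 hz).1).2⟩
    set Z' := Z.filter (fun z => ¬ A ≤ (z.2 : ℝ)) with hZ'
    rcases lt_or_ge (A ^ (2 : ℕ)) (c : ℝ) with hcbig | hcsmall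
    · -- a large fixed one
      refine le_add_of_le_of_nonneg (hbyl _ _ (Finset.filter_subset _ _) (fun l => ?_) hη)
        (by positivity)
      refine hsmall _ hcbig fun a ha' => ?_
      obtain ⟨z, hz, rfl⟩ := Finset.mem_image.1 ha'
      obtain ⟨hz1, hz2⟩ := Finset.mem_filter.1 (Finset.mem_filter.1 hz).1
      exact ⟨(ha z hz1).1, (ha z hz1).2, not_le.1 hz2⟩
    refine le_add_of_nonneg_of_le (by positivity) ?_
    -- both small: the downward deviation is large
    have hlarge : ∀ z ∈ Z', A ≤ (z.1 : ℝ) := by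
      intro z hz
      obtain ⟨q, hq, e1, e2, -⟩ := hZq z (Finset.mem_filter.1 hz).1
      have hf := hs.far q r (hpair q hq).1
      rw [hb q hq, (hqd q hq).2, e2] at hf
      push_cast at hf
      have hhi0 : (0 : ℝ) < hi q := by
        exact_mod_cast Nat.pos_of_dvd_of_pos (hhd q) hNh0
      have hM0 : 0 ≤ M0 := le_trans (by positivity) hM
      have hκ' : (1 : ℝ) ≤ κ := by exact_mod_cast hκ1
      have h1 : M0 * hi q ≤ (R : ℝ) * ((c : ℝ) * ((hi q : ℝ) * z.1)) := by
        refine le_trans ?_ hf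
        exact mul_le_mul_of_nonneg_left (le_mul_of_one_le_left hhi0.le hκ') hM0
      have h2 : (R : ℝ) * ((c : ℝ) * ((hi q : ℝ) * z.1)) ≤ A * (A ^ 2 * ((hi q : ℝ) * z.1)) :=
        mul_le_mul hR (mul_le_mul_of_nonneg_right hcsmall (by positivity)) (by positivity) hA0.le
      have h3 : A ^ 3 * (hi q : ℝ) * A ≤ A ^ 3 * (hi q : ℝ) * z.1 := by
        calc A ^ 3 * (hi q : ℝ) * A = A ^ (4 : ℕ) * hi q := by ring
          _ ≤ M0 * hi q := mul_le_mul_of_nonneg_right hM hhi0.le
          _ ≤ _ := h1.trans h2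
          _ = _ := by ring
      exact le_of_mul_le_mul_left h3 (by positivity)
    rw [← Finset.sum_fiberwise_of_maps_to (g := Prod.snd) (t := Z'.image Prod.snd)
      fun z hz => Finset.mem_image_of_mem _ hz]
    set G := Cd * e * L ^ 2 + Ct * Real.exp (-(L / Real.log (2 + (Y : ℝ)) ^ 2)) with hGd
    have hG0 : 0 ≤ G := by positivity
    calc ∑ a ∈ Z'.image Prod.snd, ∑ z ∈ Z'.filter (fun z => z.2 = a),
          Lift.pDown Nl z.1 * Fc z.2
        ≤ ∑ a ∈ Z'.image Prod.snd, Fc a * G := by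
          refine Finset.sum_le_sum fun a _ => ?_
          set T := (Z'.filter (fun z => z.2 = a)).image Prod.fst with hT
          have hsum : ∑ d ∈ T, Lift.pDown Nl d ≤ G := by
            have hTd : T ⊆ Nl.divisors := fun d hd => by
              obtain ⟨z, hz, rfl⟩ := Finset.mem_image.1 hd
              exact hl z (Finset.mem_filter.1 (Finset.mem_filter.1 hz).1).1
            rw [← Finset.sum_filter_add_sum_filter_not T (fun d => Real.log (d : ℝ) ≤ L)]
            refine add_le_add ?_ (htail Nl Y _ L hNl0 hNlY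
              ((Finset.filter_subset _ _).trans hTd)
              fun d hd => (not_le.1 (Finset.mem_filter.1 hd).2).le)
            refine le_trans (Finset.sum_le_sum fun d _ => ?_) (hdownB _ e L he' hL (fun d hd =>
              ⟨Nat.pos_of_mem_divisors (hTd (Finset.mem_filter.1 hd).1),
                (Finset.mem_filter.1 hd).2⟩) fun l' => block_absorb hA0 he hN ?_ fun d hd => ?_)
            · exact div_le_div_of_nonneg_right (div_le_one_of_le₀
                (by exact_mod_cast Nat.totient_le _) (Nat.cast_nonneg _)) (Nat.cast_nonneg _)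
            · refine hs.down_block r hr0 (κ * hh) (Q * (a * dr)) (R * (c * hh)) l' _ fun d hd => ?_
              obtain ⟨hd1, hd2⟩ := Finset.mem_filter.1 hd
              obtain ⟨z, hz, rfl⟩ := Finset.mem_image.1 (Finset.mem_filter.1 hd1).1
              obtain ⟨hz1, hz2⟩ := Finset.mem_filter.1 hz
              obtain ⟨q, hq, e1, e2, e3⟩ := hZq z (Finset.mem_filter.1 hz1).1
              refine ⟨hd2, q, hV (hV' hq), (hpair q hq).1, by rw [hb q hq, e1], ?_, ?_⟩
              · rw [(hqd q hq).1, e3, hz2]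
              · rw [(hqd q hq).2, e1, e2]; ring
            · obtain ⟨hd1, hd2⟩ := Finset.mem_filter.1 hd
              obtain ⟨z, hz, rfl⟩ := Finset.mem_image.1 (Finset.mem_filter.1 hd1).1
              exact ⟨hd2, hlarge z (Finset.mem_filter.1 hz).1⟩
          refine le_trans (le_of_eq ?_) (mul_le_mul_of_nonneg_left hsum (hFc a))
          rw [hT, Finset.mul_sum, Finset.sum_image fun z hz z' hz' e => Prod.ext e
            ((Finset.mem_filter.1 hz).2.trans (Finset.mem_filter.1 hz').2.symm)]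
          exact Finset.sum_congr rfl fun z hz => by rw [(Finset.mem_filter.1 hz).2]; ring
      _ = (∑ a ∈ Z'.image Prod.snd, Fc a) * G := (Finset.sum_mul ..).symm
      _ ≤ Cs * G := mul_le_mul_of_nonneg_right (hall _ fun a ha' => by
          obtain ⟨z, hz, rfl⟩ := Finset.mem_image.1 ha'
          exact ha z (Finset.mem_filter.1 hz).1) hG0
  -- all the high parts
  set G := D * (Cb * e) + D * η +
    Cs * (Cd * e * L ^ 2 + Ct * Real.exp (-(L / Real.log (2 + (Y : ℝ)) ^ 2))) with hGd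
  have hG0 : 0 ≤ G := by positivity
  have hcs : centre U k' = Nh * Nl := by rw [hk', centre_split]
  calc ∑ q ∈ V', (Nat.totient (centre U k') : ℝ) / centre U k' /
        Nat.totient (downDev U k' q) * Fc (upDev U k' q)
      = ∑ q ∈ V', Lift.pDown Nh (hi q) * (Lift.pDown Nl (lo q) * Fc (up q)) := by
        refine Finset.sum_congr rfl fun q _ => ?_
        rw [← mul_assoc, ← pDown_mul hco (hhd q) (hld q), Lift.pDown, hcs]
        congr 3
        rw [hk', downDev_split]
    _ = ∑ hh ∈ Nh.divisors, Lift.pDown Nh hh *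
          ∑ z ∈ (V'.filter (fun q => hi q = hh)).image (fun q => (lo q, up q)),
            Lift.pDown Nl z.1 * Fc z.2 := by
        rw [← Finset.sum_fiberwise_of_maps_to (g := hi) (t := Nh.divisors)
          fun q _ => Nat.mem_divisors.2 ⟨hhd q, hNh0.ne'⟩]
        refine Finset.sum_congr rfl fun hh _ => ?_
        rw [Finset.sum_image fun q hq q' hq' e => hloinj (Finset.mem_filter.1 hq).1
          (Finset.mem_filter.1 hq').1 (Prod.ext
            ((Finset.mem_filter.1 hq).2.trans (Finset.mem_filter.1 hq').2.symm) e), Finset.mul_sum]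
        exact Finset.sum_congr rfl fun q hq => by rw [(Finset.mem_filter.1 hq).2]
    _ ≤ ∑ hh ∈ Nh.divisors, Lift.pDown Nh hh * G :=
        Finset.sum_le_sum fun hh _ => mul_le_mul_of_nonneg_left (hinner hh)
          (div_nonneg (by positivity) (Nat.cast_nonneg _))
    _ = ((Nat.totient Nh : ℝ) / Nh * ∑ d ∈ Nh.divisors, 1 / (Nat.totient d : ℝ)) * G := by
        rw [Finset.mul_sum, Finset.sum_mul]
        exact Finset.sum_congr rfl fun d _ => by rw [Lift.pDown]; ring
    _ ≤ D * G := mul_le_mul_of_nonneg_right (hD Nh hNh0) hG0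

open Classical in
/-- Pairs of level at most `x` which are sparse in each deviation of the first member. -/
theorem exists_sparsePairs_le (ξ : ℝ) (hξ : 0 < ξ) (hξ1 : ξ ≤ 1 / 100) :
    ∃ B : ℝ, 0 ≤ B ∧ ∀ (f : ℕ → ℝ) (V₀ H : Finset ℕ) (K : ℕ → ℕ) (Y : ℕ)
      (x A L e0 N0 M0 : ℝ) (E : ℕ → ℕ → Prop),
      (∀ v ∈ V₀, 0 < v) → (∀ q, 0 ≤ f q) → 0 < x → 1 ≤ A → 1 ≤ L → 0 ≤ e0 → 0 ≤ N0 →
      A ^ (4 : ℕ) ≤ M0 → SparsePairs V₀ H K Y e0 N0 M0 E →
      ∑ q ∈ V₀, ∑ r ∈ V₀.filter (fun r => dist2' f f q r ≤ x ∧ E q r), wt f q * wt f r ≤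
        B * (A ^ (-evSlack ξ) + (e0 + N0 / A) * L ^ 2 +
          Real.exp (-(L / Real.log (2 + (Y : ℝ)) ^ 2))) ^ (1 / 3 : ℝ) * x ^ (1 - ξ) *
          massFac ξ (mass f V₀) (mass f V₀) := by
  obtain ⟨C, hC0, hC⟩ := exists_event_override_le ξ hξ hξ1
  obtain ⟨D₀, hD₀⟩ := exists_centre_sum_le
  set D := max D₀ 1 with hDd
  have hD1 : 1 ≤ D := le_max_right _ _
  have hD : ∀ N : ℕ, 0 < N →
      (Nat.totient N : ℝ) / N * ∑ d ∈ N.divisors, 1 / (Nat.totient d : ℝ) ≤ D :=
    fun N hN => (hD₀ N hN).trans (le_max_left _ _)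
  set s := evLow ξ with hsd
  set t := evHigh ξ with htd
  have h1 : 0 < 1 - ξ := by linarith
  have hs0 : 0 < s := by rw [hsd, evLow, alphaX]; apply div_pos <;> linarith
  have hs1 : s < 1 := by rw [hsd, evLow, alphaX, div_lt_one h1]; linarith
  have ht1 : 1 < t := by rw [htd, evHigh, one_lt_div h1]; linarith
  obtain ⟨Cb1, hCb1, hbelow⟩ := Lift.exists_block_below_le s hs0 hs1
  obtain ⟨Cb2, hCb2, habove⟩ := Lift.exists_block_above_le t ht1
  obtain ⟨Cd, hCd, hdownB⟩ := Lift.exists_block_down_le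
  obtain ⟨Ct, hCt, htail⟩ := Lift.exists_down_tail_le
  set Cs : ℝ := max (1 / (1 - s)) (1 + 1 / (t - 1)) with hCs
  have hCs0 : 0 ≤ Cs := le_trans (div_nonneg zero_le_one (by linarith)) (le_max_left _ _)
  set Cb := max Cb1 Cb2 with hCb
  have hCb0 : 0 ≤ Cb := hCb1.le.trans (le_max_left _ _)
  set B0 := 1 + 2 * (D * (D * Cb + D * Cs + Cs * (Cd + Ct))) with hB0
  have hB01 : 1 ≤ B0 := by rw [hB0]; exact le_add_of_nonneg_right (by positivity)
  refine ⟨C * B0 ^ (1 / 3 : ℝ), by positivity, ?_⟩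
  intro f V₀ H K Y x A L e0 N0 M0 E hpos hf hx hA hL he hN hM hs
  have hA0 : 0 < A := by linarith
  set E2 := Real.exp (-(L / Real.log (2 + (Y : ℝ)) ^ 2)) with hE2
  have hE20 : 0 ≤ E2 := (Real.exp_pos _).le
  set gg := A ^ (-evSlack ξ) + (e0 + N0 / A) * L ^ 2 + E2 with hgg
  have hAp : 0 ≤ A ^ (-evSlack ξ) := Real.rpow_nonneg hA0.le _
  have heL : 0 ≤ (e0 + N0 / A) * L ^ 2 := by positivity
  have hgg0 : 0 ≤ gg := by positivity
  set g := min 1 (B0 * gg) with hg
  have hg0 : 0 ≤ g := le_min zero_le_one (by positivity)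
  -- both orientations
  have hside : ∀ {P S U V W : Finset ℕ} {i j k : ℕ → ℕ}, FinState P S U V W i j → V ⊆ V₀ →
      W ⊆ V₀ → B0 * gg < 1 → (fixedPart (P \ U) j i : ℝ) ≤ A → ∀ r ∈ W, ∀ V' : Finset ℕ,
      V' ⊆ V → (∀ q ∈ V', E q r ∧ NoCoDev U (hiOv K H k) q r) →
      ((∀ q ∈ V', upDev U (hiOv K H k) q ≤ upDev U (hiOv K H k) r) →
        ∑ q ∈ V', sideW U (hiOv K H k) s r q ≤ g) ∧
      ((∀ q ∈ V', upDev U (hiOv K H k) r ≤ upDev U (hiOv K H k) q) →
        ∑ q ∈ V', sideW U (hiOv K H k) t r q ≤ g) := by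
    intro P S U V W i j k h hV hW hsmallg hR r hr V' hV' hpair
    set c := upDev U (hiOv K H k) r with hc
    have hc0 : 0 < c := upDev_pos h.prime_U _ _
    have hc' : (0 : ℝ) < c := by exact_mod_cast hc0
    have hfin : ∀ η : ℝ, η ≤ Cs * A ^ (-evSlack ξ) →
        D * (D * (Cb * (e0 + 2 * N0 / A)) + D * η +
          Cs * (Cd * (e0 + 2 * N0 / A) * L ^ 2 + Ct * E2)) ≤ g := by
      intro η hη
      rw [hg, min_eq_right hsmallg.le, hB0, hgg]
      have hL2 : 1 ≤ L ^ 2 := one_le_pow₀ hL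
      have he2 : e0 + 2 * N0 / A ≤ 2 * ((e0 + N0 / A) * L ^ 2) := by
        have h0 : 0 ≤ e0 + N0 / A := by positivity
        have := le_mul_of_one_le_right h0 hL2
        rw [show 2 * N0 / A = 2 * (N0 / A) by ring]
        linarith
      have he3 : (e0 + 2 * N0 / A) * L ^ 2 ≤ 2 * ((e0 + N0 / A) * L ^ 2) := by
        rw [← mul_assoc]
        refine mul_le_mul_of_nonneg_right ?_ (sq_nonneg _)
        rw [show 2 * N0 / A = 2 * (N0 / A) by ring]
        linarith
      set G := A ^ (-evSlack ξ) + (e0 + N0 / A) * L ^ 2 + E2 with hG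
      have g1 : A ^ (-evSlack ξ) ≤ G := by linarith
      have g2 : (e0 + N0 / A) * L ^ 2 ≤ G := by linarith
      have g3 : E2 ≤ G := by linarith
      have k1 : D * (Cb * (e0 + 2 * N0 / A)) ≤ D * (Cb * (2 * G)) := by gcongr; linarith
      have k2 : D * η ≤ D * (Cs * (2 * G)) :=
        mul_le_mul_of_nonneg_left (hη.trans (mul_le_mul_of_nonneg_left (by linarith) hCs0))
          (by linarith)
      have k3 : Cs * (Cd * (e0 + 2 * N0 / A) * L ^ 2 + Ct * E2) ≤
          Cs * (Cd * (2 * G) + Ct * (2 * G)) := by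
        refine mul_le_mul_of_nonneg_left (add_le_add ?_ ?_) hCs0
        · rw [mul_assoc]; exact mul_le_mul_of_nonneg_left (by linarith) hCd.le
        · exact mul_le_mul_of_nonneg_left (by linarith) hCt.le
      calc D * (D * (Cb * (e0 + 2 * N0 / A)) + D * η +
            Cs * (Cd * (e0 + 2 * N0 / A) * L ^ 2 + Ct * E2))
          ≤ D * (D * (Cb * (2 * G)) + D * (Cs * (2 * G)) +
              Cs * (Cd * (2 * G) + Ct * (2 * G))) :=
            mul_le_mul_of_nonneg_left (by linarith) (by linarith)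
        _ ≤ _ := by
            have e : D * (D * (Cb * (2 * G)) + D * (Cs * (2 * G)) +
                Cs * (Cd * (2 * G) + Ct * (2 * G))) =
                2 * (D * (D * Cb + D * Cs + Cs * (Cd + Ct))) * G := by ring
            rw [e, one_add_mul]
            exact le_add_of_nonneg_left (by linarith)
    have hη0 : (0 : ℝ) ≤ Cs * A ^ (-evSlack ξ) := by positivity
    refine ⟨fun hle => ?_, fun hle => ?_⟩
    · refine le_trans (sparse_state_sum_le h hV hs hA hL he hN hM hR hr (hW hr) V' hV' hpair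
        (fun a => ((c : ℝ) / a) ^ s / c) (fun a => by positivity) (fun a => a ≤ c) hle hCb0
        hη0 (by linarith) hCd.le hCt.le ?_ ?_ ?_ hD hdownB htail (Cs := Cs)) (hfin _ le_rfl)
      · intro T e he' hT hb
        exact (hbelow c T e hc0 he' hT hb).trans
          (mul_le_mul_of_nonneg_right (le_max_left _ _) he')
      · intro T hT
        rw [← Finset.sum_div, div_le_iff₀ hc']
        refine (sum_small_le hs0 hs1 hc' _ fun a ha =>
          ⟨(hT a ha).1, by exact_mod_cast (hT a ha).2⟩).trans ?_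
        rw [← one_div_mul_eq_div]
        exact mul_le_mul_of_nonneg_right (le_max_left _ _) hc'.le
      · intro T hbig hT
        have hbig' : A ^ 2 < (c : ℝ) := hbig
        calc ∑ a ∈ T, ((c : ℝ) / a) ^ s / c
            = ((c : ℝ) / A) ^ s / c * ∑ a ∈ T, (A / a) ^ s := by
              rw [Finset.mul_sum]
              refine Finset.sum_congr rfl fun a ha => ?_
              have : (0 : ℝ) < a := by exact_mod_cast (hT a ha).1
              rw [div_mul_eq_mul_div, ← Real.mul_rpow (by positivity) (by positivity)]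
              congr 2
              field_simp
          _ ≤ ((c : ℝ) / A) ^ s / c * (A / (1 - s)) :=
              mul_le_mul_of_nonneg_left (sum_small_le hs0 hs1 hA0 _ fun a ha =>
                ⟨(hT a ha).1, (hT a ha).2.2.le⟩) (by positivity)
          _ = ((c : ℝ) / A) ^ (-(1 - s)) * (1 / (1 - s)) := by
              rw [show -(1 - s) = s - 1 by ring, Real.rpow_sub_one (by positivity)]
              field_simp
          _ ≤ A ^ (-evSlack ξ) * Cs := by
              refine mul_le_mul ?_ (le_max_left _ _) (div_nonneg zero_le_one (by linarith)) hAp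
              calc ((c : ℝ) / A) ^ (-(1 - s)) ≤ A ^ (-(1 - s)) := by
                    refine Real.rpow_le_rpow_of_nonpos hA0 ?_ (by linarith)
                    rw [le_div_iff₀ hA0, ← sq]
                    exact hbig'.le
                _ ≤ _ := by
                    refine Real.rpow_le_rpow_of_exponent_le hA (neg_le_neg ?_)
                    rw [hsd, evLow, alphaX, evSlack, le_sub_iff_add_le, ← le_sub_iff_add_le',
                      div_le_iff₀ h1]
                    nlinarith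
          _ = _ := mul_comm _ _
    · refine le_trans (sparse_state_sum_le h hV hs hA hL he hN hM hR hr (hW hr) V' hV' hpair
        (fun a => ((c : ℝ) / a) ^ t / c) (fun a => by positivity) (fun a => c ≤ a) hle hCb0
        hη0 (by linarith) hCd.le hCt.le ?_ ?_ ?_ hD hdownB htail (Cs := Cs)) (hfin _ le_rfl)
      · intro T e he' hT hb
        exact (habove c T e hc0 he' (fun a ha => (hT a ha).2) hb).trans
          (mul_le_mul_of_nonneg_right (le_max_right _ _) he')
      · intro T hT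
        rw [← Finset.sum_div, div_le_iff₀ hc']
        refine (sum_tail_le ht1 hc' _ fun a ha =>
          ⟨(hT a ha).1, by exact_mod_cast (hT a ha).2⟩).trans ?_
        exact mul_le_mul_of_nonneg_right (le_max_right _ _) hc'.le
      · intro T hbig hT
        rw [Finset.sum_eq_zero fun a ha => ?_]
        · exact hη0
        · exfalso
          obtain ⟨-, h2, h3⟩ := hT a ha
          have h4 : (c : ℝ) ≤ a := by exact_mod_cast h2
          have h5 : A ^ 2 < (c : ℝ) := hbig
          have h6 := mul_le_mul_of_nonneg_left hA hA0.le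
          rw [sq] at h5
          linarith
  have hslack : ∀ {P S U V W : Finset ℕ} {i j : ℕ → ℕ}, FinState P S U V W i j →
      (B0 * gg < 1 ∧ (fixedPart (P \ U) i j : ℝ) ≤ A ∧ (fixedPart (P \ U) j i : ℝ) ≤ A) ∨
      ((fixedPart (P \ U) i j * fixedPart (P \ U) j i : ℕ) : ℝ) ^ (-evSlack ξ) ≤ g := by
    intro P S U V W i j h
    have p1 := fixedPart_pos h.prime_sdiff i j
    have p2 := fixedPart_pos h.prime_sdiff j i
    set QR : ℝ := ((fixedPart (P \ U) i j * fixedPart (P \ U) j i : ℕ) : ℝ) with hQR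
    have hQR1 : 1 ≤ QR := by rw [hQR]; exact_mod_cast Nat.mul_pos p1 p2
    have hneg : QR ^ (-evSlack ξ) ≤ 1 :=
      Real.rpow_le_one_of_one_le_of_nonpos hQR1 (by rw [evSlack]; linarith)
    rcases le_or_gt 1 (B0 * gg) with hb | hb
    · exact Or.inr (by rw [hg, min_eq_left hb]; exact hneg)
    rcases le_or_gt QR A with hQ | hQ
    · refine Or.inl ⟨hb, le_trans ?_ hQ, le_trans ?_ hQ⟩
      · rw [hQR]; exact_mod_cast Nat.le_mul_of_pos_right _ p2
      · rw [hQR]; exact_mod_cast Nat.le_mul_of_pos_left _ p1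
    refine Or.inr ?_
    rw [hg, min_eq_right hb.le]
    refine (Real.rpow_le_rpow_of_nonpos hA0 hQ.le (by rw [evSlack]; linarith)).trans ?_
    exact (show A ^ (-evSlack ξ) ≤ gg by linarith).trans (le_mul_of_one_le_left hgg0 hB01)
  have hmain := hC f f V₀ V₀ x g E (hiOv K H) hpos hpos hf hf hx hg0 (min_le_left _ _)
    (fun U k _ v _ w _ hE hk p hp => by
      unfold hiOv
      split_ifs with hpH
      · exact hs.centre v w hE p hpH
      · exact hk p hp)
    (fun P S U V W i j k h hV hW => by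
      rcases hslack h with ⟨hsm, -, hR⟩ | hle
      swap
      · exact Or.inl hle
      refine Or.inr ⟨fun _ _ => False, fun v _ => ?_, fun w hw => ?_⟩
      · rw [Finset.sum_eq_zero fun a ha => ?_]
        · exact hg0
        · simp only [Finset.mem_filter] at ha
          exact ha.2.2.1.elim
      · refine (hside (k := k) h hV hW hsm hR w hw _ (fun a ha => by
          simp only [Finset.mem_filter] at ha; exact ha.1) fun q hq => ?_).2 fun q hq => ?_
        · simp only [Finset.mem_filter] at hq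
          exact ⟨hq.2.1, hq.2.2.2.1⟩
        · simp only [Finset.mem_filter] at hq
          exact hq.2.2.2.2.2)
    (fun P S U V W i j k h hV hW => by
      rcases hslack h with ⟨hsm, hR, -⟩ | hle
      swap
      · exact Or.inl hle
      refine Or.inr ⟨fun _ _ => True, fun v hv => ?_, fun w _ => ?_⟩
      · refine (hside (k := k) h.symm hW hV hsm hR v hv _ (fun a ha => by
          simp only [Finset.mem_filter] at ha; exact ha.1) fun q hq => ?_).1 fun q hq => ?_
        · simp only [Finset.mem_filter] at hq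
          exact ⟨hq.2.1, fun p hp => (hq.2.2.2.1 p hp).symm⟩
        · simp only [Finset.mem_filter] at hq
          exact hq.2.2.2.2.2
      · rw [Finset.sum_eq_zero fun a ha => ?_]
        · exact hg0
        · simp only [Finset.mem_filter] at ha
          exact absurd trivial ha.2.2.1)
  have hmf : 0 ≤ massFac ξ (mass f V₀) (mass f V₀) := by
    have := BilinearAux.mass_nonneg hf V₀
    rw [massFac]; positivity
  have hle : g ^ (1 / 3 : ℝ) ≤ B0 ^ (1 / 3 : ℝ) * gg ^ (1 / 3 : ℝ) :=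
    (Real.rpow_le_rpow hg0 (min_le_right _ _) (by norm_num)).trans_eq
      (Real.mul_rpow (by linarith) hgg0)
  refine hmain.trans ?_
  calc C * g ^ (1 / 3 : ℝ) * x ^ (1 - ξ) * massFac ξ (mass f V₀) (mass f V₀)
      ≤ C * (B0 ^ (1 / 3 : ℝ) * gg ^ (1 / 3 : ℝ)) * x ^ (1 - ξ) *
          massFac ξ (mass f V₀) (mass f V₀) := by gcongr
    _ = _ := by ring

end Vale.Agent.P028.Full
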