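import Vale.Agent.P028.Full.Moment.Defs
import Vale.Agent.P028.Full.Moment.Nodes
import Vale.Agent.P028.Full.Moment.Points
import Vale.Agent.P028.Full.Pools
import Vale.Agent.P028.Full.Moment.SparseState
import Mathlib.Analysis.SpecificLimits.Normed

/-!
An event is small when, for each node of the first member, each of the two deviations of the first
member lies in a set of density `Q ^ (-2)` plus one in every block, given the second member.
-/

noncomputable section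

namespace Vale.Agent.P028.Full

open Finset BilinearAux

/-- A node is the same at comparable radii. -/
theorem IsNode.eq_of_le_two {β η η' : ℝ} {u u' : ℤ} {P P' : ℕ} (h : IsNode β η u P)
    (h' : IsNode β η' u' P') (h1 : η ≤ 2 * η') (h2 : η' ≤ 2 * η) : u = u' ∧ P = P' := by
  obtain ⟨hP, hc, a1, a2⟩ := h
  obtain ⟨hP', hc', b1, b2⟩ := h'
  have hη : 0 < η := by linarith [sq_nonneg (η * P)]
  have hη' : 0 < η' := by linarith [sq_nonneg (η' * P')]
  set e := (P : ℝ) * β - u with he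
  set e' := (P' : ℝ) * β - u' with he'
  have hbd : ∀ (η η' : ℝ) (P : ℕ) (e' : ℝ), 0 < η → η' ≤ 2 * η → (η * P) ^ 2 < η / 64 →
      e' ^ 2 < η' / 64 → |(P : ℝ) * e'| < 1 / 4 := by
    intro η η' P e' hη h a b
    have hP2 : η * (P : ℝ) ^ 2 < 1 / 64 := by
      refine lt_of_mul_lt_mul_left ?_ hη.le
      calc η * (η * (P : ℝ) ^ 2) = (η * P) ^ 2 := by ring
        _ < η / 64 := a
        _ = _ := by ring
    refine abs_lt_of_sq_lt_sq ?_ (by norm_num)
    calc ((P : ℝ) * e') ^ 2 = (P : ℝ) ^ 2 * e' ^ 2 := mul_pow _ _ _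
      _ ≤ (P : ℝ) ^ 2 * (η / 32) := mul_le_mul_of_nonneg_left (by linarith) (sq_nonneg _)
      _ = η * (P : ℝ) ^ 2 / 32 := by ring
      _ < _ := by linarith
  have key : |((u * P' - u' * P : ℤ) : ℝ)| < 1 := by
    have hid : ((u * P' - u' * P : ℤ) : ℝ) = (P : ℝ) * e' - (P' : ℝ) * e := by
      simp only [he, he']; push_cast; ring
    rw [hid]
    linarith [abs_sub ((P : ℝ) * e') ((P' : ℝ) * e), hbd η η' P e' hη h2 a1 b2,
      hbd η' η P' e hη' h1 b1 a2]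
  have hz : u * P' = u' * P := sub_eq_zero.1 (Int.abs_lt_one_iff.1 (by exact_mod_cast key))
  have d1 : (P : ℤ) ∣ P' := hc.symm.dvd_of_dvd_mul_left ⟨u', by rw [hz]; ring⟩
  have d2 : (P' : ℤ) ∣ P := hc'.symm.dvd_of_dvd_mul_left ⟨u, by rw [← hz]; ring⟩
  have hPP : P = P' := Nat.dvd_antisymm (Int.natCast_dvd_natCast.1 d1) (Int.natCast_dvd_natCast.1 d2)
  subst hPP
  exact ⟨mul_right_cancel₀ (by exact_mod_cast hP.ne') hz, rfl⟩

open Classical in
/-- The moduli of one deficiency with radii in `[lo, hi]` have few nodes. -/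
theorem Ctx.card_nodes_le (C : Ctx) {I b : ℕ} {lo hi : ℝ} (hlo : 0 < lo) (hhi : lo ≤ hi)
    (T : Finset ℕ)
    (hT : ∀ q ∈ T, C.def' I q = b ∧ 0 < (C.node I q).2 ∧ lo ≤ C.ψ q ∧ C.ψ q ≤ hi) :
    ((T.image (C.node I)).card : ℝ) ≤ Real.logb 2 (hi / lo) + 2 := by
  set cl : ℕ → ℤ := fun q => ⌊Real.logb 2 (C.ψ q)⌋ with hcl
  have hsame : ∀ q ∈ T, ∀ q' ∈ T, cl q = cl q' → C.node I q = C.node I q' := by
    intro q hq q' hq' e
    obtain ⟨eb, hP, h1, -⟩ := hT q hq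
    obtain ⟨eb', hP', h1', -⟩ := hT q' hq'
    have hq0 : 0 < C.ψ q := hlo.trans_le h1
    have hq0' : 0 < C.ψ q' := hlo.trans_le h1'
    have hn := isNode_nodeOf hP
    have hn' := isNode_nodeOf hP'
    rw [Ctx.rad, eb] at hn
    rw [Ctx.rad, eb'] at hn'
    have hle : ∀ a c : ℕ, 0 < C.ψ a → 0 < C.ψ c → cl a = cl c → C.ψ a ≤ 2 * C.ψ c := by
      intro a c ha hc e
      have e1 := Int.floor_le (Real.logb 2 (C.ψ c))
      have e2 := Int.lt_floor_add_one (Real.logb 2 (C.ψ a))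
      simp only [hcl] at e
      rw [e] at e2
      refine (Real.logb_le_logb one_lt_two ha (by positivity)).1 ?_
      rw [Real.logb_mul (by norm_num) hc.ne', Real.logb_self_eq_one one_lt_two]
      linarith
    have hb0 : (0 : ℝ) ≤ (b : ℝ) := Nat.cast_nonneg _
    obtain ⟨e1, e2⟩ := hn.eq_of_le_two hn'
      (by rw [← mul_assoc]; exact mul_le_mul_of_nonneg_right (hle q q' hq0 hq0' e) hb0)
      (by rw [← mul_assoc]; exact mul_le_mul_of_nonneg_right (hle q' q hq0' hq0 e.symm) hb0)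
    rw [Ctx.node, Ctx.node, Ctx.rad, Ctx.rad, eb, eb']
    exact Prod.ext e1 e2
  set S := Finset.Icc ⌊Real.logb 2 lo⌋ ⌊Real.logb 2 hi⌋ with hS
  have hcard : (T.image (C.node I)).card ≤ S.card := by
    calc (T.image (C.node I)).card ≤ (T.image cl).card := by
          refine Finset.card_le_card_of_forall_subsingleton
            (fun z m => ∃ q ∈ T, C.node I q = z ∧ cl q = m) (fun z hz => ?_) fun m _ => ?_
          · obtain ⟨q, hq, rfl⟩ := Finset.mem_image.1 hz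
            exact ⟨cl q, Finset.mem_image_of_mem _ hq, q, hq, rfl, rfl⟩
          · intro z hz z' hz'
            simp only [Set.mem_ofPred_eq] at hz hz'
            obtain ⟨-, q, hq, rfl, hm⟩ := hz
            obtain ⟨-, q', hq', rfl, hm'⟩ := hz'
            exact hsame q hq q' hq' (hm.trans hm'.symm)
      _ ≤ S.card := by
          refine Finset.card_le_card fun m hm => ?_
          obtain ⟨q, hq, rfl⟩ := Finset.mem_image.1 hm
          obtain ⟨-, -, h1, h2⟩ := hT q hq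
          exact Finset.mem_Icc.2
            ⟨Int.floor_le_floor (Real.logb_le_logb_of_le one_lt_two hlo h1),
              Int.floor_le_floor (Real.logb_le_logb_of_le one_lt_two (hlo.trans_le h1) h2)⟩
  refine (Nat.cast_le.2 hcard).trans ?_
  have hm := Int.floor_le_floor (Real.logb_le_logb_of_le one_lt_two hlo hhi)
  have e : ((S.card : ℕ) : ℤ) = ⌊Real.logb 2 hi⌋ + 1 - ⌊Real.logb 2 lo⌋ := by
    rw [hS, Int.card_Icc, Int.toNat_of_nonneg (by omega)]
  have e' : ((S.card : ℕ) : ℝ) = (⌊Real.logb 2 hi⌋ : ℝ) + 1 - ⌊Real.logb 2 lo⌋ := by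
    exact_mod_cast e
  rw [e', Real.logb_div (hlo.trans_le hhi).ne' hlo.ne']
  linarith [Int.floor_le (Real.logb 2 hi), Int.lt_floor_add_one (Real.logb 2 lo)]

/-- A number of the block `j` is below `2 ^ (j + 1)`. -/
theorem le_of_log_eq {a j : ℕ} (h : Nat.log 2 a = j) : (a : ℝ) ≤ 2 * 2 ^ j := by
  rw [← pow_succ']
  exact_mod_cast h ▸ (Nat.lt_pow_succ_log_self one_lt_two a).le

/-- A number of the block `j` is at least `2 ^ j`. -/
theorem pow_le_of_log_eq {a j : ℕ} (ha : 0 < a) (h : Nat.log 2 a = j) : (2 : ℝ) ^ j ≤ a := by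
  exact_mod_cast h ▸ Nat.pow_log_le_self 2 ha.ne'

theorem qI_eq (I : ℕ) : qI I = (2 : ℝ) ^ (2 ^ (I / 8) : ℕ) := by
  simp [qI, bandZ]

theorem one_le_bandZ (j : ℕ) : (1 : ℝ) ≤ (bandZ j : ℝ) := by
  exact_mod_cast Nat.one_le_two_pow

theorem one_le_qI (I : ℕ) : 1 ≤ qI I := one_le_bandZ _

/-- `Z (I / 32) ^ n ≤ Q` for large `I`. -/
theorem bandZ_pow_le_qI {I n : ℕ} (hn : n ≤ 32768) (hI : 256 ≤ I) :
    (bandZ (I / 32) : ℝ) ^ n ≤ qI I := by
  rw [qI_eq, bandZ, Nat.cast_pow, Nat.cast_ofNat, ← pow_mul]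
  refine pow_le_pow_right₀ one_le_two ?_
  calc 2 ^ (I / 32) * n ≤ 2 ^ (I / 32) * 2 ^ 15 := Nat.mul_le_mul_left _ (by norm_num; omega)
    _ = 2 ^ (I / 32 + 15) := (pow_add _ _ _).symm
    _ ≤ 2 ^ (I / 8) := Nat.pow_le_pow_right (by norm_num) (by omega)

/-- The hypotheses on the numbers at a large index. -/
theorem exists_index_le (M : ℕ) : ∃ I0 : ℕ, 256 ≤ I0 ∧ ∀ I : ℕ, I0 ≤ I → ∀ P : Par, P.M = M →
    (4 : ℝ) ≤ qI I ∧ 12 * ((2 ^ (I / 8) : ℕ) : ℝ) + 4 ≤ qI I ∧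
    qI I ^ (18 : ℕ) ≤ Real.sqrt (bandZ I) ∧
    Real.exp (-(qI I ^ (1 / 4 : ℝ) / Real.log (2 + (P.thr I : ℝ)) ^ 2)) ≤ (qI I)⁻¹ := by
  have hev : ∀ᶠ t : ℕ in Filter.atTop, ((256 * ((M : ℝ) + 1) + 2) ^ 2 + 40) * (t : ℝ) ^ 17 ≤
      ((2 : ℝ) ^ (1 / 4 : ℝ)) ^ t := by
    have h := (isLittleO_pow_const_const_pow_of_one_lt (R := ℝ) 17
      (Real.one_lt_rpow one_lt_two (by norm_num) : (1 : ℝ) < 2 ^ (1 / 4 : ℝ))).def
      (inv_pos.2 (show (0 : ℝ) < (256 * ((M : ℝ) + 1) + 2) ^ 2 + 40 by positivity))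
    filter_upwards [h] with t ht
    rw [Real.norm_of_nonneg (by positivity), Real.norm_of_nonneg (by positivity),
      inv_mul_eq_div, le_div_iff₀ (by positivity)] at ht
    rw [mul_comm]
    exact ht
  obtain ⟨T0, hT0⟩ := Filter.eventually_atTop.1 hev
  refine ⟨max 256 (8 * T0), le_max_left _ _, fun I hI P hP => ?_⟩
  have hI1 : 256 ≤ I := le_of_max_le_left hI
  have hI2 : 8 * T0 ≤ I := le_of_max_le_right hI
  set t : ℕ := 2 ^ (I / 8) with ht
  have htT : T0 ≤ t := (by omega : T0 ≤ I / 8).trans Nat.lt_two_pow_self.le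
  have ht1 : (1 : ℝ) ≤ t := by exact_mod_cast Nat.one_le_two_pow
  set Cm : ℝ := 256 * ((M : ℝ) + 1) + 2 with hCm
  have hbig := hT0 t htT
  set L : ℝ := qI I ^ (1 / 4 : ℝ) with hL
  have hLt : ((2 : ℝ) ^ (1 / 4 : ℝ)) ^ t = L := by
    rw [hL, qI_eq, ← ht, ← Real.rpow_natCast, ← Real.rpow_natCast (2 : ℝ),
      ← Real.rpow_mul zero_le_two, ← Real.rpow_mul zero_le_two, mul_comm]
  rw [hLt] at hbig
  have hQ1 := one_le_qI I
  have hLQ : L ≤ qI I := Real.rpow_le_self_of_one_le hQ1 (by norm_num)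
  have h17 : (t : ℝ) ≤ (t : ℝ) ^ 17 := le_self_pow₀ ht1 (by norm_num)
  have hCm0 : 0 ≤ Cm := by positivity
  have h40 : 40 * (t : ℝ) ≤ L := by
    refine le_trans ?_ hbig
    exact mul_le_mul (le_add_of_nonneg_left (sq_nonneg _)) h17 (by positivity) (by positivity)
  refine ⟨by linarith, by linarith, ?_, ?_⟩
  · rw [qI_eq, ← ht, ← pow_mul, show I = (I - 1) + 1 by omega, bandZ_eq, Nat.cast_pow,
      Real.sqrt_sq (Nat.cast_nonneg _), bandZ, Nat.cast_pow, Nat.cast_ofNat]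
    refine pow_le_pow_right₀ one_le_two ?_
    rw [ht]
    calc 2 ^ (I / 8) * 18 ≤ 2 ^ (I / 8) * 2 ^ 5 := Nat.mul_le_mul_left _ (by norm_num)
      _ = 2 ^ (I / 8 + 5) := (pow_add _ _ _).symm
      _ ≤ 2 ^ (I - 1) := Nat.pow_le_pow_right (by norm_num) (by omega)
  · set l := Real.log (2 + (P.thr I : ℝ)) with hl
    have hl0 : 0 < l := Real.log_pos (by linarith [(P.thr I).cast_nonneg (α := ℝ)])
    have hthr : (P.thr I : ℝ) = (2 : ℝ) ^ (2 ^ (I + 1) * M) := by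
      simp [Par.thr, bandZ, hP, pow_mul]
    have hlle : l ≤ Cm * (t : ℝ) ^ 8 := by
      have hY1 : (1 : ℝ) ≤ (2 : ℝ) ^ (2 ^ (I + 1) * M) := one_le_pow₀ one_le_two
      have h1 : l ≤ Real.log (4 * (2 : ℝ) ^ (2 ^ (I + 1) * M)) := by
        rw [hl, hthr]
        exact Real.log_le_log (by linarith) (by linarith)
      rw [Real.log_mul (by norm_num) (by positivity), Real.log_pow] at h1
      have hlog4 : Real.log 4 ≤ 2 := by
        rw [show (4 : ℝ) = 2 ^ 2 by norm_num, Real.log_pow]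
        push_cast
        linarith [Real.log_two_lt_d9]
      have hI8 : ((2 ^ (I + 1) : ℕ) : ℝ) ≤ 256 * (t : ℝ) ^ 8 := by
        have : 2 ^ (I + 1) ≤ 256 * t ^ 8 := by
          rw [ht, ← pow_mul, show (256 : ℕ) = 2 ^ 8 by norm_num, ← pow_add]
          exact Nat.pow_le_pow_right (by norm_num) (by omega)
        exact_mod_cast this
      have ht8 : (1 : ℝ) ≤ (t : ℝ) ^ 8 := one_le_pow₀ ht1
      rw [Nat.cast_mul] at h1
      have h2 : ((2 ^ (I + 1) : ℕ) : ℝ) * (M : ℝ) * Real.log 2 ≤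
          256 * (t : ℝ) ^ 8 * ((M : ℝ) + 1) * 1 :=
        mul_le_mul (mul_le_mul hI8 (by linarith) (Nat.cast_nonneg _) (by positivity))
          (by linarith [Real.log_two_lt_d9]) (Real.log_pos one_lt_two).le (by positivity)
      rw [hCm]
      linarith
    rw [← Real.exp_log (show 0 < qI I by linarith), ← Real.exp_neg, Real.exp_le_exp,
      neg_le_neg_iff, le_div_iff₀ (by positivity)]
    have hlogQ : Real.log (qI I) ≤ t := by
      rw [qI_eq, Real.log_pow, ← ht]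
      exact mul_le_of_le_one_right (by linarith) (by linarith [Real.log_two_lt_d9])
    refine le_trans (mul_le_mul hlogQ (pow_le_pow_left₀ hl0.le hlle 2) (by positivity)
      (by linarith)) (le_trans ?_ hbig)
    calc (t : ℝ) * (Cm * (t : ℝ) ^ 8) ^ 2 = Cm ^ 2 * (t : ℝ) ^ 17 := by ring
      _ ≤ _ := mul_le_mul_of_nonneg_right (by linarith) (by positivity)

variable (C : Ctx)

/-- The pairs of one node in one block of upward deviations. -/
def Ctx.UpBlocks (I : ℕ) (E : ℕ → ℕ → Prop) : Prop :=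
  ∀ (r b X g j : ℕ) (z : ℤ × ℕ) (T : Finset ℕ), r ∈ C.S →
    (∀ a ∈ T, Nat.log 2 a = j ∧ ∃ q ∈ C.S, C.NearI I q r ∧ E q r ∧ C.node I q = z ∧
      C.def' I q = b ∧ qd r q = X ∧ qd q r = g * a) →
    (T.card : ℝ) ≤ 2 ^ j / qI I ^ (2 : ℕ) + 1

/-- The pairs of one node in one block of downward deviations. -/
def Ctx.DownBlocks (I : ℕ) (E : ℕ → ℕ → Prop) : Prop :=
  ∀ (r b X g j : ℕ) (z : ℤ × ℕ) (T : Finset ℕ), r ∈ C.S →
    (∀ l ∈ T, Nat.log 2 l = j ∧ ∃ q ∈ C.S, C.NearI I q r ∧ E q r ∧ C.node I q = z ∧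
      C.def' I q = b ∧ qd q r = X ∧ qd r q = g * l) →
    (T.card : ℝ) ≤ 2 ^ j / qI I ^ (2 : ℕ) + 1

open Classical in
/-- The nodes of the first members in one block are few. -/
theorem Ctx.card_le_of_node_blocks {I : ℕ} (hI : 256 ≤ I)
    (hQ : 12 * ((2 ^ (I / 8) : ℕ) : ℝ) + 4 ≤ qI I) {b j : ℕ} {X0 : ℝ} (hX0 : 0 < X0)
    (T : Finset ℕ) (W : ℕ → ℕ → Prop)
    (hW : ∀ a ∈ T, ∀ q, W a q → C.def' I q = b ∧ 0 < (C.node I q).2 ∧
      ∃ X : ℝ, X0 ≤ X ∧ X ≤ 2 * X0 ∧ (qI I ^ (10 : ℕ))⁻¹ < C.ψ q * X ∧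
        C.ψ q * X ≤ bandZ (I / 32))
    (hex : ∀ a ∈ T, ∃ q, W a q)
    (hblock : ∀ (z : ℤ × ℕ) (T' : Finset ℕ), T' ⊆ T →
      (∀ a ∈ T', ∃ q, W a q ∧ C.node I q = z) →
      (T'.card : ℝ) ≤ 2 ^ j / qI I ^ (2 : ℕ) + 1) :
    (T.card : ℝ) ≤ 2 ^ j / qI I + qI I := by
  set Q := qI I with hQd
  set Z : ℝ := (bandZ (I / 32) : ℝ) with hZ
  have hQ1 : 1 ≤ Q := one_le_qI I
  have hZ1 : 1 ≤ Z := one_le_bandZ _
  have hQ0 : 0 < Q := by linarith
  choose! q hq using hex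
  set lo : ℝ := (Q ^ (10 : ℕ))⁻¹ / (2 * X0) with hlo
  set hi : ℝ := Z / X0 with hhi
  have hlo0 : 0 < lo := by positivity
  have hnodes : ((T.image (fun a => C.node I (q a))).card : ℝ) ≤ Q := by
    have e : T.image (fun a => C.node I (q a)) = (T.image q).image (C.node I) := by
      rw [Finset.image_image]; rfl
    rw [e]
    refine (C.card_nodes_le (b := b) hlo0 ?_ (hi := hi) _ fun v hv => ?_).trans ?_
    · rw [hlo, hhi]
      refine div_le_div₀ (by positivity) ?_ hX0 (by linarith)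
      exact (inv_le_one_of_one_le₀ (one_le_pow₀ hQ1)).trans hZ1
    · obtain ⟨a, ha, rfl⟩ := Finset.mem_image.1 hv
      obtain ⟨e1, e2, X, hX1, hX2, hs1, hs2⟩ := hW a ha _ (hq a ha)
      have hX : 0 < X := hX0.trans_le hX1
      have hψ : 0 < C.ψ (q a) := by
        refine pos_of_mul_pos_left ?_ hX.le
        exact lt_trans (by positivity) hs1
      refine ⟨e1, e2, ?_, ?_⟩
      · rw [hlo, div_le_iff₀ (by positivity)]
        exact hs1.le.trans (mul_le_mul_of_nonneg_left hX2 hψ.le)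
      · rw [hhi, le_div_iff₀ hX0]
        exact (mul_le_mul_of_nonneg_left hX1 hψ.le).trans hs2
    · have e2 : hi / lo = 2 * Z * Q ^ (10 : ℕ) := by
        rw [hlo, hhi]
        field_simp
      have hlogQ : Real.logb 2 Q = ((2 ^ (I / 8) : ℕ) : ℝ) := by
        rw [hQd, qI_eq, Real.logb_pow, Real.logb_self_eq_one one_lt_two, mul_one]
      have hZQ : Real.logb 2 Z ≤ Real.logb 2 Q :=
        Real.logb_le_logb_of_le one_lt_two (by linarith) (by
          have := bandZ_pow_le_qI (n := 1) (by norm_num) hI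
          rwa [pow_one] at this)
      rw [e2, Real.logb_mul (by positivity) (by positivity),
        Real.logb_mul (by norm_num) (by linarith), Real.logb_self_eq_one one_lt_two, Real.logb_pow]
      push_cast at hlogQ hQ ⊢
      linarith
  rw [Finset.card_eq_sum_card_image (fun a => C.node I (q a)) T, Nat.cast_sum]
  calc ∑ z ∈ T.image (fun a => C.node I (q a)),
        ((T.filter (fun a => C.node I (q a) = z)).card : ℝ)
      ≤ ∑ _z ∈ T.image (fun a => C.node I (q a)), (2 ^ j / Q ^ (2 : ℕ) + 1) :=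
        Finset.sum_le_sum fun z _ => hblock z _ (Finset.filter_subset _ _) fun a ha =>
          ⟨q a, hq a (Finset.mem_filter.1 ha).1, (Finset.mem_filter.1 ha).2⟩
    _ ≤ Q * (2 ^ j / Q ^ (2 : ℕ) + 1) := by
        rw [Finset.sum_const, nsmul_eq_mul]
        exact mul_le_mul_of_nonneg_right hnodes (by positivity)
    _ = _ := by field_simp

open Classical in
/-- An event with few pairs in each node and block is small. -/
theorem eventSmall_of_blocks (M : ℕ) (c : ℝ) (E : Ctx → ℕ → (ℕ → ℕ) → ℕ → ℕ → Prop)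
    (hfacts : ∀ (C : Ctx) (I : ℕ) (jr : ℕ → ℕ) (q r : ℕ), E C I jr q r →
      ¬ C.SlackSide I q r ∧ C.rad I q * Real.sqrt (bandZ I) ≤ 1 ∧ 0 < (C.node I q).2)
    (hblocks : ∃ I1 : ℕ, ∀ (ξ K : ℝ) (C : Ctx), C.par = ⟨M, c⟩ → C.Ok ξ K →
      ∀ (I : ℕ) (jr : ℕ → ℕ), I1 ≤ I →
        C.UpBlocks I (E C I jr) ∧ C.DownBlocks I (E C I jr)) :
    EventSmall M c E := by
  obtain ⟨B, hB0, hB⟩ := exists_sparsePairs_le (1 / 100) (by norm_num) le_rfl
  obtain ⟨I0, hI0, hidx⟩ := exists_index_le M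
  obtain ⟨I1, hblocks⟩ := hblocks
  refine ⟨1 / 32768, 8 * B * (6 : ℝ) ^ (1 / 3 : ℝ), max I0 I1, by norm_num, ?_⟩
  intro ξ Kt C hpar hok I jr hI
  have hI' : 256 ≤ I := hI0.trans (le_of_max_le_left hI)
  obtain ⟨hQ4, hQn, hQfar, hQexp⟩ := hidx I (le_of_max_le_left hI) C.par (by rw [hpar])
  obtain ⟨hup, hdown⟩ := hblocks ξ Kt C hpar hok I jr (le_of_max_le_right hI)
  set Q := qI I with hQd
  set Z : ℝ := (bandZ (I / 32) : ℝ) with hZ
  have hQ1 : 1 ≤ Q := one_le_qI I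
  have hQ0 : 0 < Q := by linarith
  have hZ1 : 1 ≤ Z := one_le_bandZ _
  set Y := C.par.thr I with hY
  set H := (C.S.biUnion Nat.primeFactors).filter (fun p => Y < p) with hH
  set Ev : ℕ → ℕ → Prop := fun q r => C.NearI I q r ∧ E C I jr q r with hEv
  have hψ := hok.psi_nonneg
  have hYle : C.par.thr (I / 32) ≤ Y := C.par.thr_mono (Nat.div_le_self I 32)
  have hsame : ∀ q r, C.NearI I q r → SameCell C.k Y q r := fun q r h p hp hYp =>
    h.2.2 p hp (lt_of_le_of_lt hYle hYp)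
  -- one cell
  have hcell : ∀ v₀ ∈ C.S,
      ∑ q ∈ kCell C.k C.S Y v₀, ∑ r ∈ (kCell C.k C.S Y v₀).filter
          (fun r => dist2' C.ψ C.ψ q r ≤ Z ∧ Ev q r), wt C.ψ q * wt C.ψ r ≤
        B * (6 : ℝ) ^ (1 / 3 : ℝ) * Q ^ (-(1 / 32768 : ℝ)) *
          (4 * mass C.ψ (kCell C.k C.S Y v₀)) := by
    intro v₀ _
    set Cl := kCell C.k C.S Y v₀ with hCl
    have hclS : Cl ⊆ C.S := Finset.filter_subset _ _
    have hkk : ∀ v ∈ Cl, ∀ p : ℕ, p.Prime → Y < p → C.k v p = C.k v₀ p := fun v hv p hp hYp =>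
      ((Finset.mem_filter.1 hv).2 p hp hYp).symm
    have hHp : ∀ p ∈ H, p.Prime ∧ Y < p := fun p hp =>
      ⟨prime_of_mem_univ (Finset.mem_filter.1 hp).1, (Finset.mem_filter.1 hp).2⟩
    have hdef : ∀ v ∈ Cl, hiDef (C.k v₀) H v = C.def' I v := fun v hv =>
      Finset.prod_congr rfl fun p hp => by rw [hkk v hv p (hHp p hp).1 (hHp p hp).2]
    set Ec : ℕ → ℕ → Prop := fun q r => Ev q r ∧ q ∈ Cl ∧ r ∈ Cl with hEc
    have hslack : ∀ q r, Ev q r → (Q ^ (10 : ℕ))⁻¹ < C.ψ q * (qd r q : ℝ) ∧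
        C.ψ q * (qd r q : ℝ) ≤ Z := by
      intro q r h
      have h1 := (hfacts C I jr q r h.2).1
      rw [Ctx.SlackSide, not_le, ← hQd, Real.rpow_neg hQ0.le,
        show (10 : ℝ) = ((10 : ℕ) : ℝ) by norm_num, Real.rpow_natCast] at h1
      exact ⟨h1, (le_max_left _ _).trans h.1.2.1⟩
    have hsp : SparsePairs Cl H (C.k v₀) Y (1 / Q) Q (Q ^ (8 : ℕ)) Ec := by
      refine ⟨fun p hp => (hHp p hp).1, fun v hv p hp hYp => ?_, fun q r h p hp => ?_,
        fun q r h => ?_, fun r hr b X g j T hT => ?_, fun r hr b X g j T hT => ?_⟩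
      · exact Finset.mem_filter.2 ⟨Finset.mem_biUnion.2 ⟨v, hclS hv, hp⟩, hYp⟩
      · obtain ⟨-, h2⟩ := hsame q r h.1.1 p (hHp p hp).1 (hHp p hp).2
        rwa [hkk q h.2.1 p (hHp p hp).1 (hHp p hp).2,
          hkk r h.2.2 p (hHp p hp).1 (hHp p hp).2] at h2
      · obtain ⟨-, hrad, -⟩ := hfacts C I jr q r h.1.2
        obtain ⟨hs, -⟩ := hslack q r h.1
        rw [hdef q h.2.1]
        set ψq := C.ψ q
        have hψ0 : 0 < ψq := hok.psi_pos q (hclS h.2.1)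
        rw [Ctx.rad] at hrad
        have h1 : ψq * (C.def' I q : ℝ) * Q ^ (18 : ℕ) ≤ 1 :=
          (mul_le_mul_of_nonneg_left hQfar (by positivity)).trans hrad
        have h2 : 1 ≤ Q ^ (10 : ℕ) * (ψq * (qd r q : ℝ)) := by
          rw [← inv_mul_le_iff₀ (by positivity), mul_one]
          exact hs.le
        refine le_of_mul_le_mul_left ?_ (show 0 < Q ^ (10 : ℕ) * ψq by positivity)
        calc Q ^ (10 : ℕ) * ψq * (Q ^ (8 : ℕ) * (C.def' I q : ℝ))
            = ψq * (C.def' I q : ℝ) * Q ^ (18 : ℕ) := by ring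
          _ ≤ 1 := h1
          _ ≤ _ := h2.trans_eq (by ring)
      · rw [one_div_mul_eq_div]
        rcases T.eq_empty_or_nonempty with rfl | ⟨a0, ha0⟩
        · simp only [Finset.card_empty, Nat.cast_zero]; positivity
        obtain ⟨-, q0, hq0, he0, -, hX0, -⟩ := hT a0 ha0
        have hX : 0 < X := hX0 ▸ qd_pos (hok.pos r (hclS hr))
        refine C.card_le_of_node_blocks hI' hQn (b := b) (X0 := (X : ℝ)) (by exact_mod_cast hX) T
          (fun a q => q ∈ Cl ∧ Ec q r ∧ hiDef (C.k v₀) H q = b ∧ qd r q = X ∧ qd q r = g * a)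
          (fun a ha q hq => ?_) (fun a ha => (hT a ha).2) fun z T' hsub hT' => ?_
        · obtain ⟨hqC, hqe, hqb, hqX, -⟩ := hq
          obtain ⟨h1, h2⟩ := hslack q r hqe.1
          rw [hqX] at h1 h2
          exact ⟨(hdef q hqC).symm.trans hqb, (hfacts C I jr q r hqe.1.2).2.2, (X : ℝ), le_rfl,
            by linarith [X.cast_nonneg (α := ℝ)], h1, h2⟩
        · refine hup r b X g j z T' (hclS hr) fun a ha => ⟨(hT a (hsub ha)).1, ?_⟩
          obtain ⟨q, ⟨hqC, hqe, hqb, hqX, hqg⟩, hqz⟩ := hT' a ha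
          exact ⟨q, hclS hqC, hqe.1.1, hqe.1.2, hqz, (hdef q hqC).symm.trans hqb, hqX, hqg⟩
      · rw [one_div_mul_eq_div]
        rcases T.eq_empty_or_nonempty with rfl | ⟨a0, ha0⟩
        · simp only [Finset.card_empty, Nat.cast_zero]; positivity
        obtain ⟨-, q0, hq0, he0, -, -, hg0⟩ := hT a0 ha0
        have hga : 0 < g * a0 := hg0 ▸ qd_pos (hok.pos r (hclS hr))
        have hg : 0 < g := Nat.pos_of_mul_pos_right hga
        refine C.card_le_of_node_blocks hI' hQn (b := b) (X0 := (g : ℝ) * 2 ^ j)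
          (by positivity) T
          (fun a q => q ∈ Cl ∧ Ec q r ∧ hiDef (C.k v₀) H q = b ∧ qd q r = X ∧ qd r q = g * a)
          (fun a ha q hq => ?_) (fun a ha => (hT a ha).2) fun z T' hsub hT' => ?_
        · obtain ⟨hqC, hqe, hqb, -, hqg⟩ := hq
          obtain ⟨h1, h2⟩ := hslack q r hqe.1
          rw [hqg, Nat.cast_mul] at h1 h2
          have hag : 0 < g * a := hqg ▸ qd_pos (hok.pos r (hclS hr))
          have ha' : 0 < a := Nat.pos_of_mul_pos_left hag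
          refine ⟨(hdef q hqC).symm.trans hqb, (hfacts C I jr q r hqe.1.2).2.2,
            (g : ℝ) * a, ?_, ?_, h1, h2⟩
          · exact mul_le_mul_of_nonneg_left (pow_le_of_log_eq ha' (hT a ha).1) (Nat.cast_nonneg _)
          · rw [← mul_assoc, mul_comm (2 : ℝ), mul_assoc]
            exact mul_le_mul_of_nonneg_left (le_of_log_eq (hT a ha).1) (Nat.cast_nonneg _)
        · refine hdown r b X g j z T' (hclS hr) fun a ha => ⟨(hT a (hsub ha)).1, ?_⟩
          obtain ⟨q, ⟨hqC, hqe, hqb, hqX, hqg⟩, hqz⟩ := hT' a ha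
          exact ⟨q, hclS hqC, hqe.1.1, hqe.1.2, hqz, (hdef q hqC).symm.trans hqb, hqX, hqg⟩
    have hL1 : (1 : ℝ) ≤ Q ^ (1 / 4 : ℝ) := Real.one_le_rpow hQ1 (by norm_num)
    have h := hB C.ψ Cl H (C.k v₀) Y Z (Q ^ (2 : ℕ)) (Q ^ (1 / 4 : ℝ)) (1 / Q) Q (Q ^ (8 : ℕ)) Ec
      (fun v hv => hok.pos v (hclS hv)) hψ (by linarith) (one_le_pow₀ hQ1) hL1 (by positivity)
      (by linarith) (by rw [← pow_mul]) hsp
    refine le_trans (le_trans (le_of_eq ?_) h) ?_
    · refine Finset.sum_congr rfl fun q hq => Finset.sum_congr ?_ fun _ _ => rfl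
      ext r
      simp only [Finset.mem_filter, hEc]
      tauto
    -- the gain
    set m := mass C.ψ Cl with hm
    have hm0 : 0 ≤ m := BilinearAux.mass_nonneg hψ _
    have hm2 : m ≤ 2 := (BilinearAux.mass_mono hψ hclS).trans hok.mass_le
    have hmf : massFac (1 / 100) m m ≤ 4 * m := by
      rw [massFac, thetaX, Real.mul_rpow hm0 hm0, ← Real.rpow_add' hm0 (by norm_num)]
      have h1 : (m + m) ^ ((1 : ℝ) / 100 / 7) ≤ 2 := by
        refine (Real.rpow_le_rpow (by linarith) (show m + m ≤ 4 by linarith) (by norm_num)).trans ?_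
        calc (4 : ℝ) ^ ((1 : ℝ) / 100 / 7) ≤ (4 : ℝ) ^ (1 / 2 : ℝ) :=
              Real.rpow_le_rpow_of_exponent_le (by norm_num) (by norm_num)
          _ = 2 := by
              rw [← Real.sqrt_eq_rpow, show (4 : ℝ) = 2 ^ 2 by norm_num,
                Real.sqrt_sq (by norm_num)]
      have h2 : m ^ ((1 : ℝ) / 2 + 3 * (1 / 100) / 7 + (1 / 2 + 3 * (1 / 100) / 7)) ≤ 2 * m := by
        rw [show (1 : ℝ) / 2 + 3 * (1 / 100) / 7 + (1 / 2 + 3 * (1 / 100) / 7) = 3 / 350 + 1 by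
          norm_num, Real.rpow_add' hm0 (by norm_num), Real.rpow_one]
        refine mul_le_mul_of_nonneg_right ((Real.rpow_le_rpow hm0 hm2 (by norm_num)).trans
          (Real.rpow_le_self_of_one_le one_le_two (by norm_num))) hm0
      exact (mul_le_mul h1 h2 (Real.rpow_nonneg hm0 _) zero_le_two).trans_eq (by ring)
    have hgain : ((Q ^ (2 : ℕ)) ^ (-evSlack (1 / 100)) + (1 / Q + Q / Q ^ (2 : ℕ)) *
          (Q ^ (1 / 4 : ℝ)) ^ 2 + Real.exp (-(Q ^ (1 / 4 : ℝ) /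
            Real.log (2 + (Y : ℝ)) ^ 2))) ≤ 6 * Q ^ (-(1 / 5000 : ℝ)) := by
      have e1 : (Q ^ (2 : ℕ)) ^ (-evSlack (1 / 100)) = Q ^ (-(1 / 5000 : ℝ)) := by
        rw [← Real.rpow_natCast Q 2, ← Real.rpow_mul hQ0.le]
        norm_num [evSlack]
      have e2 : (1 / Q + Q / Q ^ (2 : ℕ)) * (Q ^ (1 / 4 : ℝ)) ^ 2 = 2 * Q ^ (-(1 / 2 : ℝ)) := by
        rw [show Q / Q ^ (2 : ℕ) = 1 / Q by field_simp, ← two_mul, ← Real.rpow_natCast _ 2,
          ← Real.rpow_mul hQ0.le, one_div, ← Real.rpow_neg_one, mul_assoc, ← Real.rpow_add hQ0]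
        norm_num
      have e3 : Q ^ (-(1 / 2 : ℝ)) ≤ Q ^ (-(1 / 5000 : ℝ)) :=
        Real.rpow_le_rpow_of_exponent_le hQ1 (by norm_num)
      have e4 : Q⁻¹ ≤ Q ^ (-(1 / 5000 : ℝ)) := by
        rw [← Real.rpow_neg_one]
        exact Real.rpow_le_rpow_of_exponent_le hQ1 (by norm_num)
      have e5 : 0 ≤ Q ^ (-(1 / 5000 : ℝ)) := Real.rpow_nonneg hQ0.le _
      rw [e1, e2]
      linarith [hQexp.trans e4]
    have hZle : Z ^ (1 - (1 : ℝ) / 100) ≤ Q ^ (1 / 32768 : ℝ) := by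
      refine (Real.rpow_le_self_of_one_le hZ1 (by norm_num)).trans ?_
      have h1 := Real.rpow_le_rpow (by positivity) (bandZ_pow_le_qI (n := 32768) le_rfl hI')
        (show (0 : ℝ) ≤ 1 / 32768 by norm_num)
      rwa [← Real.rpow_natCast, ← Real.rpow_mul (Nat.cast_nonneg _),
        show ((32768 : ℕ) : ℝ) * (1 / 32768) = 1 by norm_num, Real.rpow_one] at h1
    refine le_trans (mul_le_mul (mul_le_mul (mul_le_mul_of_nonneg_left (Real.rpow_le_rpow
      (by positivity) hgain (by norm_num)) hB0) hZle (by positivity) (by positivity)) hmf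
      (by rw [massFac]; positivity) (by positivity)) (le_of_le_of_eq ?_ rfl)
    refine mul_le_mul_of_nonneg_right ?_ (by linarith)
    rw [Real.mul_rpow (by norm_num) (Real.rpow_nonneg hQ0.le _), ← Real.rpow_mul hQ0.le,
      ← mul_assoc, mul_assoc (B * (6 : ℝ) ^ (1 / 3 : ℝ)), ← Real.rpow_add hQ0]
    exact mul_le_mul_of_nonneg_left
      (Real.rpow_le_rpow_of_exponent_le hQ1 (by norm_num)) (by positivity)
  -- all the cells
  calc ∑ q ∈ C.S, ∑ r ∈ C.S.filter (fun r => C.NearI I q r ∧ E C I jr q r), wt C.ψ q * wt C.ψ r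
      ≤ ∑ q ∈ C.S, ∑ r ∈ (kCell C.k C.S Y q).filter
          (fun r => dist2' C.ψ C.ψ q r ≤ Z ∧ Ev q r), wt C.ψ q * wt C.ψ r := by
        refine Finset.sum_le_sum fun q _ => Finset.sum_le_sum_of_subset_of_nonneg (fun r hr => ?_)
          fun r _ _ => mul_nonneg (BilinearAux.wt_nonneg hψ q) (BilinearAux.wt_nonneg hψ r)
        obtain ⟨hrS, hr⟩ := Finset.mem_filter.1 hr
        exact Finset.mem_filter.2 ⟨Finset.mem_filter.2 ⟨hrS, fun p hp hYp =>
          (hsame q r hr.1 p hp hYp).1⟩, hr.1.2.1, hr⟩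
    _ = ∑ Cl ∈ C.S.image (kCell C.k C.S Y), ∑ q ∈ Cl, ∑ r ∈ Cl.filter
          (fun r => dist2' C.ψ C.ψ q r ≤ Z ∧ Ev q r), wt C.ψ q * wt C.ψ r := by
        rw [sum_kCells C.k C.S Y]
        refine Finset.sum_congr rfl fun Cl hCl => ?_
        obtain ⟨v₀, -, rfl⟩ := Finset.mem_image.1 hCl
        exact Finset.sum_congr rfl fun q hq => by rw [kCell_eq_of_mem C.k C.S Y hq]
    _ ≤ ∑ Cl ∈ C.S.image (kCell C.k C.S Y),
          B * (6 : ℝ) ^ (1 / 3 : ℝ) * Q ^ (-(1 / 32768 : ℝ)) * (4 * mass C.ψ Cl) :=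
        Finset.sum_le_sum fun Cl hCl => by
          obtain ⟨v₀, hv₀, rfl⟩ := Finset.mem_image.1 hCl
          exact hcell v₀ hv₀
    _ = B * (6 : ℝ) ^ (1 / 3 : ℝ) * Q ^ (-(1 / 32768 : ℝ)) * (4 * mass C.ψ C.S) := by
        simp only [mass]
        rw [sum_kCells C.k C.S Y (wt C.ψ), Finset.mul_sum, Finset.mul_sum]
    _ ≤ B * (6 : ℝ) ^ (1 / 3 : ℝ) * Q ^ (-(1 / 32768 : ℝ)) * (4 * 2) := by
        gcongr
        exact hok.mass_le
    _ = _ := by ring

end Vale.Agent.P028.Full
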